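import Vale.Agent.P347.Quarter.Defs

/-!
# P347, exponent 1/4: translation of the standard Gaussian law
-/

namespace Vale.Agent.P347.Quarter

open MeasureTheory ProbabilityTheory Real Filter Topology
open scoped RealInnerProductSpace

noncomputable section

variable {H : Type*} [NormedAddCommGroup H] [InnerProductSpace ℝ H] [FiniteDimensional ℝ H]
  [MeasurableSpace H] [BorelSpace H]

/-- The density of a translated standard Gaussian law. -/
def tilt (a w : H) : ℝ := exp (⟪w, a⟫ - ‖a‖ ^ 2 / 2)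

omit [FiniteDimensional ℝ H] [MeasurableSpace H] [BorelSpace H] in
@[fun_prop]
theorem continuous_tilt : Continuous fun p : H × H => tilt p.1 p.2 := by
  unfold tilt; fun_prop

theorem integrable_exp_norm {μ : Measure H} [IsGaussian μ] (R : ℝ) :
    Integrable (fun x => exp (R * ‖x‖)) μ := by
  obtain ⟨C, hC, hi⟩ := IsGaussian.exists_integrable_exp_sq μ
  refine (hi.const_mul (exp (R ^ 2 / (4 * C)))).mono' (by fun_prop) (ae_of_all _ fun x => ?_)
  rw [norm_eq_abs, abs_exp, ← exp_add, exp_le_exp]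
  have : 0 ≤ (2 * C * ‖x‖ - R) ^ 2 / (4 * C) := by positivity
  have e : (2 * C * ‖x‖ - R) ^ 2 / (4 * C) = C * ‖x‖ ^ 2 - R * ‖x‖ + R ^ 2 / (4 * C) := by
    field_simp; ring
  linarith

variable {Y : Type*} [NormedAddCommGroup Y] [NormedSpace ℝ Y] [FiniteDimensional ℝ Y]

theorem integrable_of_growth {μ : Measure H} [IsGaussian μ] {f : H → Y}
    (hf : AEStronglyMeasurable f μ) (C R : ℝ) (h : ∀ x, ‖f x‖ ≤ C * exp (R * ‖x‖)) :
    Integrable f μ :=
  ((integrable_exp_norm R).const_mul C).mono' hf (ae_of_all _ h)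

/-- A unit vector splits off an independent standard normal variable. -/
theorem split_map {e : H} (he : ‖e‖ = 1) :
    MeasurePreserving (fun p : H × ℝ => (p.1 - ⟪p.1, e⟫ • e) + p.2 • e)
      ((stdGaussian H).prod (gaussianReal 0 1)) (stdGaussian H) := by
  have hm : Measurable fun p : H × ℝ => (p.1 - ⟪p.1, e⟫ • e) + p.2 • e :=
    Continuous.measurable (by fun_prop)
  refine ⟨hm, Measure.ext_of_charFun (funext fun s => ?_)⟩
  rw [charFun_apply, integral_map hm.aemeasurable (by fun_prop)]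
  have key : ∀ p : H × ℝ,
      Complex.exp (((⟪(p.1 - ⟪p.1, e⟫ • e) + p.2 • e, s⟫ : ℝ) : ℂ) * Complex.I)
        = Complex.exp (((⟪p.1, s - ⟪e, s⟫ • e⟫ : ℝ) : ℂ) * Complex.I)
          * Complex.exp (((⟪e, s⟫ : ℝ) : ℂ) * p.2 * Complex.I) := fun p => by
    rw [← Complex.exp_add]
    congr 1
    simp only [inner_add_left, inner_sub_left, inner_sub_right, inner_smul_left, inner_smul_right,
      RCLike.conj_to_real]
    push_cast
    ring
  simp only [key]
  rw [integral_prod_mul (f := fun x : H => Complex.exp (((⟪x, s - ⟪e, s⟫ • e⟫ : ℝ) : ℂ) * Complex.I))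
      (g := fun t : ℝ => Complex.exp (((⟪e, s⟫ : ℝ) : ℂ) * t * Complex.I)),
    ← charFun_apply, ← charFun_apply_real, charFun_stdGaussian, charFun_gaussianReal,
    charFun_stdGaussian, ← Complex.exp_add]
  congr 1
  have e2 : ‖s - ⟪e, s⟫ • e‖ ^ 2 = ‖s‖ ^ 2 - ⟪e, s⟫ ^ 2 := by
    rw [norm_sub_sq_real, inner_smul_right, real_inner_comm, norm_smul, he, mul_one,
      norm_eq_abs, sq_abs]
    ring
  rw [← Complex.ofReal_pow, e2]
  push_cast
  ring

theorem gauss_shift_real (c : ℝ) (h : ℝ → Y) :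
    ∫ t, h (t + c) ∂gaussianReal 0 1 = ∫ t, exp (c * t - c ^ 2 / 2) • h t ∂gaussianReal 0 1 := by
  rw [integral_gaussianReal_eq_integral_smul one_ne_zero,
    integral_gaussianReal_eq_integral_smul one_ne_zero,
    ← integral_sub_right_eq_self (fun t => gaussianPDFReal 0 1 t • h (t + c)) c]
  refine integral_congr_ae (ae_of_all _ fun t => ?_)
  simp only [sub_add_cancel, smul_smul, gaussianPDFReal]
  congr 1
  rw [mul_assoc _ (exp _) (exp _), ← exp_add]
  congr 2
  push_cast
  ring

/-- Translation of the standard Gaussian law. -/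
theorem gauss_shift {v : H → Y} (hv : StronglyMeasurable v) {C R : ℝ}
    (h : ∀ x, ‖v x‖ ≤ C * exp (R * ‖x‖)) (a : H) :
    ∫ w, v (w + a) ∂stdGaussian H = ∫ w, tilt a w • v w ∂stdGaussian H := by
  rcases eq_or_ne a 0 with rfl | ha
  · simp [tilt]
  set c := ‖a‖
  have hc : c ≠ 0 := norm_ne_zero_iff.2 ha
  obtain ⟨e, he, hea⟩ : ∃ e : H, ‖e‖ = 1 ∧ c • e = a :=
    ⟨c⁻¹ • a, norm_smul_inv_norm ha, by simp [smul_smul, mul_inv_cancel₀ hc]⟩
  have hS := split_map (H := H) he
  have hC : 0 ≤ C := by simpa using (norm_nonneg (v 0)).trans (h 0)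
  have hm1 : AEStronglyMeasurable (fun w => v (w + a)) (stdGaussian H) :=
    (hv.comp_measurable (measurable_add_const a)).aestronglyMeasurable
  have hk : Measurable fun w : H => tilt a w :=
    (continuous_tilt.comp (by fun_prop : Continuous fun w : H => (a, w))).measurable
  have hm2 : AEStronglyMeasurable (fun w => tilt a w • v w) (stdGaussian H) :=
    (hk.stronglyMeasurable.smul hv).aestronglyMeasurable
  have i1 : Integrable (fun w => v (w + a)) (stdGaussian H) := by
    refine integrable_of_growth hm1 (C * exp (|R| * c)) |R| fun x => (h _).trans ?_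
    rw [mul_assoc, ← exp_add]
    refine mul_le_mul_of_nonneg_left (exp_le_exp.2 ?_) hC
    nlinarith [mul_le_mul_of_nonneg_left (norm_add_le x a) (abs_nonneg R),
      mul_le_mul_of_nonneg_right (le_abs_self R) (norm_nonneg (x + a))]
  have i2 : Integrable (fun w => tilt a w • v w) (stdGaussian H) := by
    refine integrable_of_growth hm2 C (c + R) fun x => ?_
    rw [norm_smul, norm_eq_abs, tilt, abs_exp, add_mul, exp_add, ← mul_left_comm]
    refine mul_le_mul (exp_le_exp.2 ?_) (h x) (norm_nonneg _) (exp_pos _).le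
    nlinarith [real_inner_le_norm x a, sq_nonneg c]
  conv_lhs => rw [← hS.map_eq]
  conv_rhs => rw [← hS.map_eq]
  rw [integral_map hS.aemeasurable (by rw [hS.map_eq]; exact hm1),
    integral_map hS.aemeasurable (by rw [hS.map_eq]; exact hm2)]
  have j1 := hS.integrable_comp_of_integrable i1
  have j2 := hS.integrable_comp_of_integrable i2
  simp only [Function.comp_def] at j1 j2
  rw [integral_prod _ j1, integral_prod _ j2]
  refine integral_congr_ae (ae_of_all _ fun x => ?_)
  obtain ⟨y, hy⟩ : ∃ y, y = x - ⟪x, e⟫ • e := ⟨_, rfl⟩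
  have hye : ⟪y, e⟫ = 0 := by
    simp [hy, inner_sub_left, inner_smul_left, he]
  have e1 : ∀ t : ℝ, y + t • e + a = y + (t + c) • e := fun t => by
    rw [add_smul, hea, add_assoc]
  have e2 : ∀ t : ℝ, tilt a (y + t • e) = exp (c * t - c ^ 2 / 2) := fun t => by
    unfold tilt
    congr 1
    rw [← hea, inner_smul_right, inner_add_left, hye, inner_smul_left, real_inner_self_eq_norm_sq,
      norm_smul, he]
    simp
  simp only [← hy, e1, e2]
  exact gauss_shift_real c fun t => v (y + t • e)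

omit [FiniteDimensional ℝ H] [MeasurableSpace H] [BorelSpace H] in
theorem hasFDerivAt_tilt (a w : H) :
    HasFDerivAt (fun a => tilt a w) (tilt a w • innerSL ℝ (w - a)) a := by
  unfold tilt
  have h2 : HasFDerivAt (fun a : H => ‖a‖ ^ 2 / 2) (innerSL ℝ a) a := by
    have := ((hasStrictFDerivAt_norm_sq (F := H) a).hasFDerivAt).const_mul (1 / 2 : ℝ)
    refine (this.congr_fderiv ?_).congr_of_eventuallyEq (Eventually.of_forall fun x => by ring)
    ext z; simp [mul_comm]
  refine ((((innerSL ℝ w).hasFDerivAt).sub h2).exp).congr_fderiv ?_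
  rw [map_sub]
  rfl

theorem tilt_deriv_le {a a₀ w : H} (ha : ‖a - a₀‖ ≤ 1) :
    ‖tilt a w‖ * (‖w‖ + ‖a‖) ≤ exp (‖a₀‖ + 1) * exp ((‖a₀‖ + 2) * ‖w‖) := by
  have h1 : ‖a‖ ≤ ‖a₀‖ + 1 := by linarith [norm_le_norm_add_norm_sub' a a₀]
  rw [norm_eq_abs, tilt, abs_exp, ← exp_add]
  have h2 : ‖w‖ + ‖a‖ ≤ exp (‖w‖ + (‖a₀‖ + 1)) := by
    linarith [add_one_le_exp (‖w‖ + (‖a₀‖ + 1))]
  refine (mul_le_mul_of_nonneg_left h2 (exp_pos _).le).trans ?_
  rw [← exp_add, exp_le_exp]
  nlinarith [real_inner_le_norm w a, sq_nonneg ‖a‖, mul_le_mul_of_nonneg_left h1 (norm_nonneg w)]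

theorem continuous_tilt_right (a : H) : Continuous fun w : H => tilt a w :=
  continuous_tilt.comp (by fun_prop : Continuous fun w : H => (a, w))

/-- The derivative in the translation, with the kernel differentiated. -/
theorem hasFDerivAt_tilt_integral {v : H → Y} (hv : StronglyMeasurable v) {C R : ℝ}
    (h : ∀ x, ‖v x‖ ≤ C * exp (R * ‖x‖)) (a₀ : H) :
    Integrable (fun w => tilt a₀ w • (innerSL ℝ (w - a₀)).smulRight (v w)) (stdGaussian H) ∧
    HasFDerivAt (fun a => ∫ w, v (w + a) ∂stdGaussian H)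
      (∫ w, tilt a₀ w • (innerSL ℝ (w - a₀)).smulRight (v w) ∂stdGaussian H) a₀ ∧
    ContinuousAt (fun a => ∫ w, tilt a w • (innerSL ℝ (w - a)).smulRight (v w) ∂stdGaussian H)
      a₀ := by
  simp only [gauss_shift hv h]
  have hC : 0 ≤ C := by simpa using (norm_nonneg (v 0)).trans (h 0)
  have hm : ∀ a, AEStronglyMeasurable
      (fun w => tilt a w • (innerSL ℝ (w - a)).smulRight (v w)) (stdGaussian H) := fun a => by
    have hc : Continuous fun p : H × Y => tilt a p.1 • (innerSL ℝ (p.1 - a)).smulRight p.2 :=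
      ((continuous_tilt_right a).comp continuous_fst).smul
        (((ContinuousLinearMap.smulRightL ℝ H Y).continuous.comp
          ((innerSL ℝ).continuous.comp (continuous_fst.sub continuous_const))).clm_apply
            continuous_snd)
    exact (hc.comp_stronglyMeasurable (stronglyMeasurable_id.prodMk hv)).aestronglyMeasurable
  have hb : ∀ᵐ w ∂stdGaussian H, ∀ a ∈ Metric.closedBall a₀ 1,
      ‖tilt a w • (innerSL ℝ (w - a)).smulRight (v w)‖
        ≤ exp (‖a₀‖ + 1) * C * exp ((‖a₀‖ + 2 + R) * ‖w‖) := ae_of_all _ fun w a ha => by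
    rw [norm_smul, ContinuousLinearMap.norm_smulRight_apply, innerSL_apply_norm]
    have h1 := tilt_deriv_le (w := w) (show ‖a - a₀‖ ≤ 1 by simpa [dist_eq_norm] using ha)
    calc ‖tilt a w‖ * (‖w - a‖ * ‖v w‖) ≤ ‖tilt a w‖ * (‖w‖ + ‖a‖) * ‖v w‖ := by
          rw [mul_assoc]; gcongr; exact norm_sub_le _ _
      _ ≤ exp (‖a₀‖ + 1) * exp ((‖a₀‖ + 2) * ‖w‖) * (C * exp (R * ‖w‖)) :=
          mul_le_mul h1 (h w) (norm_nonneg _) (by positivity)
      _ = _ := by rw [add_mul (‖a₀‖ + 2) R ‖w‖, exp_add ((‖a₀‖ + 2) * ‖w‖) (R * ‖w‖)]; ring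
  have hi : Integrable (fun w : H => exp (‖a₀‖ + 1) * C * exp ((‖a₀‖ + 2 + R) * ‖w‖))
      (stdGaussian H) := (integrable_exp_norm _).const_mul _
  have hint : Integrable (fun w => tilt a₀ w • v w) (stdGaussian H) := by
    refine integrable_of_growth
      (((continuous_tilt_right a₀).stronglyMeasurable.smul hv).aestronglyMeasurable)
      C (‖a₀‖ + R) fun x => ?_
    rw [norm_smul, norm_eq_abs, tilt, abs_exp, add_mul, exp_add, ← mul_left_comm]
    refine mul_le_mul (exp_le_exp.2 ?_) (h x) (norm_nonneg _) (exp_pos _).le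
    nlinarith [real_inner_le_norm x a₀, sq_nonneg ‖a₀‖]
  have hball : Metric.closedBall a₀ 1 ∈ 𝓝 a₀ := Metric.closedBall_mem_nhds _ one_pos
  refine ⟨hi.mono' (hm a₀) (hb.mono fun w hw => hw a₀ (Metric.mem_closedBall_self zero_le_one)),
    hasFDerivAt_integral_of_dominated_of_fderiv_le hball
      (Eventually.of_forall fun a =>
        ((continuous_tilt_right a).stronglyMeasurable.smul hv).aestronglyMeasurable)
      hint (hm a₀) hb hi (ae_of_all _ fun w a _ => ?_), ?_⟩
  · refine ((hasFDerivAt_tilt a w).smul_const (v w)).congr_fderiv ?_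
    ext z; simp [smul_smul]
  · refine continuousAt_of_dominated (Eventually.of_forall hm) ?_ hi
      (ae_of_all _ fun w => Continuous.continuousAt ?_)
    · filter_upwards [hball] with a ha using hb.mono fun w hw => hw a ha
    · exact (continuous_tilt.comp (by fun_prop : Continuous fun a : H => (a, w))).smul
        (((ContinuousLinearMap.smulRightL ℝ H Y).continuous.comp
          ((innerSL ℝ).continuous.comp (continuous_const.sub continuous_id))).clm_apply
            continuous_const)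

omit [MeasurableSpace H] [BorelSpace H] [FiniteDimensional ℝ H] [FiniteDimensional ℝ Y] in
theorem growth_of_deriv {v : H → Y} (hv : Differentiable ℝ v) {C R : ℝ} (hR : 0 ≤ R)
    (h : ∀ x, ‖fderiv ℝ v x‖ ≤ C * exp (R * ‖x‖)) (z : H) :
    ‖v z‖ ≤ (‖v 0‖ + C) * exp ((R + 1) * ‖z‖) := by
  have hC : 0 ≤ C := by simpa using (norm_nonneg (fderiv ℝ v 0)).trans (h 0)
  have := (convex_closedBall (0 : H) ‖z‖).norm_image_sub_le_of_norm_fderiv_le
    (fun x _ => hv x)
    (C := C * exp (R * ‖z‖)) (fun x hx => (h x).trans (mul_le_mul_of_nonneg_left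
      (exp_le_exp.2 (mul_le_mul_of_nonneg_left (by simpa using hx) hR)) hC))
    (Metric.mem_closedBall_self (norm_nonneg z)) (show z ∈ Metric.closedBall 0 ‖z‖ by simp)
  rw [sub_zero] at this
  have e : exp (R * ‖z‖) * ‖z‖ ≤ exp ((R + 1) * ‖z‖) := by
    rw [add_mul, one_mul, exp_add]
    gcongr
    linarith [add_one_le_exp ‖z‖]
  have e1 : 1 ≤ exp ((R + 1) * ‖z‖) := one_le_exp (by positivity)
  nlinarith [norm_le_norm_add_norm_sub' (v z) (v 0), mul_le_mul_of_nonneg_left e hC,
    mul_le_mul_of_nonneg_left e1 (norm_nonneg (v 0))]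

/-- The derivative in the translation, with the integrand differentiated. -/
theorem hasFDerivAt_avg {v : H → Y} (hv : ContDiff ℝ 1 v) {C R : ℝ} (hR : 0 ≤ R)
    (h : ∀ x, ‖fderiv ℝ v x‖ ≤ C * exp (R * ‖x‖)) (s : ℝ) (a₀ : H) :
    HasFDerivAt (fun a => ∫ w, v (a + s • w) ∂stdGaussian H)
      (∫ w, fderiv ℝ v (a₀ + s • w) ∂stdGaussian H) a₀ := by
  have hC : 0 ≤ C := by simpa using (norm_nonneg (fderiv ℝ v 0)).trans (h 0)
  have hd : Continuous (fderiv ℝ v) := hv.continuous_fderiv one_ne_zero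
  have hb : ∀ a : H, ‖a - a₀‖ ≤ 1 → ∀ w, ‖fderiv ℝ v (a + s • w)‖
      ≤ C * exp (R * (‖a₀‖ + 1)) * exp (R * |s| * ‖w‖) := fun a ha w => by
    refine (h _).trans ?_
    rw [mul_assoc, ← exp_add]
    refine mul_le_mul_of_nonneg_left (exp_le_exp.2 ?_) hC
    have h1 := norm_add_le a (s • w)
    rw [norm_smul, norm_eq_abs] at h1
    nlinarith [norm_le_norm_add_norm_sub' a a₀]
  have hint : Integrable (fun w => v (a₀ + s • w)) (stdGaussian H) := by
    refine integrable_of_growth ((hv.continuous.comp (by fun_prop)).aestronglyMeasurable)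
      ((‖v 0‖ + C) * exp ((R + 1) * ‖a₀‖)) ((R + 1) * |s|) fun w => ?_
    refine (growth_of_deriv (hv.differentiable one_ne_zero) hR h _).trans ?_
    rw [mul_assoc (‖v 0‖ + C), ← exp_add]
    refine mul_le_mul_of_nonneg_left (exp_le_exp.2 ?_) (by positivity)
    have h2 : ‖a₀ + s • w‖ ≤ ‖a₀‖ + |s| * ‖w‖ := by
      simpa [norm_smul] using norm_add_le a₀ (s • w)
    nlinarith
  refine hasFDerivAt_integral_of_dominated_of_fderiv_le
    (F' := fun a w => fderiv ℝ v (a + s • w)) (Metric.closedBall_mem_nhds _ one_pos)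
    (Eventually.of_forall fun a => (hv.continuous.comp (by fun_prop)).aestronglyMeasurable)
    hint (hd.comp (by fun_prop)).aestronglyMeasurable
    (ae_of_all _ fun w a ha => hb a (by simpa [dist_eq_norm] using ha) w)
    ((integrable_exp_norm _).const_mul _) (ae_of_all _ fun w a _ => ?_)
  exact ((hv.differentiable one_ne_zero (a + s • w)).hasFDerivAt).comp a
    ((hasFDerivAt_id a).add_const (s • w))

/-- Integration by parts for functions of exponential growth. -/
theorem stein_vec {v : H → Y} (hv : ContDiff ℝ 1 v) {C R : ℝ} (hR : 0 ≤ R)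
    (h : ∀ x, ‖fderiv ℝ v x‖ ≤ C * exp (R * ‖x‖)) (a : H) :
    ∫ x, ⟪x, a⟫ • v x ∂stdGaussian H = ∫ x, fderiv ℝ v x a ∂stdGaussian H := by
  have hC : 0 ≤ C := by simpa using (norm_nonneg (fderiv ℝ v 0)).trans (h 0)
  have hb := growth_of_deriv (hv.differentiable one_ne_zero) hR h
  obtain ⟨i1, d1, -⟩ := hasFDerivAt_tilt_integral hv.continuous.stronglyMeasurable hb (0 : H)
  have d2 := hasFDerivAt_avg hv hR h 1 (0 : H)
  simp only [one_smul, zero_add] at d2
  have e := d1.unique (d2.congr_of_eventuallyEq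
    (Eventually.of_forall fun x => integral_congr_ae (ae_of_all _ fun w => congrArg v (add_comm w x))))
  have e' := congrArg (fun T : H →L[ℝ] Y => T a) e
  rw [ContinuousLinearMap.integral_apply i1,
    ContinuousLinearMap.integral_apply (integrable_of_growth
      (hv.continuous_fderiv one_ne_zero).aestronglyMeasurable C R h)] at e'
  simpa [tilt] using e'

end

end Vale.Agent.P347.Quarter
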