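import Vale.Agent.P347.Quarter.Gauss
import Vale.Agent.P347.Colour.Inv

/-!
# P347, exponent 1/4: the target, and the bias of the Euler reference
-/

namespace Vale.Agent.P347.Quarter

open MeasureTheory ProbabilityTheory Real WithLp
open scoped RealInnerProductSpace Gradient

noncomputable section

variable {d : ℕ}

/-- The gradient map read from the oracle. -/
def gOf (O : Colour.Pt d → Colour.Resp d) (x : E d) : E d := WithLp.toLp 2 (O (WithLp.ofLp x)).2

/-- The target on Euclidean space. -/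
def piE (V : Colour.Pt d → ℝ) : Measure (E d) :=
  (Colour.law V).map (WithLp.toLp 2 : Colour.Pt d → E d)

namespace Tgt

/-! ## Linear algebra -/

/-- The trace. -/
def tr (A : E d →L[ℝ] E d) : ℝ := ∑ i, A (EuclideanSpace.single i 1) i

theorem norm_le_of_quad {T : E d →L[ℝ] E d} {c : ℝ} (hc : 0 ≤ c)
    (hs : ∀ u v, ⟪T u, v⟫ = ⟪u, T v⟫) (hq : ∀ v, |⟪T v, v⟫| ≤ c * ‖v‖ ^ 2) : ‖T‖ ≤ c := by
  refine T.opNorm_le_bound hc fun u => ?_
  rcases (norm_nonneg (T u)).eq_or_lt with h | h
  · rw [← h]; positivity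
  have hu : 0 < ‖u‖ := norm_pos_iff.2 fun h0 => by simp [h0] at h
  set v := (‖u‖ / ‖T u‖) • T u with hv'
  have hv : ‖v‖ = ‖u‖ := by
    rw [hv', norm_smul, norm_eq_abs, abs_of_pos (by positivity)]; field_simp
  have he : ⟪T u, v⟫ = ‖u‖ * ‖T u‖ := by
    rw [hv', inner_smul_right, real_inner_self_eq_norm_sq]; field_simp
  have h4 : 4 * ⟪T u, v⟫ = ⟪T (u + v), u + v⟫ - ⟪T (u - v), u - v⟫ := by
    simp only [map_add, map_sub, inner_add_left, inner_add_right, inner_sub_left, inner_sub_right]
    rw [hs v u, real_inner_comm v (T u)]; ring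
  have hp := parallelogram_law_with_norm ℝ u v
  have h1 := (abs_le.1 (hq (u + v))).2
  have h2 := (abs_le.1 (hq (u - v))).1
  rw [hv] at hp
  have : ‖u‖ * ‖T u‖ ≤ ‖u‖ * (c * ‖u‖) := by nlinarith
  exact le_of_mul_le_mul_left this hu

theorem abs_int_le {α : Type*} [MeasurableSpace α] {μ : Measure α} [IsProbabilityMeasure μ]
    {f : α → ℝ} {C : ℝ} (h : ∀ x, |f x| ≤ C) : |∫ x, f x ∂μ| ≤ C := by
  have := norm_integral_le_of_norm_le_const (μ := μ) (f := f) (C := C) (ae_of_all _ h)
  rwa [probReal_univ, mul_one, norm_eq_abs] at this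

theorem norm_apply_le {F : Type*} [NormedAddCommGroup F] [NormedSpace ℝ F] (A : E d →L[ℝ] F)
    (u : E d) : ‖A u‖ ≤ √(∑ i, ‖A (EuclideanSpace.single i 1)‖ ^ 2) * ‖u‖ := by
  have hu : u = ∑ i, u i • EuclideanSpace.single i (1 : ℝ) := by
    simpa using ((EuclideanSpace.basisFun (Fin d) ℝ).sum_repr u).symm
  conv_lhs => rw [hu, map_sum]
  refine (norm_sum_le _ _).trans ?_
  simp only [map_smul, norm_smul]
  rw [mul_comm, EuclideanSpace.norm_eq u]
  exact Real.sum_mul_le_sqrt_mul_sqrt _ _ _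

theorem abs_tr_comp_le (A B : E d →L[ℝ] E d) : |tr (A.comp B)| ≤ √(hs A) * √(hs B) := by
  have e : tr (A.comp B) = ∑ p : Fin d × Fin d,
      A (EuclideanSpace.single p.2 1) p.1 * B (EuclideanSpace.single p.1 1) p.2 := by
    rw [Fintype.sum_prod_type, tr]
    refine Finset.sum_congr rfl fun i _ => ?_
    set u := B (EuclideanSpace.single i 1)
    have hu : u = ∑ j, u j • EuclideanSpace.single j (1 : ℝ) := by
      simpa using ((EuclideanSpace.basisFun (Fin d) ℝ).sum_repr u).symm
    show A u i = _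
    conv_lhs => rw [hu, map_sum]
    simp [u, mul_comm]
  rw [e]
  refine abs_le_of_sq_le_sq ?_ (by positivity)
  refine (Finset.sum_mul_sq_le_sq_mul_sq _ _ _).trans (le_of_eq ?_)
  rw [mul_pow, sq_sqrt (show 0 ≤ hs A from Finset.sum_nonneg fun i _ => sq_nonneg _),
    sq_sqrt (show 0 ≤ hs B from Finset.sum_nonneg fun i _ => sq_nonneg _)]
  simp only [hs, EuclideanSpace.norm_sq_eq, norm_eq_abs, sq_abs]
  rw [Fintype.sum_prod_type_right, Fintype.sum_prod_type]

theorem abs_tr_le (A : E d →L[ℝ] E d) : |tr A| ≤ √(hs A) * √d := by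
  have h := abs_tr_comp_le A (ContinuousLinearMap.id ℝ _)
  simpa [hs] using h

theorem tr_affine (A H : E d →L[ℝ] E d) (a b : ℝ) :
    tr (A.comp (a • ContinuousLinearMap.id ℝ _ - b • H)) = a * tr A - b * tr (A.comp H) := by
  simp [tr, Finset.mul_sum]

variable {g : E d → E d}

theorem pot_comb (hg : Pot g) (x : E d) {a b c : ℝ} (hb : 0 ≤ b) (h1 : a - b ≤ c)
    (h2 : -c ≤ a - 2 * b) : ‖a • ContinuousLinearMap.id ℝ (E d) - b • fderiv ℝ g x‖ ≤ c := by
  refine norm_le_of_quad (by linarith) (fun u v => ?_) fun v => ?_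
  · simp [inner_sub_left, inner_sub_right, inner_smul_left, inner_smul_right, hg.symm]
  · have h3 := mul_le_mul_of_nonneg_left (hg.lower x v) hb
    have h4 := mul_le_mul_of_nonneg_left (hg.upper x v) hb
    have h5 := mul_le_mul_of_nonneg_right h1 (sq_nonneg ‖v‖)
    have h6 := mul_le_mul_of_nonneg_right h2 (sq_nonneg ‖v‖)
    simp only [sub_apply, smul_apply, ContinuousLinearMap.id_apply, inner_sub_left,
      inner_smul_left, RCLike.conj_to_real, real_inner_self_eq_norm_sq]
    rw [abs_le]; constructor <;> nlinarith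

theorem pot_norm (hg : Pot g) (x : E d) : ‖fderiv ℝ g x‖ ≤ 2 := by
  have h := pot_comb hg x (a := (0 : ℝ)) zero_le_one (c := 2) (by norm_num) (by norm_num)
  have e : (0 : ℝ) • ContinuousLinearMap.id ℝ (E d) - (1 : ℝ) • fderiv ℝ g x = -fderiv ℝ g x := by
    ext v : 1; simp
  rwa [e, norm_neg] at h

theorem pot_lin (hg : Pot g) (x : E d) : ‖g x‖ ≤ 2 * ‖x‖ := by
  have h := convex_univ.norm_image_sub_le_of_norm_fderiv_le (𝕜 := ℝ)
    (fun y _ => hg.smooth.differentiable one_ne_zero y) (fun y _ => pot_norm hg y)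
    (Set.mem_univ 0) (Set.mem_univ x)
  simpa [hg.zero] using h

theorem pot_hs (hg : Pot g) (x : E d) : √(hs (fderiv ℝ g x)) ≤ 2 * √d := by
  rw [show (2 : ℝ) * √d = √(4 * d) by
    rw [sqrt_mul (by norm_num), show (4 : ℝ) = 2 ^ 2 by norm_num, sqrt_sq zero_le_two]]
  refine sqrt_le_sqrt ((Finset.sum_le_card_nsmul _ _ 4 fun i _ => ?_).trans (le_of_eq ?_))
  · refine (pow_le_pow_left₀ (norm_nonneg _) ((ContinuousLinearMap.le_opNorm _ _).trans
      (mul_le_mul_of_nonneg_right (pot_norm hg x) (norm_nonneg _))) 2).trans (le_of_eq ?_)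
    norm_num
  · simp [mul_comm]

/-- The affine drift of one Euler step, and its derivative. -/
theorem hasFDerivAt_drift (hg : Pot g) (z x : E d) (h r : ℝ) :
    HasFDerivAt (fun x => r • x + (1 - r) • (z - h • g x))
      (r • ContinuousLinearMap.id ℝ (E d) - ((1 - r) * h) • fderiv ℝ g x) x := by
  have hd := (hg.smooth.differentiable one_ne_zero x).hasFDerivAt
  refine (((hasFDerivAt_id x).const_smul r).add
    (((hd.const_smul h).const_sub z).const_smul (1 - r))).congr_fderiv ?_
  ext v : 1; simp [smul_smul]; module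

theorem drift_norm (hg : Pot g) (x : E d) {h r c : ℝ} (hh : 0 ≤ h) (hh' : h ≤ 1 / 4)
    (hr : 2 / 3 ≤ r) (hr' : r ≤ 1) (hc : r - (1 - r) * h ≤ c) :
    ‖r • ContinuousLinearMap.id ℝ (E d) - ((1 - r) * h) • fderiv ℝ g x‖ ≤ c := by
  have : (1 - r) * h ≤ 1 / 3 * (1 / 4) := mul_le_mul (by linarith) hh' hh (by norm_num)
  exact pot_comb hg x (mul_nonneg (by linarith) hh) hc (by linarith)

/-! ## Laws -/

/-- A law, moved to Euclidean space. -/
def lawE (U : Colour.Pt d → ℝ) : Measure (E d) :=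
  (Colour.law U).map (WithLp.toLp 2 : Colour.Pt d → E d)

theorem integral_lawE (U : Colour.Pt d → ℝ) (f : E d → ℝ) :
    ∫ x, f x ∂lawE U = ∫ x, f (toLp 2 x) ∂Colour.law U :=
  integral_map_equiv (MeasurableEquiv.toLp 2 (Colour.Pt d)) f

variable {m : ℝ} {U : Colour.Pt d → ℝ}

theorem lawE_prob (hU : Colour.SC m U) : IsProbabilityMeasure (lawE U) :=
  have := hU.isProb
  Measure.isProbabilityMeasure_map (by fun_prop)

theorem lawE_integrable (hU : Colour.SC m U) {f : E d → ℝ} (hf : Measurable f) {c₀ c₁ : ℝ}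
    (hb : ∀ x, |f x| ≤ c₀ + c₁ * ‖x‖ ^ 2) : Integrable f (lawE U) :=
  (integrable_map_equiv (MeasurableEquiv.toLp 2 (Colour.Pt d)) f).2
    (hU.integrable_law (hf.comp (by fun_prop)) fun x => hb _)

theorem lawE_integrable_lin (hU : Colour.SC m U) {f : E d → ℝ} (hf : Measurable f) {c₀ c₁ : ℝ}
    (hc : 0 ≤ c₁) (hb : ∀ x, |f x| ≤ c₀ + c₁ * ‖x‖) : Integrable f (lawE U) :=
  lawE_integrable hU hf (c₀ := c₀ + c₁) (c₁ := c₁) fun x => (hb x).trans (by
    have : ‖x‖ ≤ 1 + ‖x‖ ^ 2 := by nlinarith [sq_nonneg (‖x‖ - 1), norm_nonneg x]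
    linarith [mul_le_mul_of_nonneg_left this hc])

theorem γ_norm_le : ∫ w, ‖w‖ ∂γ d ≤ √d := by
  rcases Nat.eq_zero_or_pos d with rfl | hd
  · simp [Subsingleton.elim _ (0 : E 0)]
  have hs : 0 < √d := sqrt_pos.2 (Nat.cast_pos.2 hd)
  calc ∫ w, ‖w‖ ∂γ d ≤ ∫ w, (‖w‖ ^ 2 * (1 / (2 * √d)) + √d / 2) ∂γ d := by
        refine integral_mono γ_norm_integrable
          ((γ_sq_integrable.mul_const _).add (integrable_const _)) fun w => ?_
        have : 0 ≤ (‖w‖ - √d) ^ 2 / (2 * √d) := by positivity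
        rw [sub_sq, sub_add, sub_div, sub_div] at this
        field_simp at this ⊢
        nlinarith [sq_sqrt (Nat.cast_nonneg (α := ℝ) d)]
    _ = √d := by
        rw [integral_add (γ_sq_integrable.mul_const _) (integrable_const _), integral_mul_const,
          γ_norm_sq, integral_const, probReal_univ, one_smul]
        field_simp
        rw [sq_sqrt (Nat.cast_nonneg _)]; ring

theorem law_quad_one :
    Colour.law (fun n : Colour.Pt d => (1 : ℝ) / 2 * Colour.nr n ^ 2)
      = Measure.pi fun _ => gaussianReal 0 1 := by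
  have hq := Colour.sc_quad (d := d) one_pos
  have := hq.isProb
  refine (Measure.pi_eq fun s hs => ?_).symm
  have h1 : ∀ t : Set ℝ, MeasurableSet t → (gaussianReal 0 1).real t
      = (∫ x, t.indicator 1 x * exp (-(1 / 2 * x ^ 2))) / ∫ x, exp (-(1 / 2 * x ^ 2)) := by
    intro t ht
    have e : ∀ f : ℝ → ℝ, ∫ x, f x ∂gaussianReal 0 1
        = (√(2 * π))⁻¹ * ∫ x, f x * exp (-(1 / 2 * x ^ 2)) := fun f => by
      rw [integral_gaussianReal_eq_integral_smul one_ne_zero, ← integral_const_mul]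
      congr 1; funext x; simp [gaussianPDFReal]; ring_nf
    have h0 := e fun _ => 1
    simp only [integral_const, probReal_univ, one_smul, one_mul] at h0
    rw [← integral_indicator_one ht, e]
    set Z := ∫ x, exp (-(1 / 2 * x ^ 2))
    have hZ : Z ≠ 0 := fun h => by rw [h, mul_zero] at h0; exact one_ne_zero h0
    rw [eq_div_iff hZ, mul_comm (√(2 * π))⁻¹, mul_assoc, ← h0, mul_one]
  rw [← ENNReal.ofReal_toReal (measure_ne_top _ _), ← measureReal_def,
    ← integral_indicator_one (MeasurableSet.univ_pi hs), hq.integral_law]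
  have e1 : ∀ x : Colour.Pt d, exp (-((1 : ℝ) / 2 * Colour.nr x ^ 2))
      = ∏ i, exp (-(1 / 2 * x i ^ 2)) := fun x => by
    rw [← exp_sum, Colour.nr_sq, Finset.mul_sum, Finset.sum_neg_distrib]
  have e2 : ∀ x : Colour.Pt d, (Set.univ.pi s).indicator (1 : Colour.Pt d → ℝ) x
      * exp (-((1 : ℝ) / 2 * Colour.nr x ^ 2))
      = ∏ i, (s i).indicator (1 : ℝ → ℝ) (x i) * exp (-(1 / 2 * x i ^ 2)) := fun x => by
    rw [Finset.prod_mul_distrib, ← e1]
    congr 1
    by_cases hx : x ∈ Set.univ.pi s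
    · rw [Set.indicator_of_mem hx, Pi.one_apply]
      exact (Finset.prod_eq_one fun i _ => Set.indicator_of_mem (hx i (Set.mem_univ i)) _).symm
    · rw [Set.indicator_of_notMem hx]
      obtain ⟨i, hi⟩ : ∃ i, x i ∉ s i := by simpa using hx
      exact (Finset.prod_eq_zero (Finset.mem_univ i) (by simp [hi])).symm
  simp only [e2]
  simp only [e1]
  rw [integral_fintype_prod_volume_eq_prod
      (fun i t => (s i).indicator (1 : ℝ → ℝ) t * exp (-(1 / 2 * t ^ 2))),
    integral_fintype_prod_volume_eq_prod (fun (_ : Fin d) t => exp (-((1 : ℝ) / 2 * t ^ 2))),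
    ← Finset.prod_div_distrib, ENNReal.ofReal_prod_of_nonneg fun i _ => ?_]
  · refine Finset.prod_congr rfl fun i _ => ?_
    rw [← h1 _ (hs i), measureReal_def, ENNReal.ofReal_toReal (measure_ne_top _ _)]
  · rw [← h1 _ (hs i)]; exact measureReal_nonneg

theorem quad_integral {a : ℝ} (ha : 0 < a) (f : E d → ℝ) :
    ∫ n, f (toLp 2 n) ∂Colour.law (fun n : Colour.Pt d => a / 2 * Colour.nr n ^ 2)
      = ∫ w, f (√(1 / a) • w) ∂γ d := by
  set c := √(1 / a)
  have hc : 0 < c := by positivity
  have e : ∫ w, f (c • w) ∂γ d = ∫ n, f (toLp 2 (c • n))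
      ∂Colour.law (fun n : Colour.Pt d => (1 : ℝ) / 2 * Colour.nr n ^ 2) := by
    rw [law_quad_one, γ, ← map_pi_eq_stdGaussian]
    exact integral_map_equiv (MeasurableEquiv.toLp 2 (Colour.Pt d)) fun w => f (c • w)
  rw [e, (Colour.sc_quad ha).integral_law, (Colour.sc_quad one_pos).integral_law]
  have e1 : ∀ n : Colour.Pt d, exp (-((1 : ℝ) / 2 * Colour.nr n ^ 2))
      = exp (-(a / 2 * Colour.nr (c • n) ^ 2)) := fun n => by
    rw [Colour.nr_smul, mul_pow, sq_abs, sq_sqrt (by positivity)]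
    congr 1; field_simp
  simp only [e1]
  rw [Measure.integral_comp_smul volume
      (fun n : Colour.Pt d => f (toLp 2 n) * exp (-(a / 2 * Colour.nr n ^ 2))) c,
    Measure.integral_comp_smul volume (fun n : Colour.Pt d => exp (-(a / 2 * Colour.nr n ^ 2))) c]
  simp only [smul_eq_mul]
  rw [mul_div_mul_left _ _ (by positivity)]

/-- The exact backward law at `z`. -/
def back (h : ℝ) (V : Colour.Pt d → ℝ) (z : E d) : Measure (E d) :=
  lawE (Colour.W (1 / h) V (ofLp z))

variable {χ : ℕ} {col : Fin d → Fin χ} {V : Colour.Pt d → ℝ} {h : ℝ}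

theorem back_mean (hV : Colour.Cls col V) (hd : 2 ≤ d) (hh : 0 < h) (z : E d) :
    ∫ x, ‖x‖ ∂back h V z ≤ √(8 * d) + 2 * ‖z‖ := by
  rw [back, integral_lawE]
  exact (hV.mean_W (one_div_pos.2 hh) hd (ofLp z)).2

/-- Integration by parts under the backward law. -/
theorem back_ibp (hV : Colour.Cls col V) (hh : 0 < h) (z : E d) {F : E d → E d}
    (hF : ContDiff ℝ 1 F) {B K : ℝ} (hB : ∀ x, ‖F x‖ ≤ B) (hK : ∀ x, ‖fderiv ℝ F x‖ ≤ K) :
    ∫ x, ⟪F x, h • gOf (Colour.oracle V) x + x - z⟫ ∂back h V z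
      = h * ∫ x, tr (fderiv ℝ F x) ∂back h V z := by
  set a := 1 / h
  have ha : 0 < a := one_div_pos.2 hh
  set y := ofLp z
  set W := Colour.W a V y
  have hW : Colour.SC (1 + a) W := hV.sc_W ha y
  let L : Colour.Pt d ≃L[ℝ] E d := (PiLp.continuousLinearEquiv 2 ℝ fun _ : Fin d => ℝ).symm
  set W' := fun (x : Colour.Pt d) (i : Fin d) =>
    fderiv ℝ V x (Pi.single i 1) + a * (x i - y i)
  have hW' : ∀ x i, DifferentiableAt ℝ W x ∧ fderiv ℝ W x (Pi.single i 1) = W' x i := by
    intro x i
    have h1 := (L.hasFDerivAt.comp x ((hasFDerivAt_id x).sub_const y)).norm_sq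
    have h2 := ((hV.smooth.differentiable two_ne_zero x).hasFDerivAt).add (h1.const_mul (a / 2))
    have e : W = fun x => V x + a / 2 * ‖L (x - y)‖ ^ 2 := rfl
    refine ⟨e ▸ h2.differentiableAt, ?_⟩
    rw [e]
    refine (DFunLike.congr_fun h2.fderiv (Pi.single i 1)).trans ?_
    simp [W', L, EuclideanSpace.inner_single_right]
    ring
  have hWc : ∀ i, Continuous fun x => W' x i := fun i =>
    ((hV.contDiff_fderiv.continuous).clm_apply continuous_const).add (by fun_prop)
  set f := fun (i : Fin d) (x : Colour.Pt d) => F (toLp 2 x) i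
  set f' := fun (i : Fin d) (x : Colour.Pt d) =>
    fderiv ℝ F (toLp 2 x) (EuclideanSpace.single i 1) i
  have hf : ∀ x i, DifferentiableAt ℝ (f i) x ∧ fderiv ℝ (f i) x (Pi.single i 1) = f' i x := by
    intro x i
    have h1 := (EuclideanSpace.proj i : E d →L[ℝ] ℝ).hasFDerivAt.comp x
      ((hF.differentiable one_ne_zero (L x)).hasFDerivAt.comp x L.hasFDerivAt)
    refine ⟨h1.differentiableAt, ?_⟩
    refine (DFunLike.congr_fun h1.fderiv (Pi.single i 1)).trans ?_
    have : L (Pi.single i 1) = EuclideanSpace.single i (1 : ℝ) := by ext j; simp [L]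
    simp only [ContinuousLinearMap.comp_apply, ContinuousLinearEquiv.coe_coe, this]
    rfl
  have hf'c : ∀ i, Continuous (f' i) := fun i =>
    (EuclideanSpace.proj i : E d →L[ℝ] ℝ).continuous.comp
      (((hF.continuous_fderiv one_ne_zero).comp (by fun_prop)).clm_apply continuous_const)
  have hFc := hF.continuous
  have hB0 : 0 ≤ B := (norm_nonneg _).trans (hB 0)
  have hK0 : 0 ≤ K := (norm_nonneg _).trans (hK 0)
  have hfb : ∀ i x, |f i x| ≤ B := fun i x => (PiLp.norm_apply_le _ i).trans (hB _)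
  have hfb' : ∀ i x, |f' i x| ≤ K := fun i x => (PiLp.norm_apply_le _ i).trans
    ((ContinuousLinearMap.le_opNorm _ _).trans ((mul_le_mul_of_nonneg_right (hK _)
      (norm_nonneg _)).trans_eq (by simp)))
  have hWb : ∀ i x, |f i x * W' x i|
      ≤ B * (a * Colour.nr y + (2 + a)) + B * (2 + a) * Colour.nr x ^ 2 := fun i x => by
    have h1 := hV.grad_le x i
    have h2 : |x i - y i| ≤ Colour.nr x + Colour.nr y :=
      (abs_sub _ _).trans (add_le_add (Colour.abs_apply_le_nr x i) (Colour.abs_apply_le_nr y i))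
    have h3 : Colour.nr x ≤ 1 + Colour.nr x ^ 2 := by
      nlinarith [sq_nonneg (Colour.nr x - 1), Colour.nr_nonneg x]
    have h4 : |W' x i| ≤ (2 + a) * Colour.nr x + a * Colour.nr y := by
      refine (abs_add_le _ _).trans ?_
      rw [abs_mul, abs_of_pos ha]
      nlinarith [mul_le_mul_of_nonneg_left h2 ha.le]
    rw [abs_mul]
    refine (mul_le_mul (hfb i x) h4 (abs_nonneg _) hB0).trans ?_
    nlinarith [mul_le_mul_of_nonneg_left h3 (mul_nonneg hB0 (by linarith : 0 ≤ 2 + a))]
  have key : ∀ i, ∫ x, f i x * W' x i ∂Colour.law W = ∫ x, f' i x ∂Colour.law W := by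
    intro i
    rw [hW.integral_law, hW.integral_law]
    congr 1
    have hg : ∀ x, HasFDerivAt (fun x => exp (-W x)) (exp (-W x) • (-fderiv ℝ W x)) x := fun x =>
      (hW' x i).1.hasFDerivAt.neg.exp
    have hg' : ∀ x, fderiv ℝ (fun x => exp (-W x)) x (Pi.single i 1)
        = -(W' x i * exp (-W x)) := fun x => by
      rw [(hg x).fderiv]; simp [(hW' x i).2, mul_comm]
    have hi : Integrable fun x => f i x * W' x i * exp (-W x) :=
      Colour.integrable_mul_exp_of_grow hW.cont hW.grow
        (Continuous.measurable (by fun_prop)) (hWb i)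
    have hrep : ∀ x, f i x * fderiv ℝ (fun x => exp (-W x)) x (Pi.single i 1)
        = -(f i x * W' x i * exp (-W x)) := fun x => by rw [hg']; ring
    have h := integral_mul_fderiv_eq_neg_fderiv_mul_of_integrable (μ := volume) (f := f i)
      (g := fun x => exp (-W x)) (v := Pi.single i 1)
      (by simp only [(hf _ i).2]; exact hW.integrable_mul (hf'c i).measurable (hfb' i))
      (by simp only [hrep]; exact hi.neg)
      (hW.integrable_mul (Continuous.measurable (by fun_prop)) (hfb i))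
      (fun x _ => (hf x i).1) (fun x _ => (hg x).differentiableAt)
    simp only [hrep, (hf _ i).2, integral_neg, neg_inj] at h
    exact h
  rw [back, integral_lawE, integral_lawE]
  have e : ∀ x : Colour.Pt d, ⟪F (toLp 2 x), h • gOf (Colour.oracle V) (toLp 2 x) + toLp 2 x - z⟫
      = h * ∑ i, f i x * W' x i := fun x => by
    simp only [PiLp.inner_apply, RCLike.inner_apply, conj_trivial, Finset.mul_sum]
    refine Finset.sum_congr rfl fun i _ => ?_
    simp [f, W', a, y, gOf, Colour.oracle]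
    field_simp
    ring
  simp only [e, tr]
  rw [integral_const_mul, integral_finsetSum, integral_finsetSum]
  · congr 1; exact Finset.sum_congr rfl fun i _ => key i
  · exact fun i _ => hW.integrable_law (hf'c i).measurable (c₀ := K) (c₁ := 0)
      fun x => by simpa using hfb' i x
  · exact fun i _ => hW.integrable_law (Continuous.measurable (by fun_prop)) (hWb i)

/-! ## One step -/

/-- Facts about a smoothed bounded field. -/
theorem smoothed {b L : ℝ} (hb : 0 < b) {v : E d → E d} (hv : Measurable v)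
    (hL : ∀ x, ‖v x‖ ≤ L) :
    ContDiff ℝ 1 (G b v) ∧ (∀ y, ‖G b v y‖ ≤ L) ∧
      (∀ y, √(hs (fderiv ℝ (G b v) y)) ≤ L / √b) ∧
      ∀ y a c, ∫ w, ⟪v (y + √b • w), a + c • w⟫ ∂γ d
        = ⟪G b v y, a⟫ + c * √b * tr (fderiv ℝ (G b v) y) := by
  obtain ⟨h1, h2, h3⟩ := G_contDiff hb hv hL
  have hL0 : 0 ≤ L := (norm_nonneg _).trans (hL 0)
  have hm : ∀ y, Measurable fun w => v (y + √b • w) := fun y => hv.comp (by fun_prop)
  refine ⟨h1, fun y => ?_, fun y => ?_, fun y a c => ?_⟩
  · exact (norm_integral_le_of_norm_le_const (μ := γ d) (ae_of_all _ fun w => hL _)).trans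
      (le_of_eq (by rw [probReal_univ, mul_one]))
  · have h4 : G b (fun y => ‖v y‖ ^ 2) y ≤ L ^ 2 := by
      refine (le_abs_self _).trans (abs_int_le (μ := γ d) fun w => ?_)
      rw [abs_of_nonneg (sq_nonneg _)]; exact pow_le_pow_left₀ (norm_nonneg _) (hL _) 2
    have h5 : hs (fderiv ℝ (G b v) y) ≤ (L / √b) ^ 2 := by
      rw [div_pow, sq_sqrt hb.le, le_div_iff₀ hb, mul_comm]
      have := h3 y
      unfold hs
      linarith [sq_nonneg ‖G b v y‖]
    exact (sqrt_le_sqrt h5).trans_eq (sqrt_sq (by positivity))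
  · have hi : Integrable (fun w => v (y + √b • w)) (γ d) :=
      (integrable_const L).mono' (hm y).aestronglyMeasurable (ae_of_all _ fun w => hL _)
    have hw : Integrable (fun w => ⟪v (y + √b • w), w⟫) (γ d) :=
      (γ_norm_integrable.const_mul L).mono' ((hm y).inner measurable_id).aestronglyMeasurable
        (ae_of_all _ fun w => (abs_real_inner_le_norm _ _).trans
          (mul_le_mul_of_nonneg_right (hL _) (norm_nonneg _)))
    have hiw : ∀ i, Integrable (fun w : E d => w i * v (y + √b • w) i) (γ d) := fun i =>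
      (γ_norm_integrable.mul_const L).mono' (Measurable.aestronglyMeasurable (by fun_prop))
        (ae_of_all _ fun w => by
          rw [norm_mul]
          exact mul_le_mul (PiLp.norm_apply_le _ i) ((PiLp.norm_apply_le _ i).trans (hL _))
            (norm_nonneg _) (norm_nonneg _))
    simp only [inner_add_right, inner_smul_right]
    rw [integral_add (hi.inner_const a) (hw.const_mul c), integral_const_mul, mul_assoc]
    congr 1
    · simp only [real_inner_comm a]
      exact integral_inner hi a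
    congr 1
    have ht : ∀ i, fderiv ℝ (G b v) y (EuclideanSpace.single i 1) i
        = (√b)⁻¹ * ∫ w, w i * v (y + √b • w) i ∂γ d := fun i => by
      have hs : Integrable (fun w => (⟪w, EuclideanSpace.single i (1 : ℝ)⟫ / √b) •
          v (y + √b • w)) (γ d) := by
        refine (γ_norm_integrable.mul_const (L / √b)).mono'
          (Measurable.aestronglyMeasurable (by fun_prop)) (ae_of_all _ fun w => ?_)
        rw [norm_smul, norm_div, norm_eq_abs √b, abs_of_nonneg (sqrt_nonneg b),
          div_mul_eq_mul_div, ← mul_div_assoc]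
        refine div_le_div_of_nonneg_right (mul_le_mul ?_ (hL _) (norm_nonneg _) (norm_nonneg _))
          (sqrt_nonneg b)
        simpa using abs_real_inner_le_norm w (EuclideanSpace.single i (1 : ℝ))
      rw [h2, ← integral_const_mul]
      refine ((EuclideanSpace.proj i : E d →L[ℝ] ℝ).integral_comp_comm hs).symm.trans ?_
      congr 1; funext w
      simp [EuclideanSpace.inner_single_right]
      ring
    simp only [tr, ht]
    rw [← Finset.mul_sum, ← integral_finsetSum _ fun i _ => hiw i,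
      mul_inv_cancel_left₀ (sqrt_pos.2 hb).ne']
    simp [PiLp.inner_apply]

/-- One step of the Euler chain, on test functions. -/
def step (h β : ℝ) (g : E d → E d) (z : E d) (φ : E d → ℝ) (x : E d) : ℝ :=
  G (h * (1 - β ^ 2)) φ (β • x + (1 - β) • (z - h • g x))

variable {β L : ℝ} {φ : E d → ℝ}

theorem step_lip1 (hg : Pot g) (hh : 0 < h) (hh' : h ≤ 1 / 4) (hβ : 2 / 3 ≤ β) (hβ' : β < 1)
    (z : E d) (hφ : Lip1 φ L) : Lip1 (step h β g z φ) (β * L) := by
  have hb : 0 < h * (1 - β ^ 2) := mul_pos hh (by nlinarith)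
  have hT := fun x => hasFDerivAt_drift hg z x h β
  obtain ⟨h1, -, -⟩ := G_contDiff hb hφ.smooth.continuous.measurable (B := 1) fun x => by
    simpa using hφ.bdd x
  refine ⟨fun x => ?_, ?_, fun x => ?_⟩
  · exact abs_int_le (μ := γ d) fun w => hφ.bdd _
  · exact h1.comp (by have := hg.smooth; fun_prop)
  · have e := ((h1.differentiable one_ne_zero _).hasFDerivAt).comp x (hT x)
    rw [show fderiv ℝ (step h β g z φ) x = _ from e.fderiv]
    refine (ContinuousLinearMap.opNorm_comp_le _ _).trans ?_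
    rw [mul_comm β]
    refine mul_le_mul ?_ (drift_norm hg x hh.le hh' hβ hβ'.le (by
      linarith [mul_nonneg (sub_nonneg.2 hβ'.le) hh.le])) (norm_nonneg _)
      ((norm_nonneg _).trans (hφ.lip 0))
    rw [fderiv_G hb.le hφ.smooth hφ.lip]
    exact (norm_integral_le_of_norm_le_const (μ := γ d) (ae_of_all _ fun w => hφ.lip _)).trans
      (le_of_eq (by rw [probReal_univ, mul_one]))

/-- One step almost preserves the backward law. -/
theorem step_inv (hV : Colour.Cls col V) (hg : Pot (gOf (Colour.oracle V))) (hh : 0 < h)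
    (hh' : h ≤ 1 / 4) (hβ : 2 / 3 ≤ β) (hβ' : β < 1) (z : E d) (hφ : Lip1 φ L) :
    |∫ x, step h β (gOf (Colour.oracle V)) z φ x ∂back h V z - ∫ x, φ x ∂back h V z|
      ≤ 2 * √d * L * (h * √h) * ((1 - β) * √(1 - β)) := by
  set g := gOf (Colour.oracle V)
  set ν := back h V z
  have hW : Colour.SC (1 + 1 / h) _ := hV.sc_W (one_div_pos.2 hh) (ofLp z)
  have : IsProbabilityMeasure ν := lawE_prob hW
  have hν1 : Integrable (fun x => ‖x‖) ν :=
    lawE_integrable_lin hW (by fun_prop) (c₀ := 0) zero_le_one fun x => by simp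
  have hL0 : 0 ≤ L := (norm_nonneg _).trans (hφ.lip 0)
  have hgc := hg.smooth.continuous
  have hφc := hφ.smooth.continuous
  set T := fun (r : ℝ) (x : E d) => r • x + (1 - r) • (z - h • g x)
  set p := fun (r : ℝ) (q : E d × E d) => T r q.1 + √(h * (1 - r ^ 2)) • q.2
  set u := fun x : E d => h • g x + x - z
  set c := fun r : ℝ => -(h * r) / √(h * (1 - r ^ 2))
  set F := fun r : ℝ => ∫ q, φ (p r q) ∂ν.prod (γ d)
  set v := ∇ φ
  have hv : Continuous v := (InnerProductSpace.toDual ℝ (E d)).symm.continuous.comp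
    (hφ.smooth.continuous_fderiv one_ne_zero)
  have hvL : ∀ x, ‖v x‖ ≤ L := fun x => by simp [v, gradient]; exact hφ.lip x
  set F' := fun r : ℝ => -(h ^ 2 * (1 - r)) *
    ∫ x, tr ((fderiv ℝ (G (h * (1 - r ^ 2)) v) (T r x)).comp (fderiv ℝ g x)) ∂ν
  have hFc : Continuous F := continuous_of_dominated (bound := fun _ => 1)
    (fun r => (Continuous.aestronglyMeasurable (by fun_prop)))
    (fun r => ae_of_all _ fun q => hφ.bdd _) (integrable_const _)
    (ae_of_all _ fun q => by fun_prop)
  have hder : ∀ r ∈ Set.Ioo β 1, HasDerivAt F (F' r) r ∧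
      |F' r| ≤ 2 * √d * L * (h * √h) * √(1 - β) := by
    intro r hr
    set b := h * (1 - r ^ 2) with hbdef
    have hr0 : 2 / 3 ≤ r := hβ.trans hr.1.le
    have hb : 0 < b := mul_pos hh (by nlinarith [hr.2])
    obtain ⟨hG1, hG2, hG3, hG4⟩ := smoothed hb hv.measurable hvL
    set A := fun x => fderiv ℝ (G b v) (T r x)
    have hTc : Continuous (T r) := by fun_prop
    have hAc : Continuous A := (hG1.continuous_fderiv one_ne_zero).comp hTc
    have hHc := hg.smooth.continuous_fderiv one_ne_zero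
    have htc : ∀ B : E d → E d →L[ℝ] E d, Continuous B → Continuous fun x => tr (B x) :=
      fun B hB => continuous_finsetSum _ fun i _ =>
        (EuclideanSpace.proj i : E d →L[ℝ] ℝ).continuous.comp (hB.clm_apply continuous_const)
    have htA : ∀ x, |tr (A x)| ≤ L / √b * √d := fun x => (abs_tr_le _).trans
      (mul_le_mul_of_nonneg_right (hG3 _) (sqrt_nonneg _))
    have htH : ∀ x, |tr ((A x).comp (fderiv ℝ g x))| ≤ L / √b * (2 * √d) := fun x =>
      (abs_tr_comp_le _ _).trans (mul_le_mul (hG3 _) (pot_hs hg x) (sqrt_nonneg _) (by positivity))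
    constructor
    · set r' := (1 + r) / 2
      have hr' : r < r' ∧ r' < 1 := ⟨by simp only [r']; linarith [hr.2], by
        simp only [r']; linarith [hr.2]⟩
      set C := h / √(h * (1 - r' ^ 2))
      set D := fun (s : ℝ) (q : E d × E d) => fderiv ℝ φ (p s q) (u q.1 + c s • q.2)
      set bd := fun q : E d × E d => L * (2 * ‖q.1‖ + ‖z‖ + C * ‖q.2‖)
      have hbd : Integrable bd (ν.prod (γ d)) :=
        ((((hν1.const_mul 2).add (integrable_const ‖z‖)).comp_fst (γ d)).add
          ((γ_norm_integrable.const_mul C).comp_snd ν)).const_mul L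
      have hlin : ∀ x, ‖u x‖ ≤ 2 * ‖x‖ + ‖z‖ := fun x => by
        refine (norm_sub_le _ _).trans (add_le_add ((norm_add_le _ _).trans ?_) le_rfl)
        rw [norm_smul, norm_eq_abs, abs_of_pos hh]
        nlinarith [mul_le_mul hh' (pot_lin hg x) (norm_nonneg (g x)) (by norm_num), norm_nonneg x]
      have hD : ∀ s ∈ Set.Ioo β r', ∀ q, ‖D s q‖ ≤ bd q := fun s hs q => by
        have h1 : |c s| ≤ C := by
          have hs0 : 0 ≤ s := by linarith [hs.1]
          simp only [c, C]
          rw [abs_div, abs_neg, abs_of_nonneg (mul_nonneg hh.le hs0), abs_of_nonneg (sqrt_nonneg _)]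
          exact div_le_div₀ hh.le (mul_le_of_le_one_right hh.le (by linarith [hs.2, hr'.2]))
            (sqrt_pos.2 (mul_pos hh (by nlinarith [hr'.2, hr'.1])))
            (sqrt_le_sqrt (mul_le_mul_of_nonneg_left (by nlinarith [hs.2]) hh.le))
        refine ((fderiv ℝ φ (p s q)).le_opNorm _).trans (mul_le_mul (hφ.lip _)
          ((norm_add_le _ _).trans (add_le_add (hlin _) ?_)) (norm_nonneg _) hL0)
        rw [norm_smul]; exact mul_le_mul_of_nonneg_right h1 (norm_nonneg _)
      have hdiff : ∀ s ∈ Set.Ioo β r', ∀ q, HasDerivAt (fun s => φ (p s q)) (D s q) s := by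
        intro s hs q
        have hs1 : h * (1 - s ^ 2) ≠ 0 :=
          (mul_pos hh (by nlinarith [hs.1, hs.2, hr'.2])).ne'
        have hsq := ((((hasDerivAt_pow 2 s).const_sub 1).const_mul h).sqrt hs1).smul_const q.2
        have hlin' := ((hasDerivAt_id s).smul_const q.1).add
          (((hasDerivAt_id s).const_sub 1).smul_const (z - h • g q.1))
        refine ((hφ.smooth.differentiable one_ne_zero (p s q)).hasFDerivAt.comp_hasDerivAt s
          (hlin'.add hsq)).congr_deriv ?_
        simp only [D, u, c]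
        congr 1
        rw [show (h * -(((2 : ℕ) : ℝ) * s ^ (2 - 1))) / (2 * √(h * (1 - s ^ 2)))
          = -(h * s) / √(h * (1 - s ^ 2)) by push_cast; field_simp]
        module
      have hp : ∀ s, Continuous fun q => p s q := fun s => by fun_prop
      have hDm : Continuous (D r) :=
        ((hφ.smooth.continuous_fderiv one_ne_zero).comp (hp r)).clm_apply (by fun_prop)
      obtain ⟨hDi, hd'⟩ := hasDerivAt_integral_of_dominated_loc_of_deriv_le
        (μ := ν.prod (γ d)) (F := fun s q => φ (p s q)) (F' := D) (bound := bd)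
        (Ioo_mem_nhds hr.1 hr'.1)
        (Filter.Eventually.of_forall fun s => (hφc.comp (hp s)).aestronglyMeasurable)
        ((integrable_const 1).mono' (hφc.comp (hp r)).aestronglyMeasurable
          (ae_of_all _ fun q => hφ.bdd _))
        hDm.aestronglyMeasurable (ae_of_all _ fun q s hs => hD s hs q) hbd
        (ae_of_all _ fun q s hs => hdiff s hs q)
      refine hd'.congr_deriv ?_
      have hinner : ∀ x, ∫ w, D r (x, w) ∂γ d = ⟪G b v (T r x), u x⟫ - h * r * tr (A x) := by
        intro x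
        have e : ∀ w, D r (x, w) = ⟪v (T r x + √b • w), u x + c r • w⟫ := fun w =>
          inner_gradient_left.symm
        simp only [e]
        rw [hG4, show c r * √b = -(h * r) from div_mul_cancel₀ _ (sqrt_pos.2 hb).ne']
        ring
      rw [integral_prod _ hDi]
      simp only [hinner]
      have hi1 : Integrable (fun x => ⟪G b v (T r x), u x⟫) ν :=
        lawE_integrable_lin hW (Continuous.measurable ((hG1.continuous.comp hTc).inner
          (by fun_prop))) (c₀ := L * ‖z‖) (c₁ := L * 2) (by positivity) fun x => by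
          refine (abs_real_inner_le_norm _ _).trans ((mul_le_mul (hG2 _) (hlin x)
            (norm_nonneg _) hL0).trans (le_of_eq ?_))
          ring
      have hiA : Integrable (fun x => tr (A x)) ν :=
        (integrable_const _).mono' (htc A hAc).aestronglyMeasurable (ae_of_all _ htA)
      have hiH : Integrable (fun x => tr ((A x).comp (fderiv ℝ g x))) ν :=
        (integrable_const _).mono' (htc _ (hAc.clm_comp hHc)).aestronglyMeasurable
          (ae_of_all _ htH)
      have hT := fun x => hasFDerivAt_drift hg z x h r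
      have hFd : ∀ x, fderiv ℝ (G b v ∘ T r) x = (A x).comp
          (r • ContinuousLinearMap.id ℝ (E d) - ((1 - r) * h) • fderiv ℝ g x) := fun x =>
        ((hG1.differentiable one_ne_zero _).hasFDerivAt.comp x (hT x)).fderiv
      have hibp := back_ibp hV hh z (F := G b v ∘ T r)
        (hG1.comp (by have := hg.smooth; fun_prop)) (B := L) (K := L / √b)
        (fun x => hG2 _) fun x => by
          rw [hFd]
          refine (ContinuousLinearMap.opNorm_comp_le _ _).trans ((mul_le_mul ?_
            (drift_norm hg x hh.le hh' hr0 hr.2.le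
              (by linarith [hr.2, mul_nonneg (sub_nonneg.2 hr.2.le) hh.le] : _ ≤ (1 : ℝ)))
            (norm_nonneg _) (by positivity)).trans_eq (mul_one _))
          exact ContinuousLinearMap.opNorm_le_bound _ (by positivity) fun a =>
            (norm_apply_le _ a).trans (mul_le_mul_of_nonneg_right (hG3 _) (norm_nonneg _))
      simp only [hFd, tr_affine, Function.comp_apply] at hibp
      rw [integral_sub (hiA.const_mul r) (hiH.const_mul _), integral_const_mul,
        integral_const_mul] at hibp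
      rw [integral_sub hi1 (hiA.const_mul _), integral_const_mul, hibp]
      simp only [F', A]
      ring
    · have hI : |∫ x, tr ((A x).comp (fderiv ℝ g x)) ∂ν| ≤ L / √b * (2 * √d) := abs_int_le htH
      have h1 : √(h * (1 - r)) ≤ √b := sqrt_le_sqrt (by
        rw [hbdef]; exact mul_le_mul_of_nonneg_left (by nlinarith [hr.2]) hh.le)
      have h2 : h * (1 - r) / √b ≤ √(h * (1 - r)) := by
        rw [div_le_iff₀ (sqrt_pos.2 hb)]
        calc h * (1 - r) = √(h * (1 - r)) * √(h * (1 - r)) :=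
              (mul_self_sqrt (mul_nonneg hh.le (by linarith [hr.2]))).symm
          _ ≤ _ := mul_le_mul_of_nonneg_left h1 (sqrt_nonneg _)
      have h3 : √(h * (1 - r)) ≤ √h * √(1 - β) := by
        rw [← sqrt_mul hh.le]; exact sqrt_le_sqrt (mul_le_mul_of_nonneg_left
          (by linarith [hr.1]) hh.le)
      simp only [F']
      rw [abs_mul, abs_neg, abs_of_nonneg (mul_nonneg (sq_nonneg h) (by linarith [hr.2]))]
      calc h ^ 2 * (1 - r) * |∫ x, tr ((A x).comp (fderiv ℝ g x)) ∂ν|
          ≤ h ^ 2 * (1 - r) * (L / √b * (2 * √d)) :=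
            mul_le_mul_of_nonneg_left hI (mul_nonneg (sq_nonneg h) (by linarith [hr.2]))
        _ = h * L * (2 * √d) * (h * (1 - r) / √b) := by ring
        _ ≤ h * L * (2 * √d) * (√h * √(1 - β)) :=
            mul_le_mul_of_nonneg_left (h2.trans h3) (by positivity)
        _ = _ := by ring
  obtain ⟨r, hr, he⟩ := exists_hasDerivAt_eq_slope F F' hβ' hFc.continuousOn
    fun r hr => (hder r hr).1
  have e0 : ∀ s, Continuous fun q => φ (p s q) := fun s => by fun_prop
  have eF : ∀ s, F s = ∫ x, G (h * (1 - s ^ 2)) φ (T s x) ∂ν := fun s =>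
    integral_prod _ ((integrable_const 1).mono' (e0 s).aestronglyMeasurable
      (ae_of_all _ fun q => hφ.bdd _))
  have e1 : F 1 = ∫ x, φ x ∂ν := by
    rw [eF]; congr 1; funext x; simp [G, T]
  have hne : (1 - β) ≠ 0 := by linarith
  have hd1 : F' r * (1 - β) = F 1 - F β := by rw [he]; field_simp
  change |(∫ x, G (h * (1 - β ^ 2)) φ (T β x) ∂ν) - _| ≤ _
  rw [← eF, ← e1, abs_sub_comm, ← hd1, abs_mul, abs_of_pos (by linarith : (0 : ℝ) < 1 - β)]
  refine (mul_le_mul_of_nonneg_right (hder r hr).2 (by linarith)).trans (le_of_eq ?_)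
  ring

/-! ## The whole chain -/

theorem chain_castSucc {n : ℕ} (s : Seed d (n + 1)) (z : E d) : ∀ {k : ℕ}, k ≤ n →
    chain h β g z s k = chain h β g z ((s.1, fun j => s.2 j.castSucc) : Seed d n) k
  | 0, _ => rfl
  | k + 1, hk => by
    rw [chain, chain, chain_castSucc s z (k := k) (by omega), pad_castSucc s.2 (by omega)]

theorem measurable_chain (hg : Pot g) {n : ℕ} : ∀ k,
    Continuous fun p : E d × Seed d n => chain h β g p.1 p.2 k := by
  have := hg.smooth.continuous
  intro k
  induction k with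
  | zero => simp only [chain]; fun_prop
  | succ k ih =>
    have : Continuous fun p : E d × Seed d n => pad p.2.2 k := by unfold pad; split_ifs <;> fun_prop
    simp only [chain]; fun_prop

theorem integral_chain (hg : Pot g) (hh : 0 < h) (hh' : h ≤ 1 / 4) (hβ : 2 / 3 ≤ β)
    (hβ' : β < 1) (z : E d) : ∀ (n : ℕ) (φ : E d → ℝ) (L : ℝ), Lip1 φ L →
    ∫ s, φ (chain h β g z s n) ∂seed d n
      = ∫ x, (step h β g z)^[n] φ (z - h • g z + √h • x) ∂γ d
  | 0, φ, L, _ => by
    rw [seed]
    exact (integral_fun_fst (fun x : E d => φ (z - h • g z + √h • x))).trans (by simp)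
  | n + 1, φ, L, hφ => by
    have hc : ∀ m, Continuous fun s : Seed d m => chain h β g z s m := fun m =>
      (measurable_chain hg m).comp (Continuous.prodMk_right z)
    have hφc := hφ.smooth.continuous
    have ih := integral_chain hg hh hh' hβ hβ' z n _ _ (step_lip1 hg hh hh' hβ hβ' z hφ)
    rw [Function.iterate_succ_apply, ← ih]
    set Ψ : Seed d n × E d → ℝ := fun q => φ (β • chain h β g z q.1 n +
      (1 - β) • (z - h • g (chain h β g z q.1 n)) + (√h * √(1 - β ^ 2)) • q.2)
    have hΨ : Continuous Ψ := by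
      have := hg.smooth.continuous; have := hc n; fun_prop
    have e : ∀ s : Seed d (n + 1), φ (chain h β g z s (n + 1))
        = Ψ ((s.1, fun j => s.2 j.castSucc), s.2 (Fin.last n)) := fun s => by
      simp only [Ψ, chain]
      rw [chain_castSucc s z le_rfl]
      simp [pad]
      rfl
    simp only [e]
    rw [← integral_map tailSplit_preserving.measurable.aemeasurable hΨ.aestronglyMeasurable,
      tailSplit_preserving.map_eq, integral_prod _ ((integrable_const 1).mono'
        hΨ.aestronglyMeasurable (ae_of_all _ fun q => hφ.bdd _))]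
    simp only [Ψ, step, G, sqrt_mul hh.le]

theorem lip_le (hφ : Lip1 φ L) (a b : E d) : |φ a - φ b| ≤ L * ‖a - b‖ := by
  simpa using convex_univ.norm_image_sub_le_of_norm_fderiv_le (𝕜 := ℝ)
    (fun y _ => hφ.smooth.differentiable one_ne_zero y) (fun y _ => hφ.lip y)
    (Set.mem_univ b) (Set.mem_univ a)

/-- The Euler chain against the exact backward law, at one point. -/
theorem chain_close (hV : Colour.Cls col V) (hg : Pot (gOf (Colour.oracle V))) (hd : 2 ≤ d)
    (hh : 0 < h) (hh' : h ≤ 1 / 4) (hβ : 2 / 3 ≤ β) (hβ' : β < 1) (n : ℕ) (hφ : Lip1 φ L)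
    (z : E d) :
    |R (seed d n) (Phi h β (gOf (Colour.oracle V)) n) φ z - ∫ x, φ x ∂back h V z|
      ≤ β ^ n * L * (4 * √d + 4 * ‖z‖) + n * (√d * L * ((1 - β) * √(1 - β))) := by
  set g := gOf (Colour.oracle V)
  set ν := back h V z
  have hW : Colour.SC (1 + 1 / h) _ := hV.sc_W (one_div_pos.2 hh) (ofLp z)
  have : IsProbabilityMeasure ν := lawE_prob hW
  have hν1 : Integrable (fun x => ‖x‖) ν :=
    lawE_integrable_lin hW (by fun_prop) (c₀ := 0) zero_le_one fun x => by simp
  have hL0 : 0 ≤ L := (norm_nonneg _).trans (hφ.lip 0)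
  have hβ0 : 0 ≤ β := by linarith
  have hk : ∀ j, Lip1 ((step h β g z)^[j] φ) (β ^ j * L) := fun j => by
    induction j with
    | zero => simpa using hφ
    | succ j ih =>
      rw [Function.iterate_succ_apply', pow_succ', mul_assoc]
      exact step_lip1 hg hh hh' hβ hβ' z ih
  have hhs : 2 * (h * √h) ≤ 1 := by
    nlinarith [mul_le_mul hh' (sqrt_le_one.2 (by linarith : h ≤ 1)) (sqrt_nonneg h) (by norm_num)]
  have hC : 0 ≤ (1 - β) * √(1 - β) := mul_nonneg (by linarith) (sqrt_nonneg _)
  have tele : ∀ j : ℕ, |∫ x, (step h β g z)^[j] φ x ∂ν - ∫ x, φ x ∂ν|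
      ≤ j * (√d * L * ((1 - β) * √(1 - β))) := fun j => by
    induction j with
    | zero => simp
    | succ j ih =>
      have h1 := step_inv hV hg hh hh' hβ hβ' z (hk j)
      have h2 : 2 * √d * (β ^ j * L) * (h * √h) * ((1 - β) * √(1 - β))
          ≤ √d * L * ((1 - β) * √(1 - β)) := by
        refine mul_le_mul_of_nonneg_right ?_ hC
        calc 2 * √d * (β ^ j * L) * (h * √h) = √d * L * (β ^ j * (2 * (h * √h))) := by ring
          _ ≤ √d * L * (1 * 1) := mul_le_mul_of_nonneg_left (mul_le_mul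
              (pow_le_one₀ hβ0 hβ'.le) hhs (by positivity) zero_le_one) (by positivity)
          _ = _ := by ring
      rw [Function.iterate_succ_apply']
      push_cast
      refine (abs_sub_le _ (∫ x, (step h β g z)^[j] φ x ∂ν) _).trans ?_
      linarith
  set ψ := (step h β g z)^[n] φ
  have hψ := hk n
  have hψc := hψ.smooth.continuous
  have hψi : Integrable ψ ν :=
    (integrable_const 1).mono' hψc.aestronglyMeasurable (ae_of_all _ fun x => hψ.bdd x)
  set a := fun w : E d => z - h • g z + √h • w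
  have hψi' : Integrable (fun w => ψ (a w)) (γ d) :=
    (integrable_const 1).mono' (hψc.comp (by fun_prop)).aestronglyMeasurable
      (ae_of_all _ fun x => hψ.bdd _)
  have ha : ∀ w, ‖a w‖ ≤ 3 / 2 * ‖z‖ + ‖w‖ := fun w => by
    refine (norm_add_le _ _).trans (add_le_add ((norm_sub_le _ _).trans ?_) ?_)
    · rw [norm_smul, norm_eq_abs, abs_of_pos hh]
      nlinarith [mul_le_mul hh' (pot_lin hg z) (norm_nonneg (g z)) (by norm_num)]
    · rw [norm_smul, norm_eq_abs, abs_of_nonneg (sqrt_nonneg h)]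
      exact mul_le_of_le_one_left (norm_nonneg _) (sqrt_le_one.2 (by linarith))
  have h8 : √(8 * d) ≤ 3 * √d := by
    rw [sqrt_mul (by norm_num : (0 : ℝ) ≤ 8)]
    exact mul_le_mul_of_nonneg_right ((sqrt_le_left (by norm_num)).2 (by norm_num)) (sqrt_nonneg _)
  have mix : |∫ w, ψ (a w) ∂γ d - ∫ x, ψ x ∂ν| ≤ β ^ n * L * (4 * √d + 4 * ‖z‖) := by
    have hpt : ∀ w, |ψ (a w) - ∫ x, ψ x ∂ν|
        ≤ β ^ n * L * (3 / 2 * ‖z‖ + ‖w‖ + (√(8 * d) + 2 * ‖z‖)) := fun w => by
      rw [show ψ (a w) - ∫ x, ψ x ∂ν = ∫ x, (ψ (a w) - ψ x) ∂ν by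
        rw [integral_sub (integrable_const _) hψi]; simp]
      refine abs_integral_le_integral_abs.trans ((integral_mono
        ((integrable_const _).sub' hψi).abs (((integrable_const ‖a w‖).fun_add hν1).const_mul _)
        fun x => (lip_le hψ _ _).trans (mul_le_mul_of_nonneg_left (norm_sub_le _ _)
          (by positivity))).trans ?_)
      rw [integral_const_mul, integral_add (integrable_const _) hν1]
      simp only [integral_const, probReal_univ, one_smul]
      exact mul_le_mul_of_nonneg_left (add_le_add (ha w) (back_mean hV hd hh z)) (by positivity)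
    rw [show ∫ w, ψ (a w) ∂γ d - ∫ x, ψ x ∂ν = ∫ w, (ψ (a w) - ∫ x, ψ x ∂ν) ∂γ d by
      rw [integral_sub hψi' (integrable_const _)]; simp]
    have hi : Integrable (fun w : E d =>
        β ^ n * L * (3 / 2 * ‖z‖ + ‖w‖ + (√(8 * d) + 2 * ‖z‖))) (γ d) :=
      (((integrable_const _).add γ_norm_integrable).add (integrable_const _)).const_mul _
    refine abs_integral_le_integral_abs.trans
      ((integral_mono (hψi'.sub (integrable_const _)).abs hi hpt).trans ?_)
    rw [integral_const_mul, integral_add ((integrable_const _).fun_add γ_norm_integrable)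
      (integrable_const _), integral_add (integrable_const _) γ_norm_integrable]
    simp only [integral_const, probReal_univ, one_smul]
    refine mul_le_mul_of_nonneg_left ?_ (by positivity)
    linarith [γ_norm_le (d := d), norm_nonneg z]
  refine (abs_sub_le _ (∫ x, ψ x ∂ν) _).trans (add_le_add ?_ (tele n))
  rw [show R (seed d n) (Phi h β g n) φ z = ∫ w, ψ (a w) ∂γ d from
    integral_chain hg hh hh' hβ hβ' z n φ L hφ]
  linarith [mix, norm_nonneg z]

/-! ## Averaging over the forward step -/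

/-- An approximation of the backward law, averaged over the forward step. -/
theorem avg_close (hV : Colour.Cls col V) (hd : 2 ≤ d) (hh : 0 < h) (hh' : h ≤ 1 / 4)
    {u P : E d → ℝ} (hu : Measurable u) (hu1 : ∀ x, |u x| ≤ 1) (hP : Measurable P)
    (hP1 : ∀ x, |P x| ≤ 1) {A B : ℝ} (hB : 0 ≤ B)
    (hb : ∀ z, |P z - ∫ x, u x ∂back h V z| ≤ A + B * ‖z‖ ^ 2) :
    |∫ x, G h P x ∂piE V - ∫ x, u x ∂piE V| ≤ A + B * (20 * d) := by
  set a := 1 / h
  have ha : 0 < a := one_div_pos.2 hh
  set φ := fun x : Colour.Pt d => u (toLp 2 x)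
  have hφ : Measurable φ := hu.comp (by fun_prop)
  set Bk := fun z : E d => ∫ x, u x ∂back h V z
  have eB : Bk = fun z => Colour.backOp a V (fun p => φ p.1) ((0, ofLp z) : Colour.St d) :=
    funext fun z => integral_lawE _ _
  have hgood := (hV.good_back ha).bdd (fun p : Colour.St d => φ p.1) 1
    (hφ.comp measurable_fst) fun p => hu1 _
  have hBm : Measurable Bk := by rw [eB]; exact hgood.1.comp (by fun_prop)
  have hB1 : ∀ z, |Bk z| ≤ 1 := fun z => by rw [eB]; exact hgood.2 _
  have eout : ∀ x : Colour.Pt d, Colour.outer a V φ x = G h Bk (toLp 2 x) := fun x => by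
    rw [show Colour.outer a V φ x = ∫ n, Colour.backOp a V (fun p => φ p.1)
      ((0, x + n) : Colour.St d) ∂Colour.law (fun n : Colour.Pt d => a / 2 * Colour.nr n ^ 2)
      from rfl]
    have := quad_integral ha fun w => Bk (toLp 2 x + w)
    simp only [a, one_div_one_div] at this
    rw [G, ← this]
    simp [eB, a]
  have einv : ∫ x, G h Bk x ∂piE V = ∫ x, u x ∂piE V := by
    rw [show piE V = lawE V from rfl, integral_lawE, integral_lawE]
    simp only [← eout]
    exact hV.outer_inv ha hφ fun x => hu1 _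
  have hsc := hV.sc
  have : IsProbabilityMeasure (piE V) := lawE_prob hsc
  have hπ2 : Integrable (fun x => ‖x‖ ^ 2) (piE V) :=
    lawE_integrable hsc (by fun_prop) (c₀ := 0) (c₁ := 1) fun x => by simp
  have hm2 : ∫ x, ‖x‖ ^ 2 ∂piE V ≤ 8 * d := by
    rw [show piE V = lawE V from rfl, integral_lawE]
    refine (hsc.moment hd one_pos (G := 0) fun x => ?_).trans (by simp)
    linarith [hV.lower x, hV.zero]
  set q := fun p : E d × E d => p.1 + √h • p.2
  have hq : Measurable q := by fun_prop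
  have hint : ∀ {Q : E d → ℝ}, Measurable Q → (∀ x, |Q x| ≤ 1) →
      Integrable (fun p => Q (q p)) ((piE V).prod (γ d)) := fun hQ hQ1 =>
    (integrable_const 1).mono' (hQ.comp hq).aestronglyMeasurable (ae_of_all _ fun p => hQ1 _)
  have eG : ∀ {Q : E d → ℝ}, Measurable Q → (∀ x, |Q x| ≤ 1) →
      ∫ x, G h Q x ∂piE V = ∫ p, Q (q p) ∂(piE V).prod (γ d) := fun hQ hQ1 =>
    (integral_prod _ (hint hQ hQ1)).symm
  rw [← einv, eG hP hP1, eG hBm hB1, ← integral_sub (hint hP hP1) (hint hBm hB1)]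
  have hi2 : Integrable (fun p : E d × E d => 2 * ‖p.1‖ ^ 2 + 2 * h * ‖p.2‖ ^ 2)
      ((piE V).prod (γ d)) :=
    ((hπ2.const_mul 2).comp_fst (γ d)).add ((γ_sq_integrable.const_mul (2 * h)).comp_snd _)
  refine abs_integral_le_integral_abs.trans ((integral_mono
    ((hint hP hP1).sub' (hint hBm hB1)).abs ((integrable_const A).fun_add (hi2.const_mul B))
    fun p => (hb _).trans (add_le_add le_rfl (mul_le_mul_of_nonneg_left ?_ hB))).trans ?_)
  · refine (pow_le_pow_left₀ (norm_nonneg _) (norm_add_le _ _) 2).trans (le_trans add_sq_le ?_)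
    rw [norm_smul, mul_pow, norm_eq_abs, sq_abs, sq_sqrt hh.le]
    linarith
  · rw [integral_add (integrable_const _) (hi2.const_mul B), integral_const_mul,
      integral_add ((hπ2.const_mul 2).comp_fst (γ d))
        ((γ_sq_integrable.const_mul (2 * h)).comp_snd _),
      integral_fun_fst (fun x : E d => 2 * ‖x‖ ^ 2),
      integral_fun_snd (fun x : E d => 2 * h * ‖x‖ ^ 2)]
    simp only [integral_const, probReal_univ, one_smul, integral_const_mul, γ_norm_sq]
    refine add_le_add le_rfl (mul_le_mul_of_nonneg_left ?_ hB)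
    nlinarith [mul_le_mul_of_nonneg_right hh' (Nat.cast_nonneg (α := ℝ) d)]

theorem taylor_V (hV : Colour.Cls col V) (y v : Colour.Pt d) :
    0 ≤ V (y + v) - V y - fderiv ℝ V y v ∧
      V (y + v) - V y - fderiv ℝ V y v ≤ Colour.nr v ^ 2 := by
  set ψ := fun t : ℝ => V (y + t • v) - t * fderiv ℝ V y v
  have h1 : ∀ t, HasDerivAt ψ (fderiv ℝ V (y + t • v) v - fderiv ℝ V y v) t := fun t => by
    simpa using (hV.deriv_line y v t).fun_sub ((hasDerivAt_id t).mul_const (fderiv ℝ V y v))
  have h2 : ∀ t, 0 < t → ∃ ξ : Colour.Pt d,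
      fderiv ℝ V (y + t • v) v - fderiv ℝ V y v = t * fderiv ℝ (fderiv ℝ V) ξ v v := fun t ht => by
    obtain ⟨c, -, hc⟩ := exists_hasDerivAt_eq_slope (fun t => fderiv ℝ V (y + t • v) v) _ ht
      (continuous_iff_continuousAt.2 fun t => (hV.deriv2_line y v v t).continuousAt).continuousOn
      fun t _ => hV.deriv2_line y v v t
    refine ⟨y + c • v, ?_⟩
    rw [hc]; simp; field_simp
  have hcurv : ∀ ξ, 0 ≤ fderiv ℝ (fderiv ℝ V) ξ v v ∧
      fderiv ℝ (fderiv ℝ V) ξ v v ≤ 2 * Colour.nr v ^ 2 := fun ξ => by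
    rw [Colour.nr_sq]
    exact ⟨(Finset.sum_nonneg fun i _ => sq_nonneg _).trans (hV.curv ξ v).1, (hV.curv ξ v).2⟩
  constructor
  · obtain ⟨t, ht, he⟩ := exists_hasDerivAt_eq_slope ψ _ one_pos
      (continuous_iff_continuousAt.2 fun t => (h1 t).continuousAt).continuousOn fun t _ => h1 t
    obtain ⟨ξ, hξ⟩ := h2 t ht.1
    simp only [ψ, one_smul, zero_smul, add_zero, one_mul, zero_mul, sub_zero, div_one, hξ] at he
    linarith [mul_nonneg ht.1.le (hcurv ξ).1]
  · obtain ⟨t, ht, he⟩ := exists_hasDerivAt_eq_slope (fun t => ψ t - t ^ 2 * Colour.nr v ^ 2) _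
      one_pos (continuous_iff_continuousAt.2 fun t => ((h1 t).fun_sub
        ((hasDerivAt_pow 2 t).mul_const _)).continuousAt).continuousOn
      fun t _ => (h1 t).fun_sub ((hasDerivAt_pow 2 t).mul_const _)
    obtain ⟨ξ, hξ⟩ := h2 t ht.1
    simp only [ψ, one_smul, zero_smul, add_zero, one_mul, zero_mul, sub_zero, div_one, hξ,
      one_pow, ne_eq, two_ne_zero, not_false_eq_true, zero_pow, Nat.cast_ofNat] at he
    norm_num at he
    linarith [mul_le_mul_of_nonneg_left (hcurv ξ).2 ht.1.le]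

/-- The Gaussian step against the backward law, at one point. -/
theorem gauss_close (hV : Colour.Cls col V) (hg : Pot (gOf (Colour.oracle V))) {η : ℝ}
    (hη : 0 < η) {f : E d → ℝ} (hf : Measurable f) (hf1 : ∀ x, |f x| ≤ 1) (z : E d) :
    |Nlast η (gOf (Colour.oracle V)) f z - ∫ x, f x ∂back η V z|
      ≤ 2 * (η * d) + 8 * η ^ 2 * ‖z‖ ^ 2 := by
  set g := gOf (Colour.oracle V)
  set a := 1 / η
  have ha : 0 < a := one_div_pos.2 hη
  set y := ofLp z
  set c := z - η • g z
  set W := fun x : Colour.Pt d => V x - V y - fderiv ℝ V y (x - y)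
  set ρ := fun x : E d => exp (-W (ofLp x))
  set K := exp (-(V y - η / 2 * ‖g z‖ ^ 2))
  have hVc := hV.continuous
  have hρc : Continuous ρ := by fun_prop
  have hT : ∀ x, 0 ≤ W x ∧ W x ≤ Colour.nr (x - y) ^ 2 := fun x => by
    simpa [W] using taylor_V hV y (x - y)
  have hU : ∀ x, exp (-Colour.W a V y x)
      = K * (ρ (toLp 2 x) * exp (-(a / 2 * Colour.nr (x - ofLp c) ^ 2))) := fun x => by
    have e : fderiv ℝ V y (x - y) = ⟪g z, toLp 2 x - z⟫ := by
      conv_lhs => rw [pi_eq_sum_univ' (x - y)]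
      simp [g, gOf, Colour.oracle, PiLp.inner_apply, y]
    have n1 : Colour.nr (x - y) = ‖toLp 2 x - z‖ := by simp [Colour.nr, y]
    have n2 : Colour.nr (x - ofLp c) = ‖(toLp 2 x - z) + η • g z‖ := by
      simp [Colour.nr, c, sub_add]
    simp only [K, ρ, W, Colour.W]
    rw [← exp_add, ← exp_add, e, n1, n2, norm_add_sq_real, inner_smul_right, norm_smul, mul_pow,
      norm_eq_abs η, sq_abs, real_inner_comm (g z)]
    congr 1
    simp [a]; field_simp; ring
  have key : ∀ ψ : E d → ℝ, ∫ x, ψ (toLp 2 x) * exp (-Colour.W a V y x)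
      = K * (∫ n, exp (-(a / 2 * Colour.nr (n : Colour.Pt d) ^ 2))) *
        ∫ w, ψ (c + √η • w) * ρ (c + √η • w) ∂γ d := fun ψ => by
    have hq := quad_integral ha fun w => ψ (c + w) * ρ (c + w)
    rw [(Colour.sc_quad ha).integral_law, div_eq_iff (Colour.sc_quad ha).pos.ne'] at hq
    simp only [a, one_div_one_div] at hq
    rw [mul_assoc, mul_comm (∫ n, exp (-(a / 2 * Colour.nr (n : Colour.Pt d) ^ 2))), ← hq,
      ← integral_add_left_eq_self _ (ofLp c), ← integral_const_mul]
    congr 1; funext n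
    rw [hU]
    simp only [toLp_add, toLp_ofLp, add_sub_cancel_left]
    ring
  have hWs := hV.sc_W ha y
  have eB : ∫ x, f x ∂back η V z = (∫ w, f (c + √η • w) * ρ (c + √η • w) ∂γ d)
      / ∫ w, ρ (c + √η • w) ∂γ d := by
    rw [back, integral_lawE, hWs.integral_law, key f]
    have h1 := key fun _ => 1
    simp only [one_mul] at h1
    rw [h1, mul_div_mul_left]
    exact mul_ne_zero (exp_pos _).ne' (Colour.sc_quad ha).pos.ne'
  set S := ∫ w, ρ (c + √η • w) ∂γ d
  have hρ1 : ∀ x, 0 < ρ x ∧ ρ x ≤ 1 := fun x =>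
    ⟨exp_pos _, exp_le_one_iff.2 (neg_nonpos.2 (hT _).1)⟩
  have hfm : Measurable fun w => f (c + √η • w) := hf.comp (by fun_prop)
  have hρm : Continuous fun w => ρ (c + √η • w) := by fun_prop
  have hiρ : Integrable (fun w => ρ (c + √η • w)) (γ d) :=
    (integrable_const 1).mono' hρm.aestronglyMeasurable (ae_of_all _ fun w => by
      rw [norm_eq_abs, abs_of_pos (hρ1 _).1]; exact (hρ1 _).2)
  have hif : Integrable (fun w => f (c + √η • w)) (γ d) :=
    (integrable_const 1).mono' hfm.aestronglyMeasurable (ae_of_all _ fun w => hf1 _)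
  have hifρ : Integrable (fun w => f (c + √η • w) * ρ (c + √η • w)) (γ d) :=
    hiρ.mono' (hfm.mul hρm.measurable).aestronglyMeasurable (ae_of_all _ fun w => by
      rw [norm_mul, norm_eq_abs, norm_eq_abs, abs_of_pos (hρ1 _).1]
      exact mul_le_of_le_one_left (hρ1 _).1.le (hf1 _))
  have hS : 0 < S := integral_exp_pos hiρ
  have hb1 : |∫ w, f (c + √η • w) * ρ (c + √η • w) ∂γ d| ≤ S :=
    abs_integral_le_integral_abs.trans (integral_mono hifρ.abs hiρ fun w => by
      rw [abs_mul, abs_of_pos (hρ1 _).1]; exact mul_le_of_le_one_left (hρ1 _).1.le (hf1 _))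
  have hb2 : |(∫ w, f (c + √η • w) ∂γ d) - ∫ w, f (c + √η • w) * ρ (c + √η • w) ∂γ d|
      ≤ 1 - S := by
    rw [← integral_sub hif hifρ, show 1 - S = ∫ w, (1 - ρ (c + √η • w)) ∂γ d by
      rw [integral_sub (integrable_const _) hiρ]; simp [S]]
    refine abs_integral_le_integral_abs.trans (integral_mono (hif.sub hifρ).abs
      ((integrable_const _).sub hiρ) fun w => ?_)
    rw [← mul_one_sub, abs_mul, abs_of_nonneg (sub_nonneg.2 (hρ1 _).2)]
    exact mul_le_of_le_one_left (sub_nonneg.2 (hρ1 _).2) (hf1 _)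
  have hS1 : 1 - S ≤ η * d + 4 * η ^ 2 * ‖z‖ ^ 2 := by
    have hin : Integrable (fun w : E d => ⟪g z, w⟫) (γ d) :=
      IsGaussian.integrable_id.const_inner (g z)
    have hi : Integrable (fun w : E d => η * ‖w‖ ^ 2 - 2 * (η * √η) * ⟪g z, w⟫) (γ d) :=
      (γ_sq_integrable.const_mul η).sub (hin.const_mul _)
    rw [show 1 - S = ∫ w, (1 - ρ (c + √η • w)) ∂γ d by
      rw [integral_sub (integrable_const _) hiρ]; simp [S]]
    refine (integral_mono ((integrable_const _).sub' hiρ) (hi.fun_add (integrable_const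
      (4 * η ^ 2 * ‖z‖ ^ 2))) fun w => ?_).trans (le_of_eq ?_)
    · have h1 := add_one_le_exp (-W (ofLp (c + √η • w)))
      have h2 := (hT (ofLp (c + √η • w))).2
      have h3 : Colour.nr (ofLp (c + √η • w) - y) = ‖√η • w - η • g z‖ := by
        rw [Colour.nr, toLp_sub, toLp_ofLp, toLp_ofLp]; congr 1; simp only [c]; abel
      rw [h3, norm_sub_sq_real, norm_smul, norm_smul, mul_pow, mul_pow, norm_eq_abs √η,
        norm_eq_abs η, sq_abs, sq_abs, sq_sqrt hη.le, inner_smul_left, inner_smul_right,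
        RCLike.conj_to_real, real_inner_comm (g z)] at h2
      have h4 := mul_le_mul_of_nonneg_left
        (pow_le_pow_left₀ (norm_nonneg _) (pot_lin hg z) 2) (sq_nonneg η)
      simp only [ρ]
      nlinarith
    · rw [integral_add hi (integrable_const _), integral_sub (γ_sq_integrable.const_mul η)
        (hin.const_mul _), integral_const_mul,
        integral_const_mul, γ_norm_sq, γ_inner_zero]
      simp
  rw [eB, show Nlast η g f z = ∫ w, f (c + √η • w) ∂γ d from rfl]
  set I := ∫ w, f (c + √η • w) ∂γ d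
  set J := ∫ w, f (c + √η • w) * ρ (c + √η • w) ∂γ d
  have h3 : |J - J / S| ≤ 1 - S := by
    have hS' : 0 ≤ 1 - S := (abs_nonneg _).trans hb2
    rw [show J - J / S = -(J / S) * (1 - S) by field_simp; ring, abs_mul, abs_neg, abs_div,
      abs_of_pos hS, abs_of_nonneg hS']
    exact mul_le_of_le_one_left hS' ((div_le_one hS).2 hb1)
  linarith [abs_sub_le I J (J / S)]

end Tgt

open Tgt

variable {χ : ℕ} {col : Fin d → Fin χ} {V : Colour.Pt d → ℝ} {h β : ℝ} {n : ℕ} {g : E d → E d}

theorem phi_flow (hg : Pot g) (hh : 0 < h) (hh' : h ≤ 1 / 4) (hβ : 2 / 3 ≤ β) (hβ' : β < 1) :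
    Flow (1 / (1 + h)) (2 * h) (seed d n) (Phi h β g n) := by
  have hc : ∀ (s : Seed d n) k, ContDiff ℝ 1 fun z => chain h β g z s k := fun s k => by
    have := hg.smooth
    induction k with
    | zero => simp only [chain]; fun_prop
    | succ k ih => simp only [chain]; fun_prop
  have key : ∀ (s : Seed d n) (z : E d) k, ∃ J, HasFDerivAt (fun z => chain h β g z s k) J z ∧
      ‖J‖ ≤ 1 / (1 + h) ∧ ‖J - ContinuousLinearMap.id ℝ (E d)‖ ≤ 2 * h := by
    intro s z k
    induction k with
    | zero =>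
      refine ⟨(1 : ℝ) • ContinuousLinearMap.id ℝ (E d) - h • fderiv ℝ g z, ?_, ?_, ?_⟩
      · rw [one_smul]
        exact (((hasFDerivAt_id z).sub ((hg.smooth.differentiable one_ne_zero z).hasFDerivAt
          |>.const_smul h)).add_const _)
      · refine (pot_comb hg z hh.le (c := 1 - h) le_rfl (by linarith)).trans ?_
        rw [le_div_iff₀ (by linarith)]; nlinarith
      · rw [one_smul, sub_sub_cancel_left, norm_neg]
        rw [norm_smul, norm_eq_abs, abs_of_pos hh, mul_comm]
        exact mul_le_mul_of_nonneg_right (pot_norm hg z) hh.le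
    | succ k ih =>
      obtain ⟨J, hJ, hJ1, hJ2⟩ := ih
      set H := fderiv ℝ g (chain h β g z s k)
      refine ⟨(β • ContinuousLinearMap.id ℝ (E d) - ((1 - β) * h) • H).comp J
        + (1 - β) • ContinuousLinearMap.id ℝ (E d), ?_, ?_, ?_⟩
      · refine (((hJ.const_smul β).add (((hasFDerivAt_id z).sub
          (((hg.smooth.differentiable one_ne_zero _).hasFDerivAt.comp z hJ).const_smul h)).const_smul
          (1 - β))).add_const _).congr_fderiv ?_
        ext v : 1; simp [H]; module
      · refine (norm_add_le _ _).trans ((add_le_add ((ContinuousLinearMap.opNorm_comp_le _ _).trans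
          (mul_le_mul (drift_norm hg (chain h β g z s k) hh.le hh' hβ hβ'.le le_rfl) hJ1 (norm_nonneg _) ?_))
          ((norm_smul_le (1 - β) (ContinuousLinearMap.id ℝ (E d))).trans (mul_le_mul_of_nonneg_left ContinuousLinearMap.norm_id_le
            (norm_nonneg _)))).trans (le_of_eq ?_))
        · nlinarith [mul_le_mul (show 1 - β ≤ 1 / 3 by linarith) hh' hh.le (by norm_num)]
        · rw [norm_eq_abs, abs_of_pos (by linarith : (0 : ℝ) < 1 - β)]
          field_simp; ring
      · rw [show (β • ContinuousLinearMap.id ℝ (E d) - ((1 - β) * h) • H).comp J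
            + (1 - β) • ContinuousLinearMap.id ℝ (E d) - ContinuousLinearMap.id ℝ (E d)
          = β • (J - ContinuousLinearMap.id ℝ (E d)) - ((1 - β) * h) • H.comp J by
          ext v : 1; simp; module]
        refine (norm_sub_le _ _).trans ?_
        rw [norm_smul, norm_smul, norm_eq_abs, norm_eq_abs, abs_of_pos (by linarith : 0 < β),
          abs_of_pos (mul_pos (by linarith : (0 : ℝ) < 1 - β) hh)]
        have h3 : ‖H.comp J‖ ≤ 2 * 1 := (ContinuousLinearMap.opNorm_comp_le _ _).trans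
          (mul_le_mul (pot_norm hg _) (hJ1.trans ((div_le_one (by linarith)).2 (by linarith)))
            (norm_nonneg _) zero_le_two)
        nlinarith [mul_le_mul_of_nonneg_left h3 (mul_pos (by linarith : (0:ℝ) < 1 - β) hh).le]
  refine ⟨inferInstance, (measurable_chain hg n).measurable, fun s => hc s n, fun s z => ?_,
    fun s z => ?_⟩
  · obtain ⟨J, hJ, h1, -⟩ := key s z n; unfold Phi; rw [hJ.fderiv]; exact h1
  · obtain ⟨J, hJ, -, h2⟩ := key s z n; unfold Phi; rw [hJ.fderiv]; exact h2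

theorem pot_gOf (hV : Colour.Cls col V) : Pot (gOf (Colour.oracle V)) := by
  have hs : ContDiff ℝ 1 (gOf (Colour.oracle V)) :=
    (PiLp.contDiff_toLp).comp (contDiff_pi.2 fun i =>
      ((hV.contDiff_fderiv.comp PiLp.contDiff_ofLp).clm_apply contDiff_const))
  set g := gOf (Colour.oracle V)
  have e0 : ∀ x v, ⟪g x, v⟫ = fderiv ℝ V (ofLp x) (ofLp v) := fun x v => by
    conv_rhs => rw [pi_eq_sum_univ' (ofLp v)]
    simp [g, gOf, Colour.oracle, PiLp.inner_apply]
  have e : ∀ x u v, ⟪fderiv ℝ g x u, v⟫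
      = fderiv ℝ (fderiv ℝ V) (ofLp x) (ofLp u) (ofLp v) := fun x u v => by
    have h1 := (hs.differentiable one_ne_zero x).hasFDerivAt.inner ℝ (hasFDerivAt_const v x)
    simp only [e0] at h1
    have h2 := (ContinuousLinearMap.apply ℝ ℝ (ofLp v)).hasFDerivAt.comp x
      (((hV.contDiff_fderiv.differentiable one_ne_zero (ofLp x)).hasFDerivAt).comp x
        (PiLp.continuousLinearEquiv 2 ℝ fun _ : Fin d => ℝ).hasFDerivAt)
    have h3 := DFunLike.congr_fun (h1.unique h2) u
    simp at h3
    exact h3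
  have hn : ∀ v : E d, ‖v‖ ^ 2 = ∑ i, ofLp v i ^ 2 := fun v => by
    simp [EuclideanSpace.norm_sq_eq]
  refine ⟨hs, ?_, fun x u v => ?_, fun x v => ?_, fun x v => ?_⟩
  · ext i; simp [g, gOf, Colour.oracle, hV.crit]
  · rw [e, real_inner_comm, e]
    exact (hV.smooth.contDiffAt.isSymmSndFDerivAt (by simp)) _ _
  · rw [e, hn]; exact (hV.curv _ _).1
  · rw [e, hn]; exact (hV.curv _ _).2

theorem piE_prob (hV : Colour.Cls col V) : IsProbabilityMeasure (piE V) := lawE_prob hV.sc

theorem piE_moment (hV : Colour.Cls col V) (hd : 2 ≤ d) :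
    Integrable (fun x => ‖x‖ ^ 2) (piE V) ∧ ∫ x, ‖x‖ ^ 2 ∂piE V ≤ 8 * d := by
  refine ⟨lawE_integrable hV.sc (by fun_prop) (c₀ := 0) (c₁ := 1) fun x => by simp, ?_⟩
  rw [show piE V = lawE V from rfl, integral_lawE]
  refine (hV.sc.moment hd one_pos (G := 0) fun x => ?_).trans (by simp)
  linarith [hV.lower x, hV.zero]

/-- One round of the outer chain almost preserves the target. -/
theorem round_inv (hV : Colour.Cls col V) (hd : 2 ≤ d) (hh : 0 < h) (hh' : h ≤ 1 / 4)
    (hβ : 2 / 3 ≤ β) (hβ' : β < 1) {u : E d → ℝ} {L : ℝ} (hu : Lip1 u L) :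
    |∫ x, Q h (seed d n) (Phi h β (gOf (Colour.oracle V)) n) u x ∂piE V - ∫ x, u x ∂piE V|
      ≤ 50 * L * d * (β ^ n + n * (1 - β) ^ (3 / 2 : ℝ)) := by
  have hg := pot_gOf hV
  set P := R (seed d n) (Phi h β (gOf (Colour.oracle V)) n) u
  have hΦ := (phi_flow (n := n) hg hh hh' hβ hβ').meas
  have hPm : Measurable P :=
    ((hu.smooth.continuous.measurable.comp hΦ).stronglyMeasurable.integral_prod_right').measurable
  have hP1 : ∀ z, |P z| ≤ 1 := fun z =>
    abs_int_le (μ := seed d n) fun s => hu.bdd _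
  have hL : 0 ≤ L := (norm_nonneg _).trans (hu.lip 0)
  have hd1 : (1 : ℝ) ≤ d := by exact_mod_cast (show 1 ≤ d by omega)
  have hsd : √(d : ℝ) ≤ d := by rw [sqrt_le_left (by linarith)]; nlinarith
  have hs : 0 < √(d : ℝ) := sqrt_pos.2 (by linarith)
  have hβn : 0 ≤ β ^ n := pow_nonneg (by linarith) n
  set T := (1 - β) * √(1 - β)
  have hT : T = (1 - β) ^ (3 / 2 : ℝ) := by
    rw [show (3 / 2 : ℝ) = 1 + 1 / 2 by norm_num, rpow_add (by linarith), rpow_one, ← sqrt_eq_rpow]
  have hT0 : 0 ≤ T := mul_nonneg (by linarith) (sqrt_nonneg _)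
  have h := avg_close hV hd hh hh' (u := u) (P := P) hu.smooth.continuous.measurable hu.bdd
    hPm hP1 (A := β ^ n * L * (6 * √d) + n * (√d * L * T))
    (B := β ^ n * L * (2 / √d)) (by positivity) fun z => by
      refine (chain_close hV hg hd hh hh' hβ hβ' n hu z).trans ?_
      have h3 : 4 * ‖z‖ ≤ 2 * √d + 2 / √d * ‖z‖ ^ 2 := by
        have h0 : 0 ≤ 2 / √d * (‖z‖ - √d) ^ 2 := by positivity
        have e0 : 2 / √d * (‖z‖ - √d) ^ 2
            = 2 / √d * ‖z‖ ^ 2 + 2 * √d - 4 * ‖z‖ := by field_simp; ring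
        linarith
      linarith [mul_le_mul_of_nonneg_left h3 (mul_nonneg hβn hL)]
  refine h.trans ?_
  rw [← hT]
  have e : β ^ n * L * (2 / √d) * (20 * d) = β ^ n * L * (40 * √d) := by
    field_simp; rw [sq_sqrt (by linarith : (0 : ℝ) ≤ d)]; ring
  rw [e]
  nlinarith [mul_le_mul_of_nonneg_left hsd (mul_nonneg hβn hL),
    mul_le_mul_of_nonneg_left hsd (mul_nonneg (mul_nonneg (Nat.cast_nonneg (α := ℝ) n) hL) hT0),
    mul_nonneg (mul_nonneg (Nat.cast_nonneg (α := ℝ) n) hL) (mul_nonneg hT0 (by linarith : (0:ℝ) ≤ d)),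
    mul_nonneg (mul_nonneg hβn hL) (by linarith : (0:ℝ) ≤ d)]

/-- The last round. -/
theorem last_inv (hV : Colour.Cls col V) (hd : 2 ≤ d) {η : ℝ} (hη : 0 < η) (hη' : η ≤ 1 / 4)
    {f : E d → ℝ} (hf : Measurable f) (hf1 : ∀ x, |f x| ≤ 1) :
    Lip1 (Nlast η (gOf (Colour.oracle V)) f) (1 / √η) ∧
    |∫ x, G η (Nlast η (gOf (Colour.oracle V)) f) x ∂piE V - ∫ x, f x ∂piE V| ≤ 50 * η * d := by
  have hg := pot_gOf hV
  set g := gOf (Colour.oracle V)
  obtain ⟨h1, -, h3⟩ := G_contDiff hη hf hf1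
  have hb : ∀ x, |G η f x| ≤ 1 := fun x =>
    abs_int_le (μ := γ d) fun w => hf1 _
  have hcd : ContDiff ℝ 1 fun x => x - η • g x := by have := hg.smooth; fun_prop
  have hN : Nlast η g f = fun x => G η f (x - η • g x) := rfl
  have hlip : Lip1 (Nlast η g f) (1 / √η) := by
    refine ⟨fun x => hb _, hN ▸ h1.comp hcd, fun x => ?_⟩
    have hT : HasFDerivAt (fun x => x - η • g x)
        ((1 : ℝ) • ContinuousLinearMap.id ℝ (E d) - η • fderiv ℝ g x) x := by
      rw [one_smul]
      exact (hasFDerivAt_id x).sub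
        ((hg.smooth.differentiable one_ne_zero x).hasFDerivAt.const_smul η)
    have e := ((h1.differentiable one_ne_zero _).hasFDerivAt.comp x hT).fderiv
    rw [hN, show fderiv ℝ (fun x => G η f (x - η • g x)) x = _ from e]
    refine (ContinuousLinearMap.opNorm_comp_le _ _).trans ((mul_le_mul ?_
      (pot_comb hg x hη.le (c := 1) (by linarith) (by linarith)) (norm_nonneg _)
      (by positivity)).trans_eq (mul_one _))
    set y := x - η • g x
    have h4 : G η (fun y => ‖f y‖ ^ 2) y ≤ 1 :=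
      (le_abs_self _).trans (abs_int_le (μ := γ d) fun w => by
        rw [abs_of_nonneg (sq_nonneg _)]; exact pow_le_one₀ (norm_nonneg _) (hf1 _))
    refine ContinuousLinearMap.opNorm_le_bound _ (by positivity) fun a =>
      (norm_apply_le _ a).trans (mul_le_mul_of_nonneg_right ?_ (norm_nonneg _))
    rw [show (1 : ℝ) / √η = √(1 / η) by rw [sqrt_div zero_le_one, sqrt_one]]
    refine sqrt_le_sqrt ((le_div_iff₀ hη).2 ?_)
    linarith [h3 y, sq_nonneg ‖G η f y‖]
  refine ⟨hlip, ?_⟩
  refine (avg_close hV hd hη hη' (u := f) (P := Nlast η g f) hf hf1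
    hlip.smooth.continuous.measurable hlip.bdd (A := 2 * (η * d)) (B := 8 * η ^ 2)
    (by positivity) fun z => gauss_close hV hg hη hf hf1 z).trans ?_
  nlinarith [mul_le_mul_of_nonneg_left hη' (mul_nonneg hη.le (Nat.cast_nonneg (α := ℝ) d)),
    mul_nonneg hη.le (Nat.cast_nonneg (α := ℝ) d)]

end

end Vale.Agent.P347.Quarter
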