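import Vale.Agent.P347.Quarter.Step
import Vale.Agent.P347.Quarter.Target

/-!
# P347, exponent 1/4: the step of the algorithm
-/

namespace Vale.Agent.P347.Quarter

open MeasureTheory ProbabilityTheory Real WithLp Finset
open scoped RealInnerProductSpace

noncomputable section

variable {d : ℕ}

/-- The field of the step at `z`, in standard units around `z - h g z`. -/
def fz (h : ℝ) (g : E d → E d) (z y : E d) : E d := √h • (g (z - h • g z + √h • y) - g z)

/-- One step of the algorithm, as an averaging operator. -/
def Aop (h β : ℝ) (n L : ℕ) (S : Finset ℕ) (c : ℕ → ℝ) (g : E d → E d) (u : E d → ℝ)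
    (z : E d) : ℝ :=
  ∑ i : Fin n × Fin (L + 1), prob β n L i * ∫ x, ∫ w, ∫ w', u (z - h • g z + √h •
    (x - Qa β (fz h g z) S c ((x, w) : Seed d n) - Zc β (fz h g z) n L ((x, w') : Seed d n) i))
    ∂(Measure.pi fun _ => γ d) ∂(Measure.pi fun _ => γ d) ∂γ d

end

end Vale.Agent.P347.Quarter
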