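import Vale.Agent.P347.Colour.Model

/-!
# P347, exponent 1/4: randomised query budgets
-/

namespace Vale.Agent.P347.Quarter

open MeasureTheory Set Real
open Vale.Agent.P347.Colour

noncomputable section

variable {d : ℕ} {σ : Type} [MeasurableSpace σ]

/-- An unused query. -/
theorem Uses.succ' {β : Type} [MeasurableSpace β] : ∀ {n : ℕ} {α : Type} [MeasurableSpace α]
    {F : (Pt d → Resp d) → α → β}, Uses n α F → Uses (n + 1) α F := by
  intro n
  induction n with
  | zero =>
    intro α _ F ⟨out, ho, he⟩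
    exact ⟨fun _ => 0, fun _ a => out a.1, measurable_const, Uses.zero (ho.comp measurable_fst),
      fun O a => he O a⟩
  | succ n ih =>
    intro α _ F ⟨p, F', hp, hF', he⟩
    exact ⟨p, F', hp, ih hF', he⟩

/-- More queries are allowed. -/
theorem Uses.mono' {β : Type} [MeasurableSpace β] {n m : ℕ} {α : Type} [MeasurableSpace α]
    {F : (Pt d → Resp d) → α → β} (h : Uses n α F) (hnm : n ≤ m) : Uses m α F := by
  induction hnm with
  | refl => exact h
  | step _ ih => exact Uses.succ' ih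

/-- A countable family of programs, selected by the input. -/
theorem Uses.select {β κ : Type} [MeasurableSpace β] [Countable κ] [MeasurableSpace κ]
    [MeasurableSingletonClass κ] : ∀ {n : ℕ} {α : Type} [MeasurableSpace α]
    {F : κ → (Pt d → Resp d) → α → β},
    (∀ k, Uses n α (F k)) → Uses n (κ × α) fun O a => F a.1 O a.2 := by
  intro n
  induction n with
  | zero =>
    intro α _ F h
    choose out ho he using h
    exact ⟨fun a => out a.1 a.2, measurable_from_prod_countable_right fun k => ho k,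
      fun O a => he a.1 O a.2⟩
  | succ n ih =>
    intro α _ F h
    choose p F' hp hF' he using h
    exact ⟨fun a => p a.1 a.2, _, measurable_from_prod_countable_right fun k => hp k,
      (ih hF').map (h := fun b : (κ × α) × Resp d => (b.1.1, b.1.2, b.2)) (by fun_prop)
        (g := fun b : ((κ × α) × Resp d) × β => b.2) measurable_snd,
      fun O a => he a.1 O a.2⟩

/-- `A` averages a randomized program with expected query count at most `e`; the count is
decided by the seed before the first query. -/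
def RImpl (e : ℝ) (A : (Pt d → Resp d) → (σ → ℝ) → σ → ℝ) : Prop :=
  ∃ (ι : Type) (_ : Fintype ι) (p : ι → ℝ) (c : ι → ℕ) (Ω : Type) (_ : MeasurableSpace Ω)
    (μ : Measure Ω), IsProbabilityMeasure μ ∧ (∀ i, 0 ≤ p i) ∧ ∑ i, p i = 1 ∧
    ∑ i, p i * c i ≤ e ∧ ∃ F : ι → (Pt d → Resp d) → σ × Ω → σ, (∀ i, Uses (c i) (σ × Ω) (F i)) ∧
      ∀ O, Measurable O → ∀ f, BM f → ∀ x, A O f x = ∑ i, p i * ∫ ω, f (F i O (x, ω)) ∂μ

/-- A finite mixture of programs of equal length is one program. -/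
theorem impl_mix {ι : Type} [Fintype ι] {p : ι → ℝ} {Ω : Type} [MeasurableSpace Ω] {μ : Measure Ω}
    [IsProbabilityMeasure μ] (hp : ∀ i, 0 ≤ p i) (hp1 : ∑ i, p i = 1) {q : ℕ}
    {F : ι → (Pt d → Resp d) → σ × Ω → σ} (hF : ∀ i, Uses q (σ × Ω) (F i)) :
    Impl q fun O f x => ∑ i, p i * ∫ ω, f (F i O (x, ω)) ∂μ := by
  let _ : MeasurableSpace ι := ⊤
  have _hs : MeasurableSingletonClass ι := ⟨fun _ => trivial⟩
  set ν : Measure ι := ∑ i, ENNReal.ofReal (p i) • Measure.dirac i with hν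
  have hν1 : IsProbabilityMeasure ν := ⟨by
    simp [hν, ← ENNReal.ofReal_sum_of_nonneg (fun i _ => hp i), hp1]⟩
  have hU : Uses q (σ × ι × Ω) fun O a => F a.2.1 O (a.1, a.2.2) :=
    (Uses.select hF).map (h := fun a : σ × ι × Ω => (a.2.1, a.1, a.2.2)) (by fun_prop)
      (g := fun b : (σ × ι × Ω) × σ => b.2) measurable_snd
  refine ⟨ι × Ω, inferInstance, ν.prod μ, inferInstance, _, hU, fun O hO f hf x => ?_⟩
  have hi : BM fun w : ι × Ω => f (F w.1 O (x, w.2)) :=
    ⟨hf.1.comp ((hU.measurable hO).comp (measurable_const.prodMk measurable_id)),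
      hf.2.choose, fun w => hf.2.choose_spec _⟩
  dsimp only
  rw [integral_prod _ (hi.integrable _), hν,
    integral_finsetSum_measure fun i _ =>
      (integrable_dirac enorm_lt_top).smul_measure ENNReal.ofReal_ne_top]
  exact Finset.sum_congr rfl fun i _ => by
    rw [integral_smul_measure, integral_dirac, ENNReal.toReal_ofReal (hp i), smul_eq_mul]

theorem RImpl.mono {e e' : ℝ} {A : (Pt d → Resp d) → (σ → ℝ) → σ → ℝ} (h : RImpl e A)
    (he : e ≤ e') : RImpl e' A := by
  obtain ⟨ι, _, p, c, Ω, _, μ, hμ, hp, hp1, hc, F, hF, hA⟩ := h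
  exact ⟨ι, inferInstance, p, c, Ω, inferInstance, μ, hμ, hp, hp1, hc.trans he, F, hF, hA⟩

theorem RImpl.of_impl {q : ℕ} {A : (Pt d → Resp d) → (σ → ℝ) → σ → ℝ} (h : Impl q A) :
    RImpl (q : ℝ) A := by
  obtain ⟨Ω, _, μ, hμ, F, hF, hA⟩ := h
  exact ⟨Unit, inferInstance, fun _ => 1, fun _ => q, Ω, inferInstance, μ, hμ, by simp, by simp,
    by simp, fun _ => F, fun _ => hF, fun O hO f hf x => by simpa using hA O hO f hf x⟩

theorem RImpl.to_impl {e : ℝ} {A : (Pt d → Resp d) → (σ → ℝ) → σ → ℝ} (h : RImpl e A) :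
    ∃ q, Impl q A := by
  obtain ⟨ι, _, p, c, Ω, _, μ, hμ, hp, hp1, -, F, hF, hA⟩ := h
  obtain ⟨Ω', _, ν, hν, G, hG, hGA⟩ := impl_mix (μ := μ) hp hp1 fun i =>
    Uses.mono' (hF i) (Finset.single_le_sum (fun j _ => Nat.zero_le (c j)) (Finset.mem_univ i))
  exact ⟨_, Ω', inferInstance, ν, hν, G, hG, fun O hO f hf x =>
    (hA O hO f hf x).trans (hGA O hO f hf x)⟩

theorem RImpl.good {e : ℝ} {A : (Pt d → Resp d) → (σ → ℝ) → σ → ℝ} (h : RImpl e A)
    {O : Pt d → Resp d} (hO : Measurable O) : Good (A O) :=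
  h.to_impl.choose_spec.good hO

theorem RImpl.comp {e e' : ℝ} {A B : (Pt d → Resp d) → (σ → ℝ) → σ → ℝ} (hA : RImpl e A)
    (hB : RImpl e' B) : RImpl (e' + e) fun O f => A O (B O f) := by
  have hgB := fun O (hO : Measurable O) => hB.good (O := O) hO
  obtain ⟨ι, _, p, c, Ω, _, μ, hμ, hp, hp1, hc, F, hF, hA⟩ := hA
  obtain ⟨κ, _, p', c', Ω', _, ν, hν, hp', hp1', hc', G, hG, hB⟩ := hB
  refine ⟨ι × κ, inferInstance, fun w => p w.1 * p' w.2, fun w => c' w.2 + c w.1, Ω × Ω',
    inferInstance, μ.prod ν, inferInstance, fun w => mul_nonneg (hp _) (hp' _), ?_, ?_,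
    fun w O a => G w.2 O (F w.1 O (a.1, a.2.1), a.2.2), fun w => ?_, fun O hO f hf x => ?_⟩
  · rw [Fintype.sum_prod_type]
    simp only [← Finset.mul_sum, hp1', mul_one, hp1]
  · have h1 : ∀ i, ∑ j, p i * p' j * ((c' j + c i : ℕ) : ℝ) =
        p i * ∑ j, p' j * c' j + p i * c i := fun i => by
      rw [← mul_one (p i * (c i : ℝ)), ← hp1', Finset.mul_sum, Finset.mul_sum,
        ← Finset.sum_add_distrib]
      exact Finset.sum_congr rfl fun j _ => by push_cast; ring
    rw [Fintype.sum_prod_type]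
    simp only [h1, Finset.sum_add_distrib, ← Finset.sum_mul, hp1, one_mul]
    linarith
  · exact ((hF w.1).map (h := fun a : σ × Ω × Ω' => (a.1, a.2.1)) (by fun_prop)
      (g := fun b : (σ × Ω × Ω') × σ => b.2) measurable_snd).comp
      ((hG w.2).map (h := fun b : (σ × Ω × Ω') × σ => (b.2, b.1.2.2)) (by fun_prop)
        (g := fun b : ((σ × Ω × Ω') × σ) × σ => b.2) measurable_snd)
  · show A O (B O f) x = _
    have hFm : ∀ i, Measurable fun ω => F i O (x, ω) := fun i =>
      ((hF i).measurable hO).comp measurable_prodMk_left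
    have hGm : ∀ i j, BM fun a : Ω × Ω' => f (G j O (F i O (x, a.1), a.2)) := fun i j =>
      ⟨hf.1.comp (((hG j).measurable hO).comp
        (((hFm i).comp measurable_fst).prodMk measurable_snd)),
        hf.2.choose, fun a => hf.2.choose_spec _⟩
    rw [hA O hO _ ((hgB O hO).bm hf), Fintype.sum_prod_type]
    refine Finset.sum_congr rfl fun i _ => ?_
    have h2 : ∀ ω, B O f (F i O (x, ω)) =
        ∑ j, p' j * ∫ ω', f (G j O (F i O (x, ω), ω')) ∂ν := fun ω => hB O hO f hf _
    simp only [h2]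
    rw [integral_finsetSum _ fun j _ =>
      (((hGm i j).integrable (μ.prod ν)).integral_prod_left.const_mul (p' j)), Finset.mul_sum]
    refine Finset.sum_congr rfl fun j _ => ?_
    rw [integral_prod _ ((hGm i j).integrable _), integral_const_mul, mul_assoc]

theorem RImpl.foldr {ι : Type} {e : ι → ℝ} {A : ι → (Pt d → Resp d) → (σ → ℝ) → σ → ℝ}
    (h : ∀ i, RImpl (e i) (A i)) (l : List ι) :
    RImpl (l.map e).sum fun O f => l.foldr (fun i g => A i O g) f := by
  induction l with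
  | nil => simpa using RImpl.of_impl (Impl.id' (d := d) (σ := σ))
  | cons i l ih =>
    rw [List.map_cons, List.sum_cons, add_comm]
    simpa using (h i).comp ih

/-- Stopping at a fixed budget. -/
theorem RImpl.truncate [Nonempty σ] {e : ℝ} {A : (Pt d → Resp d) → (σ → ℝ) → σ → ℝ}
    (h : RImpl e A) {q : ℕ} (hq : 0 < q) :
    ∃ A', Impl q A' ∧ ∀ O, Measurable O → ∀ f, Measurable f → (∀ x, |f x| ≤ 1) →
      ∀ x, |A' O f x - A O f x| ≤ 2 * e / q := by
  obtain ⟨ι, _, p, c, Ω, _, μ, hμ, hp, hp1, hc, F, hF, hA⟩ := h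
  let F' : ι → (Pt d → Resp d) → σ × Ω → σ := fun i =>
    if c i ≤ q then F i else fun _ a => a.1
  have hF' : ∀ i, Uses q (σ × Ω) (F' i) := fun i => by
    simp only [F']
    split_ifs with hi
    · exact Uses.mono' (hF i) hi
    · exact Uses.mono' (Uses.zero measurable_fst) (Nat.zero_le q)
  refine ⟨_, impl_mix (μ := μ) hp hp1 hF', fun O hO f hf hf1 x => ?_⟩
  have hb : ∀ G : Ω → σ, |∫ ω, f (G ω) ∂μ| ≤ 1 := fun G => by
    rw [← norm_eq_abs]
    exact (norm_integral_le_of_norm_le_const (C := 1) (ae_of_all _ fun ω => by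
      rw [norm_eq_abs]; exact hf1 _)).trans (by simp)
  rw [hA O hO f ⟨hf, 1, hf1⟩ x, ← Finset.sum_sub_distrib]
  refine (Finset.abs_sum_le_sum_abs _ _).trans ?_
  calc ∑ i, |p i * ∫ ω, f (F' i O (x, ω)) ∂μ - p i * ∫ ω, f (F i O (x, ω)) ∂μ|
      ≤ ∑ i, 2 / (q : ℝ) * (p i * c i) := Finset.sum_le_sum fun i _ => by
        have hq' : (0 : ℝ) < q := by exact_mod_cast hq
        have hn : 0 ≤ p i * (c i : ℝ) := mul_nonneg (hp i) (Nat.cast_nonneg _)
        by_cases hi : c i ≤ q
        · simp only [F', if_pos hi, sub_self, abs_zero]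
          positivity
        · rw [← mul_sub, abs_mul, abs_of_nonneg (hp i)]
          have h1 : (q : ℝ) ≤ c i := by exact_mod_cast (not_le.1 hi).le
          calc p i * |∫ ω, f (F' i O (x, ω)) ∂μ - ∫ ω, f (F i O (x, ω)) ∂μ|
              ≤ p i * 2 := mul_le_mul_of_nonneg_left
                ((abs_sub _ _).trans ((add_le_add (hb _) (hb _)).trans (by norm_num))) (hp i)
            _ = 2 / (q : ℝ) * (p i * q) := by field_simp
            _ ≤ _ := mul_le_mul_of_nonneg_left (mul_le_mul_of_nonneg_left h1 (hp i))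
              (by positivity)
    _ ≤ 2 * e / q := by
      rw [← Finset.mul_sum, div_mul_eq_mul_div]
      gcongr

/-- From an averaging operator to an algorithm on points. -/
theorem Impl.algorithm {q : ℕ} {A : (Pt d → Resp d) → (σ → ℝ) → σ → ℝ} (h : Impl q A)
    (x₀ : σ) {out : σ → Pt d} (hout : Measurable out) :
    ∃ (Ω : Type) (_ : MeasurableSpace Ω) (μ : Measure Ω), IsProbabilityMeasure μ ∧
    ∃ F : (Pt d → Resp d) → Ω → Pt d, Uses q Ω F ∧
      ∀ O, Measurable O → ∀ B : Set (Pt d), MeasurableSet B →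
        (μ.map (F O)).real B = A O ((out ⁻¹' B).indicator fun _ => 1) x₀ := by
  obtain ⟨Ω, _, μ, hμ, F, hF, hA⟩ := h
  have hU : Uses q Ω fun O ω => out (F O (x₀, ω)) :=
    hF.map (h := fun ω : Ω => (x₀, ω)) measurable_prodMk_left
      (g := fun b : Ω × σ => out b.2) (hout.comp measurable_snd)
  refine ⟨Ω, inferInstance, μ, hμ, _, hU, fun O hO B hB => ?_⟩
  have hm : Measurable fun ω => out (F O (x₀, ω)) := hU.measurable hO
  rw [hA O hO _ ⟨measurable_const.indicator (hout hB), 1, fun y => by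
      by_cases hy : y ∈ out ⁻¹' B <;> simp [hy]⟩,
    map_measureReal_apply hm hB, ← integral_indicator_one (hm hB)]
  rfl

end

end Vale.Agent.P347.Quarter
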