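import Vale.Agent.P347.Quarter.Alg
import Vale.Agent.P347.Quarter.Budget

/-!
# P347, exponent 1/4: the step of the algorithm as a program of queries
-/

namespace Vale.Agent.P347.Quarter

open MeasureTheory ProbabilityTheory Real WithLp Finset
open scoped RealInnerProductSpace
open Vale.Agent.P347.Colour (Pt Resp Uses Impl BM)

noncomputable section

variable {d : ℕ}

theorem measurable_gOf {O : Pt d → Resp d} (hO : Measurable O) : Measurable (gOf O) := by
  have h1 : Measurable fun x : E d => (O (WithLp.ofLp x)).2 :=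
    measurable_snd.comp (hO.comp (by fun_prop))
  exact (show Measurable (WithLp.toLp 2 : Pt d → E d) by fun_prop).comp h1

/-- Gradients at finitely many points computed from the input. -/
theorem uses_gbatch {α κ : Type} [MeasurableSpace α] [Fintype κ] {P : κ → α → E d}
    (hP : ∀ k, Measurable (P k)) :
    Uses (Fintype.card κ) α (fun (O : Pt d → Resp d) a k => gOf O (P k a)) := by
  have h := (Colour.Uses.batch (d := d) (Fintype.card κ)
    (p := fun j a => WithLp.ofLp (P ((Fintype.equivFin κ).symm j) a))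
    fun j => (show Measurable (WithLp.ofLp : E d → Pt d) by fun_prop).comp (hP _)).map
      (h := id) measurable_id
      (g := fun b : α × (Fin (Fintype.card κ) → Resp d) => fun k =>
        (toLp 2 (b.2 (Fintype.equivFin κ k)).2 : E d))
      (measurable_pi_lambda _ fun k => by fun_prop)
  simpa [gOf] using h

/-- One gradient. -/
theorem uses_gquery {α : Type} [MeasurableSpace α] {P : α → E d} (hP : Measurable P) :
    Uses 1 α (fun (O : Pt d → Resp d) a => gOf O (P a)) := by
  have h := (uses_gbatch (κ := Fin 1) fun _ => hP).map (h := id) measurable_id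
    (g := fun b : α × (Fin 1 → E d) => b.2 0) (by fun_prop)
  simpa using h

/-- The point of `fz` belonging to `y`. -/
def pz (h : ℝ) (z gz y : E d) : E d := z - h • gz + √h • y

theorem fz_eq (h : ℝ) (g : E d → E d) (z y : E d) :
    fz h g z y = √h • (g (pz h z (g z) y) - g z) := rfl

/-- The value of a level from the gradients at its representatives. -/
def levVal (h β : ℝ) (n l : ℕ) (gz : E d) (v : Fin (2 ^ l) → E d) (i : ℕ) : E d :=
  acc β (fun j => √h • ((if hj : j / blk n l < 2 ^ l then v ⟨_, hj⟩ else 0) - gz)) i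

theorem div_blk_lt {n l j : ℕ} (hn : 1 ≤ n) (hj : j < n) : j / blk n l < 2 ^ l := by
  rw [Nat.div_lt_iff_lt_mul (blk_pos hn l)]
  have h1 := Nat.div_add_mod (n + 2 ^ l - 1) (2 ^ l)
  have h2 := Nat.mod_lt (n + 2 ^ l - 1) (show 0 < 2 ^ l by positivity)
  rw [blk]
  omega

theorem lev_eq_levVal {n : ℕ} (hn : 1 ≤ n) (h β : ℝ) (g : E d → E d) (z : E d) (l : ℕ)
    (p : ℕ → E d) {i : ℕ} (hi : i ≤ n) :
    lev β (fz h g z) n l p i
      = levVal h β n l (g z) (fun a => g (pz h z (g z) (p (a * blk n l)))) i := by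
  refine acc_congr fun j hj => ?_
  rw [dif_pos (div_blk_lt hn (hj.trans_le hi))]
  rfl

theorem delta_eq (f : E d → E d) (β : ℝ) (n : ℕ) (p : ℕ → E d) (i l : ℕ) :
    delta β f n p i l = f (p i - lev β f n l p i) -
      f (p i - if l = 0 then 0 else lev β f n (l - 1) p i) := by
  cases l <;> simp [delta]

@[fun_prop]
theorem measurable_levVal {α : Type*} [MeasurableSpace α] (h β : ℝ) (n l i : ℕ)
    {gz : α → E d} {v : α → Fin (2 ^ l) → E d} (hg : Measurable gz) (hv : Measurable v) :
    Measurable fun a => levVal h β n l (gz a) (v a) i := by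
  unfold levVal acc
  refine Finset.measurable_sum _ fun j _ => ?_
  dsimp only
  split_ifs <;> fun_prop

@[fun_prop]
theorem measurable_qb {n : ℕ} (β : ℝ) (j : ℕ) : Measurable fun s : Seed d n => qb β s j :=
  measurable_ou β (n - j)

theorem sum_prob_level {β : ℝ} {n : ℕ} (h0 : 0 ≤ β) (h1 : β < 1) (hn : 1 ≤ n) (L : ℕ)
    (φ : ℕ → ℝ) :
    ∑ i : Fin n × Fin (L + 1), prob β n L i * φ i.2
      = ∑ l ∈ range (L + 1), lw L l * φ l := by
  simp only [prob, Fintype.sum_prod_type]
  simp only [mul_assoc]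
  simp only [← mul_sum]
  rw [← sum_mul, Fin.sum_univ_eq_sum_range (fun l => lw L l * φ l),
    Fin.sum_univ_eq_sum_range (fun i => (1 - β) * β ^ (n - 1 - i) / tw β n) n, ← sum_div,
    sum_weights, show 1 - β ^ n = tw β n from rfl, div_self (tw_pos h0 h1 hn).ne', one_mul]

/-- The batch of one step. -/
abbrev Nd (S : Finset ℕ) (l : ℕ) : Type := S ⊕ (Fin (2 ^ l) ⊕ Fin (2 ^ (l - 1)))

/-- The seeds of a step. -/
abbrev StepSeed (d n : ℕ) := E d × (Fin n → E d) × (Fin n → E d)

theorem rimpl_Aop (h β : ℝ) (n L : ℕ) (S : Finset ℕ) (c : ℕ → ℝ) (hn : 1 ≤ n) (h0 : 0 ≤ β)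
    (h1 : β < 1) :
    RImpl ((S.card : ℝ) + 10 * (L + 1))
      (fun (O : Pt d → Resp d) (u : E d → ℝ) (z : E d) => Aop h β n L S c (gOf O) u z) := by
  classical
  -- the points of the batch
  let P : ∀ _i : Fin n × Fin (L + 1), ∀ l : ℕ, Nd S l → (E d × StepSeed d n) × E d → E d := fun _ l k b =>
    pz h b.1.1 b.2 (match k with
      | Sum.inl k => ou β ((b.1.2.1, b.1.2.2.1) : Seed d n) ((k : ℕ) + 1)
      | Sum.inr (Sum.inl a) => qb β ((b.1.2.1, b.1.2.2.2) : Seed d n) ((a : ℕ) * blk n l)
      | Sum.inr (Sum.inr a) => qb β ((b.1.2.1, b.1.2.2.2) : Seed d n) ((a : ℕ) * blk n (l - 1)))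
  have hP : ∀ i l k, Measurable (P i l k) := fun i l k => by
    simp only [P, pz]
    rcases k with k | a | a <;> fun_prop
  -- the two last points
  let Y : ∀ _i : Fin n × Fin (L + 1), ∀ l : ℕ, Fin 2 → ((E d × StepSeed d n) × E d) × (Nd S l → E d) → E d :=
    fun i l t b => qb β ((b.1.1.2.1, b.1.1.2.2.2) : Seed d n) i.1 -
      (if t = 0 then levVal h β n l b.1.2 (fun a => b.2 (Sum.inr (Sum.inl a))) i.1
       else if l = 0 then 0
       else levVal h β n (l - 1) b.1.2 (fun a => b.2 (Sum.inr (Sum.inr a))) i.1)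
  have hY : ∀ i l t, Measurable (Y i l t) := fun i l t => by
    simp only [Y]
    split_ifs <;> fun_prop
  -- the output
  let out : ∀ _i : Fin n × Fin (L + 1), ∀ l : ℕ,
      (((E d × StepSeed d n) × E d) × (Nd S l → E d)) × (Fin 2 → E d) → E d := fun i l b =>
    b.1.1.1.1 - h • b.1.1.2 + √h • (b.1.1.1.2.1
      - ∑ k : S, c k • (√h • (b.1.2 (Sum.inl k) - b.1.1.2))
      - (tw β n / lw L l) • (√h • (b.2 0 - b.1.1.2) - √h • (b.2 1 - b.1.1.2)))
  have hout : ∀ i l, Measurable (out i l) := fun i l => by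
    simp only [out]; fun_prop
  have hU : ∀ (i : Fin n × Fin (L + 1)) (l : ℕ),
      Uses (2 + Fintype.card (Nd S l) + 1) (E d × StepSeed d n) (fun (O : Pt d → Resp d) (a : (E d × StepSeed d n)) =>
        (fun b : (E d × StepSeed d n) × E d => (fun b' : ((E d × StepSeed d n) × E d) × (Nd S l → E d) =>
            out i l (b', fun t => gOf O (pz h b'.1.1.1 b'.1.2 (Y i l t b'))))
          (b, fun k => gOf O (P i l k b))) (a, gOf O a.1)) := by
    intro i l
    have hlast := (uses_gbatch (d := d) (κ := Fin 2)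
      (P := fun t (b' : ((E d × StepSeed d n) × E d) × (Nd S l → E d)) => pz h b'.1.1.1 b'.1.2 (Y i l t b'))
      fun t => by have := hY i l t; unfold pz; fun_prop).map (h := id) measurable_id
        (g := out i l) (hout i l)
    simp only [id, Fintype.card_fin] at hlast
    exact (uses_gquery (d := d) (α := (E d × StepSeed d n)) measurable_fst).comp
      ((uses_gbatch (d := d) (hP i l)).comp hlast)
  refine ⟨Fin n × Fin (L + 1), inferInstance, prob β n L,
    fun i => 2 + Fintype.card (Nd S i.2) + 1, StepSeed d n, inferInstance,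
    (γ d).prod ((Measure.pi fun _ : Fin n => γ d).prod (Measure.pi fun _ : Fin n => γ d)),
    inferInstance, fun i => prob_nonneg h0 h1 i, sum_prob h0 h1 hn, ?_,
    fun i => _, fun i => hU i i.2, fun O hO u hu z => ?_⟩
  · -- the budget
    have hc : ∀ l : ℕ, Fintype.card (Nd S l) = S.card + (2 ^ l + 2 ^ (l - 1)) := fun l => by
      simp [Nd, Fintype.card_sum]
    simp only [hc]
    push_cast
    rw [sum_prob_level h0 h1 hn L
      (fun l => 2 + ((S.card : ℝ) + (2 ^ l + 2 ^ (l - 1))) + 1)]
    have hl : ∀ l ∈ range (L + 1), lw L l * (2 + ((S.card : ℝ) + (2 ^ l + 2 ^ (l - 1))) + 1)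
        ≤ lw L l * S.card + 5 := by
      intro l _
      have h2 : (2 : ℝ) ^ (l - 1) ≤ 2 ^ l := pow_le_pow_right₀ one_le_two (Nat.sub_le l 1)
      have h3 : lw L l * (2 : ℝ) ^ l ≤ 1 := by
        refine (mul_le_mul_of_nonneg_right (lw_le L l) (by positivity)).trans (le_of_eq ?_)
        rw [inv_pow, inv_mul_cancel₀ (by positivity)]
      have h4 : lw L l ≤ 1 := (lw_le L l).trans (pow_le_one₀ (by norm_num) (by norm_num))
      have := lw_pos L l
      nlinarith
    refine (sum_le_sum hl).trans ?_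
    rw [sum_add_distrib, ← sum_mul, sum_lw, one_mul, sum_const, card_range, nsmul_eq_mul]
    push_cast
    linarith [show (0 : ℝ) ≤ L from Nat.cast_nonneg L]
  · -- the value
    unfold Aop
    refine sum_congr rfl fun i _ => congrArg _ ?_
    have hm := (hU i i.2).measurable hO
    have hi : BM fun ω : StepSeed d n => u ((fun b : (E d × StepSeed d n) × E d =>
        (fun b' : ((E d × StepSeed d n) × E d) × (Nd S i.2 → E d) =>
          out i i.2 (b', fun t => gOf O (pz h b'.1.1.1 b'.1.2 (Y i i.2 t b'))))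
          (b, fun k => gOf O (P i i.2 k b))) ((z, ω), gOf O z)) :=
      ⟨hu.1.comp (hm.comp measurable_prodMk_left), hu.2.choose, fun ω => hu.2.choose_spec _⟩
    have hi2 : ∀ x, BM fun q : (Fin n → E d) × (Fin n → E d) => u ((fun b : (E d × StepSeed d n) × E d =>
        (fun b' : ((E d × StepSeed d n) × E d) × (Nd S i.2 → E d) =>
          out i i.2 (b', fun t => gOf O (pz h b'.1.1.1 b'.1.2 (Y i i.2 t b'))))
          (b, fun k => gOf O (P i i.2 k b))) ((z, x, q), gOf O z)) := fun x =>
      ⟨hi.1.comp measurable_prodMk_left, hi.2.choose, fun q => hi.2.choose_spec _⟩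
    rw [integral_prod _ (hi.integrable _)]
    refine integral_congr_ae (ae_of_all _ fun x => ?_)
    dsimp only
    rw [integral_prod _ ((hi2 x).integrable _)]
    refine integral_congr_ae (ae_of_all _ fun w => integral_congr_ae (ae_of_all _ fun w' => ?_))
    have hi' : (i.1 : ℕ) ≤ n := i.1.2.le
    simp only [out, Y, P, Qa, Zc, delta_eq, fz_eq, lev_eq_levVal hn h β (gOf O) z _ _ hi',
      Fin.isValue, if_true, show (1 : Fin 2) ≠ 0 by decide, if_false]
    congr 3
    congr 1
    congr 1
    exact (Finset.sum_coe_sort S _).symm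

/-- The last round, one query. -/
theorem impl_last (η : ℝ) :
    Impl 1 (fun (O : Pt d → Resp d) (u : E d → ℝ) (z : E d) => Nlast η (gOf O) u z) := by
  refine ⟨E d, inferInstance, γ d, inferInstance,
    fun O a => a.1 - η • gOf O a.1 + √η • a.2, ?_, fun O _ u _ z => rfl⟩
  exact (uses_gquery (d := d) (α := E d × E d) measurable_fst).map (h := id) measurable_id
    (g := fun b : (E d × E d) × E d => b.1.1 - η • b.2 + √η • b.1.2) (by fun_prop)

/-- Smoothing, no query. -/
theorem impl_G (b : ℝ) : Impl 0 (fun (_ : Pt d → Resp d) (u : E d → ℝ) (z : E d) => G b u z) :=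
  ⟨E d, inferInstance, γ d, inferInstance, fun _ a => a.1 + √b • a.2,
    Colour.Uses.zero (by fun_prop), fun _ _ _ _ _ => rfl⟩

end

end Vale.Agent.P347.Quarter
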