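import Mathlib

/-!
# P347, exponent 1/4: the error budget as a real expression
-/

namespace Vale.Agent.P347.Quarter

open Real

noncomputable section

/-- The quadrature accuracy of the rule with `M` panels. -/
def epsQ (Cq : ℝ) (p M n : ℕ) (β : ℝ) : ℝ := (1 - β) * Cq * n / (M : ℝ) ^ p

/-- The quadrature weight. -/
def wQ (Cq : ℝ) (n : ℕ) (β : ℝ) : ℝ := (1 - β) * Cq * n

/-- The bracket of the step error that multiplies `h ^ 2`. -/
def bracket (Cq : ℝ) (d n L : ℕ) (h β : ℝ) : ℝ :=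
  4 * √d * (wQ Cq n β ^ 2 + 4) + 1500 * (L + 1) * (1 + n * (1 - β)) * (h ^ 2 * d)

/-- Total error: algorithm against Euler chain, bias of the Euler chains, last round, start. -/
def totalErr (Cq : ℝ) (p M d n L N J₃ : ℕ) (h β : ℝ) : ℝ :=
  (12 * √d * h * (8 * h ^ 2 + epsQ Cq p M n β) * (J₃ + 3 * √N)
      + h ^ 2 * bracket Cq d n L h β * (4 * J₃ + 4 * (2 + log N) + 8 * h * N))
      * (2 + 5 * h * (N + 2))
    + 100 * (J₃ + N + 1) * (√(2 ^ (J₃ + 1) / h)) * d * (β ^ n + n * (1 - β) ^ (3 / 2 : ℝ))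
    + 50 * (h / 2 ^ (J₃ + 1)) * d
    + (1 / (1 + h)) ^ N * (2 / √h) * √(8 * d)

/-- The query budget. -/
def totalCost (p M J L N J₃ : ℕ) : ℝ :=
  (N + J₃) * ((J + 1) * (p * M) + 10 * (L + 1) + 1) + 2

end

end Vale.Agent.P347.Quarter
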