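import Vale.Agent.P347.Quarter.StepOrig
import Vale.Agent.P347.Quarter.Total

/-!
# P347, exponent 1/4: rounds of the algorithm against rounds of the Euler chain
-/

namespace Vale.Agent.P347.Quarter

open MeasureTheory ProbabilityTheory Real WithLp Finset
open scoped RealInnerProductSpace

noncomputable section

variable {d n L : ℕ} {β h : ℝ} {g : E d → E d} {S : Finset ℕ} {c : ℕ → ℝ}

/-- The point produced by one step. -/
def xout (h β : ℝ) (S : Finset ℕ) (c : ℕ → ℝ) (g : E d → E d) (n L : ℕ) (z : E d)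
    (i : Fin n × Fin (L + 1)) (t : Seed d n × (Fin n → E d)) : E d :=
  z - h • g z + √h • (t.1.1 - Qa β (fz h g z) S c t.1
    - Zc β (fz h g z) n L ((t.1.1, t.2) : Seed d n) i)

/-- The quantitative hypotheses shared by all rounds. -/
structure Rule (β : ℝ) (n L : ℕ) (S : Finset ℕ) (c : ℕ → ℝ) (ε W : ℝ) : Prop where
  hn : 1 ≤ n
  hnL : n ≤ 2 ^ L
  hLn : 2 ^ L ≤ 2 * n
  β_ge : 2 / 3 ≤ β
  β_lt : β < 1
  sub : S ⊆ range n
  ε0 : 0 ≤ ε
  quad : ∀ y : ℝ, 0 ≤ y → y ≤ 1 →
      |∑ k ∈ S, c k * y ^ (k + 1) - ∑ k ∈ range n, (1 - β) * β ^ k * y ^ (k + 1)| ≤ ε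
  weight : ∑ k ∈ S, |c k| ≤ W

variable {ε W : ℝ}

theorem Rule.β0 (hr : Rule β n L S c ε W) : 0 ≤ β := by linarith [hr.β_ge]

theorem Rule.abs_le (hr : Rule β n L S c ε W) : |β| ≤ 1 := by
  rw [abs_of_nonneg hr.β0]; exact hr.β_lt.le

theorem memLp_xout (hg : Pot g) (hh : 0 < h) (hh' : h ≤ 1 / 4) (hr : Rule β n L S c ε W) (z : E d)
    (i : Fin n × Fin (L + 1)) :
    MemLp (xout h β S c g n L z i) 2 ((seed d n).prod (Measure.pi fun _ => γ d)) := by
  have hf := fld_fz hg hh hh' z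
  set ν := Measure.pi fun _ : Fin n => γ d
  have hQs : MemLp (fun s : Seed d n => Qa β (fz h g z) S c s) 2 (seed d n) :=
    memLp_finsetSum _ fun k hk => (memLp_comp_lip hf.cont hf.lip
      (memLp_ou hr.abs_le (k := k + 1)
        (by have := mem_range.1 (hr.sub hk); omega))).const_smul (c k)
  have hT : MemLp (fun s : Seed d n => Zc β (fz h g z) n L s i) 2 (seed d n) :=
    (memLp_delta hf (fun j _ => memLp_qb hr.abs_le j) i.2).const_smul (tw β n / lw L i.2)
  have hX : MemLp (fun s : Seed d n => s.1) 2 (seed d n) := memLp_ou hr.abs_le (Nat.zero_le n)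
  have h1 : MeasurePreserving (Prod.fst : Seed d n × (Fin n → E d) → Seed d n)
      ((seed d n).prod ν) (seed d n) := measurePreserving_fst
  have h2 : MeasurePreserving (fun p : Seed d n × (Fin n → E d) => ((p.1.1, p.2) : Seed d n))
      ((seed d n).prod ν) (seed d n) := measurePreserving_fst.prod (MeasurePreserving.id ν)
  exact (memLp_const (z - h • g z)).add ((((hX.comp_measurePreserving h1).sub
    (hQs.comp_measurePreserving h1)).sub (hT.comp_measurePreserving h2)).const_smul √h)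

theorem integral_triple {v : Seed d n × (Fin n → E d) → ℝ}
    (hv : Integrable v ((seed d n).prod (Measure.pi fun _ => γ d))) :
    ∫ t, v t ∂(seed d n).prod (Measure.pi fun _ => γ d)
      = ∫ x, ∫ w, ∫ w', v (((x, w) : Seed d n), w')
          ∂(Measure.pi fun _ => γ d) ∂(Measure.pi fun _ => γ d) ∂γ d := by
  rw [integral_prod _ hv, integral_seed_fibre hv.integral_prod_left]

theorem Aop_eq (hg : Pot g) (hh : 0 < h) (hh' : h ≤ 1 / 4) (hr : Rule β n L S c ε W) {u : E d → ℝ}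
    (hu : Measurable u) {B : ℝ} (hB : ∀ x, |u x| ≤ B) (z : E d) :
    Aop h β n L S c g u z = ∑ i, prob β n L i *
      ∫ t, u (xout h β S c g n L z i t) ∂(seed d n).prod (Measure.pi fun _ => γ d) := by
  refine sum_congr rfl fun i _ => ?_
  congr 1
  refine (integral_triple (v := fun t => u (xout h β S c g n L z i t)) ?_).symm
  exact (integrable_const B).mono'
    (hu.comp_aemeasurable (memLp_xout hg hh hh' hr z i).1.aemeasurable).aestronglyMeasurable
    (ae_of_all _ fun t => by rw [norm_eq_abs]; exact hB _)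

/-- The step is Lipschitz for quadratically weighted sup norms. -/
theorem Aop_diff (hg : Pot g) (hd : 1 ≤ d) (hh : 0 < h) (hh' : h ≤ 1 / 8)
    (hr : Rule β n L S c ε W)
    (hsmall : h * (W ^ 2 + (L + 1) * (1 + n * (1 - β))) ≤ 1 / 5000) {u v : E d → ℝ}
    (hu : Measurable u) (hv : Measurable v) {B : ℝ} (huB : ∀ x, |u x| ≤ B) (hvB : ∀ x, |v x| ≤ B)
    {a b : ℝ} (hb : 0 ≤ b) (huv : ∀ y, |u y - v y| ≤ a + b * ‖y‖ ^ 2) (z : E d) :
    |Aop h β n L S c g u z - Aop h β n L S c g v z| ≤ a + b * (‖z‖ ^ 2 + 4 * h * d) := by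
  have hh4 : h ≤ 1 / 4 := by linarith
  set μ := (seed d n).prod (Measure.pi fun _ : Fin n => γ d)
  rw [Aop_eq hg hh hh4 hr hu huB, Aop_eq hg hh hh4 hr hv hvB, ← sum_sub_distrib]
  have hX := memLp_xout hg hh hh4 hr z
  have hi : ∀ {w : E d → ℝ}, Measurable w → (∀ x, |w x| ≤ B) → ∀ i,
      Integrable (fun t => w (xout h β S c g n L z i t)) μ := fun hw hwB i =>
    (integrable_const B).mono' (hw.comp_aemeasurable (hX i).1.aemeasurable).aestronglyMeasurable
      (ae_of_all _ fun t => by rw [norm_eq_abs]; exact hwB _)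
  have hsq : ∀ i, Integrable (fun t => ‖xout h β S c g n L z i t‖ ^ 2) μ := fun i =>
    (hX i).integrable_norm_pow two_ne_zero
  refine (abs_sum_le_sum_abs _ _).trans ((sum_le_sum fun i _ => (?_ : _ ≤ prob β n L i *
    (a + b * ∫ t, ‖xout h β S c g n L z i t‖ ^ 2 ∂μ))).trans ?_)
  · rw [← mul_sub, abs_mul, abs_of_nonneg (prob_nonneg hr.β0 hr.β_lt i),
      ← integral_sub (hi hu huB i) (hi hv hvB i)]
    refine mul_le_mul_of_nonneg_left (abs_integral_le_integral_abs.trans
      ((integral_mono (((hi hu huB i).sub (hi hv hvB i))).abs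
        ((integrable_const a).add ((hsq i).const_mul b)) fun t => huv _).trans (le_of_eq ?_)))
      (prob_nonneg hr.β0 hr.β_lt i)
    simp only [Pi.add_apply]
    rw [integral_add (integrable_const a) ((hsq i).const_mul b), integral_const, probReal_univ,
      one_smul, integral_const_mul]
  · simp only [mul_add, sum_add_distrib, ← sum_mul, sum_prob hr.β0 hr.β_lt hr.hn, one_mul,
      mul_left_comm _ b, ← mul_sum]
    refine add_le_add le_rfl (le_trans (mul_le_mul_of_nonneg_left ?_ hb) (le_of_eq (mul_add _ _ _)))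
    refine le_trans (le_of_eq (sum_congr rfl fun i _ => ?_))
      (step_moment hg hd hh hh' hr.β0 hr.β_lt hr.hn hr.hLn S hr.sub c hr.weight le_rfl hsmall z)
    rw [integral_triple (hsq i)]
    rfl

/-- The error rate of one round. -/
def rate (d n L : ℕ) (β ε W η L₁ L₂ : ℝ) : ℝ :=
  6 * √d * (η * √η) * L₁ * (8 * η ^ 2 + ε)
    + η ^ 3 * L₂ * (4 * √d * (W ^ 2 + 4) + 1500 * (L + 1) * (1 + n * (1 - β)) * (η ^ 2 * d))

theorem rate_nonneg (hr : Rule β n L S c ε W) {η L₁ L₂ : ℝ} (hη : 0 ≤ η) (h1 : 0 ≤ L₁)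
    (h2 : 0 ≤ L₂) : 0 ≤ rate d n L β ε W η L₁ L₂ := by
  have := hr.ε0
  have := sub_nonneg.2 hr.β_lt.le
  unfold rate; positivity

/-- One more round keeps the two chains close. -/
theorem round_close (hg : Pot g) (hd : 1 ≤ d) (hh : 0 < h) (hh' : h ≤ 1 / 8)
    (hr : Rule β n L S c ε W)
    (hsmall : h * (W ^ 2 + (L + 1) * (1 + n * (1 - β))) ≤ 1 / 5000) {UA U : E d → ℝ}
    (hUA : Measurable UA) (hUA1 : ∀ x, |UA x| ≤ 1)
    (hA : Measurable (Aop h β n L S c g UA) ∧ ∀ x, |Aop h β n L S c g UA x| ≤ 1)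
    {du : E d → E d} {L₁ L₂ : ℝ} (hU : Test U du L₁ L₂) (hL₂ : 0 ≤ L₂) {Ea Φ : ℝ} (hEa : 0 ≤ Ea)
    (hΦ : 1 ≤ Φ) (hclose : ∀ y, |UA y - U y| ≤ Ea * (Φ + ‖y‖ ^ 2 / d)) (x : E d) :
    |G h (Aop h β n L S c g UA) x - Q h (seed d n) (Phi h β g n) U x|
      ≤ (Ea + rate d n L β ε W h L₁ L₂) * (Φ + 5 * h + ‖x‖ ^ 2 / d) := by
  have hd' : (0 : ℝ) < d := by exact_mod_cast hd
  have hL₁ : 0 ≤ L₁ := (norm_nonneg _).trans (hU.le₁ 0)
  set r := rate d n L β ε W h L₁ L₂
  have hr0 : 0 ≤ r := rate_nonneg hr hh.le hL₁ hL₂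
  have hf := phi_flow (n := n) hg hh (by linarith) hr.β_ge hr.β_lt
  have hRl := lip1_R hf hU.lip1
  have hUm : Measurable U := hU.lip1.smooth.continuous.measurable
  have hpt : ∀ z, |Aop h β n L S c g UA z - R (seed d n) (Phi h β g n) U z|
      ≤ (Ea + r) * (Φ + 4 * h) + (Ea + r) * (1 / d) * ‖z‖ ^ 2 := by
    intro z
    have h1 := Aop_diff hg hd hh hh' hr hsmall hUA hUm hUA1 hU.bdd (a := Ea * Φ) (b := Ea / d)
      (by positivity) (fun y => (hclose y).trans (le_of_eq (by ring))) z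
    have h2 := step_close hg hd hh (by linarith) hr.β0 hr.β_lt hr.hn hr.hnL hr.hLn S hr.sub c
      hr.ε0 hr.quad hr.weight le_rfl hU hL₂ z
    refine (abs_sub_le _ (Aop h β n L S c g U z) _).trans ((add_le_add h1 h2).trans ?_)
    have e : Ea * Φ + Ea / d * (‖z‖ ^ 2 + 4 * h * d) = Ea * (Φ + 4 * h) + Ea * (1 / d) * ‖z‖ ^ 2 := by
      field_simp; ring
    rw [e]
    change _ + r * (1 + ‖z‖ ^ 2 / d) ≤ _
    linarith [mul_le_mul_of_nonneg_left (show (1 : ℝ) ≤ Φ + 4 * h by linarith) hr0,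
      show r * (‖z‖ ^ 2 / d) = r * (1 / d) * ‖z‖ ^ 2 by ring]
  have hsq : Integrable (fun w : E d => ‖x + √h • w‖ ^ 2) (γ d) :=
    ((memLp_const x).add ((IsGaussian.memLp_two_id (μ := γ d)).const_smul √h)).integrable_norm_pow
      two_ne_zero
  have hsqv : ∫ w, ‖x + √h • w‖ ^ 2 ∂γ d = ‖x‖ ^ 2 + h * d := by
    simp only [norm_add_sq_real, norm_smul, norm_eq_abs, mul_pow, sq_abs, sq_sqrt hh.le,
      real_inner_smul_right]
    have hj : Integrable (fun w : E d => 2 * (√h * ⟪x, w⟫)) (γ d) :=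
      ((IsGaussian.integrable_id.const_inner x).const_mul √h).const_mul 2
    have hk : Integrable (fun w : E d => ‖x‖ ^ 2 + 2 * (√h * ⟪x, w⟫)) (γ d) :=
      (integrable_const _).add hj
    rw [integral_add hk (γ_sq_integrable.const_mul h), integral_add (integrable_const _) hj,
      integral_const_mul, integral_const_mul, γ_inner_zero, integral_const, probReal_univ, one_smul,
      integral_const_mul, γ_norm_sq]
    ring
  have hi : ∀ {v : E d → ℝ}, Measurable v → (∀ y, |v y| ≤ 1) →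
      Integrable (fun w => v (x + √h • w)) (γ d) := fun hv hv1 =>
    (integrable_const (1 : ℝ)).mono' (hv.comp (by fun_prop)).aestronglyMeasurable
      (ae_of_all _ fun w => by rw [norm_eq_abs]; exact hv1 _)
  have hRm : Measurable (R (seed d n) (Phi h β g n) U) := hRl.smooth.continuous.measurable
  simp only [G, Q]
  rw [← integral_sub (hi hA.1 hA.2) (hi hRm hRl.bdd)]
  refine abs_integral_le_integral_abs.trans
    ((integral_mono ((hi hA.1 hA.2).sub (hi hRm hRl.bdd)).abs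
      ((integrable_const _).add (hsq.const_mul _)) fun w => hpt _).trans (le_of_eq ?_))
  simp only [Pi.add_apply]
  rw [integral_add (integrable_const _) (hsq.const_mul _), integral_const, probReal_univ, one_smul,
    integral_const_mul, hsqv]
  field_simp; ring

end

end Vale.Agent.P347.Quarter
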