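import Vale.Agent.P347.Quarter.Drift

/-!
# P347, exponent 1/4: the multilevel estimator of the second order drift
-/

namespace Vale.Agent.P347.Quarter

open MeasureTheory ProbabilityTheory Real WithLp Finset
open scoped RealInnerProductSpace

noncomputable section

variable {d n L : ℕ} {β : ℝ} {f : E d → E d} {K M : ℝ}

/-- The block length at level `l`. -/
def blk (n l : ℕ) : ℕ := (n + 2 ^ l - 1) / 2 ^ l

/-- The representative of `j` at level `l`. -/
def rep (n l j : ℕ) : ℕ := j / blk n l * blk n l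

theorem rep_le (n l j : ℕ) : rep n l j ≤ j := Nat.div_mul_le_self _ _

theorem blk_pos {n : ℕ} (hn : 1 ≤ n) (l : ℕ) : 1 ≤ blk n l :=
  (Nat.one_le_div_iff (by positivity)).2 (by omega)

theorem blk_eq_one {n l : ℕ} (hn : 1 ≤ n) (h : n ≤ 2 ^ l) : blk n l = 1 := by
  refine le_antisymm ?_ (blk_pos hn l)
  refine Nat.lt_succ_iff.1 ((Nat.div_lt_iff_lt_mul (by positivity)).2 ?_)
  omega

theorem rep_exact {n l : ℕ} (hn : 1 ≤ n) (h : n ≤ 2 ^ l) (j : ℕ) : rep n l j = j := by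
  simp [rep, blk_eq_one hn h]

theorem sub_rep_le {n l : ℕ} (hn : 1 ≤ n) (h : (2 : ℕ) ^ l ≤ 2 * n) (j : ℕ) :
    ((j - rep n l j : ℕ) : ℝ) ≤ 3 * n / 2 ^ l := by
  have h1 : j - rep n l j ≤ blk n l := by
    have := Nat.div_add_mod j (blk n l)
    have h2 := Nat.mod_lt j (blk_pos hn l)
    rw [rep, Nat.mul_comm]; omega
  have h3 : blk n l * 2 ^ l ≤ n + 2 ^ l := (Nat.div_mul_le_self _ _).trans (Nat.sub_le _ _)
  rw [le_div_iff₀ (by positivity)]
  calc ((j - rep n l j : ℕ) : ℝ) * 2 ^ l ≤ (blk n l : ℝ) * 2 ^ l :=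
        mul_le_mul_of_nonneg_right (by exact_mod_cast h1) (by positivity)
    _ ≤ 3 * n := by
        have : blk n l * 2 ^ l ≤ 3 * n := by omega
        exact_mod_cast this

/-- The first order drift with the field sampled at representatives only. -/
def lev (β : ℝ) (f : E d → E d) (n l : ℕ) (p : ℕ → E d) (i : ℕ) : E d :=
  acc β (fun j => f (p (rep n l j))) i

/-- The telescoping differences. -/
def delta (β : ℝ) (f : E d → E d) (n : ℕ) (p : ℕ → E d) (i : ℕ) : ℕ → E d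
  | 0 => f (p i - lev β f n 0 p i) - f (p i)
  | l + 1 => f (p i - lev β f n (l + 1) p i) - f (p i - lev β f n l p i)

theorem sum_delta (hn : 1 ≤ n) (hL : n ≤ 2 ^ L) (p : ℕ → E d) (i : ℕ) :
    ∑ l ∈ range (L + 1), delta β f n p i l = f (p i - D1 β f p i) - f (p i) := by
  have h : ∀ m, ∑ l ∈ range (m + 1), delta β f n p i l = f (p i - lev β f n m p i) - f (p i) := by
    intro m
    induction m with
    | zero => simp [delta]
    | succ m ih => rw [sum_range_succ, ih]; simp only [delta]; abel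
  rw [h L]
  simp [lev, D1, rep_exact hn hL]

/-- The level weights. -/
def lw (L l : ℕ) : ℝ := (2 : ℝ)⁻¹ ^ l / ∑ j ∈ range (L + 1), (2 : ℝ)⁻¹ ^ j

theorem lw_den_pos (L : ℕ) : 0 < ∑ j ∈ range (L + 1), (2 : ℝ)⁻¹ ^ j :=
  sum_pos (fun _ _ => by positivity) (nonempty_range_iff.2 (by omega))

theorem lw_pos (L l : ℕ) : 0 < lw L l := div_pos (by positivity) (lw_den_pos L)

theorem sum_lw (L : ℕ) : ∑ l ∈ range (L + 1), lw L l = 1 := by
  simp only [lw, ← sum_div]; exact div_self (lw_den_pos L).ne'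

theorem lw_den_le (L : ℕ) : ∑ j ∈ range (L + 1), (2 : ℝ)⁻¹ ^ j ≤ 2 := by
  have h : ∀ k, ∑ j ∈ range k, (2 : ℝ)⁻¹ ^ j = 2 - 2 * (2 : ℝ)⁻¹ ^ k := by
    intro k; induction k with
    | zero => simp
    | succ k ih => rw [sum_range_succ, ih, pow_succ]; ring
  rw [h]; linarith [show (0 : ℝ) ≤ 2⁻¹ ^ (L + 1) by positivity]

theorem lw_ge (L l : ℕ) : (2 : ℝ)⁻¹ ^ l / 2 ≤ lw L l := by
  exact div_le_div_of_nonneg_left (by positivity) (lw_den_pos L) (lw_den_le L)

theorem lw_le (L l : ℕ) : lw L l ≤ (2 : ℝ)⁻¹ ^ l := by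
  refine div_le_self (by positivity) ?_
  refine le_trans ?_ (single_le_sum (fun j _ => by positivity) (mem_range.2 (Nat.succ_pos L)))
  simp

/-- The total weight of the nodes. -/
def tw (β : ℝ) (n : ℕ) : ℝ := 1 - β ^ n

theorem tw_pos (h0 : 0 ≤ β) (h1 : β < 1) (hn : 1 ≤ n) : 0 < tw β n :=
  sub_pos.2 (pow_lt_one₀ h0 h1 (by omega))

/-- The probability of a node and a level. -/
def prob (β : ℝ) (n L : ℕ) (i : Fin n × Fin (L + 1)) : ℝ :=
  (1 - β) * β ^ (n - 1 - (i.1 : ℕ)) / tw β n * lw L i.2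

/-- The correction estimator. -/
def Zc (β : ℝ) (f : E d → E d) (n L : ℕ) (s : Seed d n) (i : Fin n × Fin (L + 1)) : E d :=
  (tw β n / lw L i.2) • delta β f n (qb β s) i.1 i.2

theorem prob_nonneg (h0 : 0 ≤ β) (h1 : β < 1) (i : Fin n × Fin (L + 1)) : 0 ≤ prob β n L i :=
  mul_nonneg (div_nonneg (weight_nonneg h0 h1.le n i.1)
    (sub_nonneg.2 (pow_le_one₀ h0 h1.le))) (lw_pos L i.2).le

theorem sum_prob (h0 : 0 ≤ β) (h1 : β < 1) (hn : 1 ≤ n) : ∑ i, prob β n L i = 1 := by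
  simp only [prob, Fintype.sum_prod_type, ← mul_sum, Fin.sum_univ_eq_sum_range (lw L), sum_lw,
    mul_one]
  rw [Fin.sum_univ_eq_sum_range (fun i => (1 - β) * β ^ (n - 1 - i) / tw β n) n, ← sum_div,
    sum_weights]
  exact div_self (tw_pos h0 h1 hn).ne'

theorem sum_prob_Zc (h0 : 0 ≤ β) (h1 : β < 1) (hn : 1 ≤ n) (hL : n ≤ 2 ^ L) (s : Seed d n) :
    ∑ i, prob β n L i • Zc β f n L s i
      = D2 β f (qb β s) n - D1 β f (qb β s) n := by
  have hW := (tw_pos h0 h1 hn).ne'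
  have e : ∀ (i : Fin n) (l : Fin (L + 1)), prob β n L (i, l) • Zc β f n L s (i, l)
      = ((1 - β) * β ^ (n - 1 - (i : ℕ))) • delta β f n (qb β s) i l := fun i l => by
    simp only [prob, Zc, smul_smul]
    congr 1
    have := (lw_pos L l).ne'
    field_simp
  rw [Fintype.sum_prod_type, D2, D1, acc_sub, acc, ← Fin.sum_univ_eq_sum_range
    (fun j => ((1 - β) * β ^ (n - 1 - j)) • (f (qb β s j - D1 β f (qb β s) j) - f (qb β s j))) n]
  refine sum_congr rfl fun i _ => ?_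
  simp only [e, ← smul_sum]
  rw [Fin.sum_univ_eq_sum_range (fun l => delta β f n (qb β s) i l), sum_delta hn hL]

theorem memLp_delta {α : Type*} [MeasurableSpace α] {μ : Measure α} [IsFiniteMeasure μ]
    (hf : Fld f K M) {p : α → ℕ → E d} {i : ℕ} (hp : ∀ j ≤ i, MemLp (fun a => p a j) 2 μ) :
    ∀ l, MemLp (fun a => delta β f n (p a) i l) 2 μ
  | 0 => by
    have h : MemLp (fun a => lev β f n 0 (p a) i) 2 μ := memLp_acc fun j hj =>
      memLp_comp_lip hf.cont hf.lip (hp _ ((rep_le _ _ _).trans hj.le))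
    exact (memLp_comp_lip hf.cont hf.lip ((hp i le_rfl).sub h)).sub
      (memLp_comp_lip hf.cont hf.lip (hp i le_rfl))
  | l + 1 => by
    have h : ∀ l, MemLp (fun a => lev β f n l (p a) i) 2 μ := fun l => memLp_acc fun j hj =>
      memLp_comp_lip hf.cont hf.lip (hp _ ((rep_le _ _ _).trans hj.le))
    exact (memLp_comp_lip hf.cont hf.lip ((hp i le_rfl).sub (h (l + 1)))).sub
      (memLp_comp_lip hf.cont hf.lip ((hp i le_rfl).sub (h l)))

theorem memLp_qb (hβ : |β| ≤ 1) (j : ℕ) : MemLp (fun s : Seed d n => qb β s j) 2 (seed d n) :=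
  memLp_ou hβ (Nat.sub_le n j)

/-- Second moments of the differences, with a bound on the mean square step. -/
theorem delta_sq (hf : Fld f K M) (h0 : 0 ≤ β) (h1 : β ≤ 1) (hn : 1 ≤ n) (hL : 2 ^ L ≤ 2 * n)
    {i : ℕ} (hi : i ≤ n) : ∀ l ≤ L, ∫ s, ‖delta β f n (qb β s) i l‖ ^ 2 ∂seed d n
      ≤ (2 : ℝ)⁻¹ ^ l * (2 * K ^ 2 * M ^ 2 + 72 * K ^ 4 * (d * (n * (1 - β)))) := by
  have hb : |β| ≤ 1 := by rwa [abs_of_nonneg h0]
  have hK := hf.K0
  have hT : 0 ≤ (d : ℝ) * (n * (1 - β)) := by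
    have := sub_nonneg.2 h1; positivity
  set μ := seed d n
  have hq : ∀ j, MemLp (fun s => qb β s j) 2 μ := memLp_qb hb
  have hfq : ∀ j, MemLp (fun s => f (qb β s j)) 2 μ := fun j =>
    memLp_comp_lip hf.cont hf.lip (hq j)
  have hlev : ∀ l, MemLp (fun s => lev β f n l (qb β s) i) 2 μ := fun l =>
    memLp_acc fun j _ => hfq _
  have hD1 : MemLp (fun s => D1 β f (qb β s) i) 2 μ := memLp_acc fun j _ => hfq _
  have sq : ∀ {X : Seed d n → E d}, MemLp X 2 μ → Integrable (fun s => ‖X s‖ ^ 2) μ :=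
    fun hX => hX.integrable_norm_pow two_ne_zero
  -- a weighted sum of squares
  have key : ∀ (v : ℕ → Seed d n → E d) (B : ℝ), 0 ≤ B → (∀ j, MemLp (v j) 2 μ) →
      (∀ j < i, ∫ s, ‖v j s‖ ^ 2 ∂μ ≤ B) →
      ∫ s, ‖acc β (fun j => v j s) i‖ ^ 2 ∂μ ≤ B := by
    intro v B hB hv hvB
    refine (integral_mono (sq (memLp_acc fun j _ => hv j))
      (integrable_finsetSum _ fun j _ => (sq (hv j)).const_mul _)
      fun s => sq_acc_le h0 h1 _ i).trans ?_
    rw [integral_finsetSum _ fun j _ => (sq (hv j)).const_mul _]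
    simp only [integral_const_mul]
    refine (sum_le_sum fun j hj => mul_le_mul_of_nonneg_left (hvB j (mem_range.1 hj))
      (weight_nonneg h0 h1 i j)).trans ?_
    rw [← sum_mul]; exact mul_le_of_le_one_left hB (weight_sum_le h0 i)
  have happ : ∀ l ≤ L, ∫ s, ‖lev β f n l (qb β s) i - D1 β f (qb β s) i‖ ^ 2 ∂μ
      ≤ K ^ 2 * (6 * (d * (n * (1 - β)))) * (2 : ℝ)⁻¹ ^ l := by
    intro l hl
    simp only [lev, D1, acc_sub]
    refine key (fun j s => f (qb β s (rep n l j)) - f (qb β s j)) _ (by positivity)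
      (fun j => (hfq _).sub (hfq j)) fun j hj => ?_
    refine (integral_mono (sq ((hfq _).sub (hfq j))) ((sq ((hq (rep n l j)).sub (hq j))).const_mul (K ^ 2))
      fun s => ?_).trans ?_
    · rw [← mul_pow]; exact pow_le_pow_left₀ (norm_nonneg _) (hf.lip _ _) 2
    rw [integral_const_mul, mul_assoc]
    refine mul_le_mul_of_nonneg_left ?_ (sq_nonneg K)
    have hjn : j ≤ n := by omega
    have hr := rep_le n l j
    have h := integral_ou_sub_sq (d := d) h0 h1 (n := n) (j := n - j) (m := j - rep n l j) (by omega)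
    rw [show n - j + (j - rep n l j) = n - rep n l j by omega] at h
    refine h.trans ?_
    have h2 := sub_rep_le hn ((Nat.pow_le_pow_right (by norm_num) hl).trans hL) j
    refine (mul_le_mul_of_nonneg_right (mul_le_mul_of_nonneg_left h2 (by positivity))
      (sub_nonneg.2 h1)).trans (le_of_eq ?_)
    rw [inv_pow]; field_simp; ring
  intro l hl
  rcases l with - | l
  · simp only [pow_zero, one_mul, delta]
    refine (integral_mono (sq ((memLp_comp_lip hf.cont hf.lip ((hq i).sub (hlev 0))).sub (hfq i)))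
      ((sq (hlev 0)).const_mul (K ^ 2)) fun s => ?_).trans ?_
    · rw [← mul_pow]
      refine pow_le_pow_left₀ (norm_nonneg _) ((hf.lip _ _).trans (le_of_eq ?_)) 2
      simp only [Pi.sub_apply]
      rw [sub_sub_cancel_left, norm_neg]
    rw [integral_const_mul]
    have h : ∫ s, ‖lev β f n 0 (qb β s) i‖ ^ 2 ∂μ ≤ M ^ 2 :=
      key (fun j s => f (qb β s (rep n 0 j))) _ (sq_nonneg M) (fun j => hfq _) fun j _ =>
        hf.size_ou hb (Nat.sub_le _ _)
    nlinarith [mul_le_mul_of_nonneg_left h (sq_nonneg K),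
      mul_nonneg (show (0 : ℝ) ≤ K ^ 4 by positivity) hT, mul_nonneg (sq_nonneg K) (sq_nonneg M)]
  · simp only [delta]
    have ha := happ (l + 1) hl
    have hb' := happ l (by omega)
    have hm : ∀ l, Integrable (fun s => ‖lev β f n l (qb β s) i - D1 β f (qb β s) i‖ ^ 2) μ :=
      fun l => sq ((hlev l).sub hD1)
    refine (integral_mono (sq ((memLp_comp_lip hf.cont hf.lip ((hq i).sub (hlev (l + 1)))).sub
      (memLp_comp_lip hf.cont hf.lip ((hq i).sub (hlev l)))))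
      (((hm (l + 1)).add (hm l)).const_mul (2 * K ^ 2)) fun s => ?_).trans ?_
    · simp only [Pi.add_apply, Pi.sub_apply]
      refine (pow_le_pow_left₀ (norm_nonneg _) (hf.lip _ _) 2).trans ?_
      rw [sub_sub_sub_cancel_left, mul_pow,
        show lev β f n l (qb β s) i - lev β f n (l + 1) (qb β s) i
          = (lev β f n l (qb β s) i - D1 β f (qb β s) i)
            - (lev β f n (l + 1) (qb β s) i - D1 β f (qb β s) i) by abel]
      refine (mul_le_mul_of_nonneg_left (pow_le_pow_left₀ (norm_nonneg _) (norm_sub_le _ _) 2)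
        (sq_nonneg K)).trans ?_
      nlinarith [mul_nonneg (sq_nonneg K) (sq_nonneg (‖lev β f n l (qb β s) i - D1 β f (qb β s) i‖
        - ‖lev β f n (l + 1) (qb β s) i - D1 β f (qb β s) i‖))]
    rw [integral_const_mul]
    simp only [Pi.add_apply]
    rw [integral_add (hm (l + 1)) (hm l)]
    rw [pow_succ (2 : ℝ)⁻¹ l] at ha ⊢
    nlinarith [mul_le_mul_of_nonneg_left (add_le_add ha hb') (show 0 ≤ 2 * K ^ 2 by positivity),
      mul_nonneg (mul_nonneg (show (0 : ℝ) ≤ 2⁻¹ ^ l by positivity) (sq_nonneg K)) (sq_nonneg M),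
      mul_nonneg (mul_nonneg (show (0 : ℝ) ≤ 2⁻¹ ^ l by positivity)
        (show (0 : ℝ) ≤ K ^ 4 by positivity)) hT]

theorem sum_prob_sq (hf : Fld f K M) (h0 : 0 ≤ β) (h1 : β < 1) (hn : 1 ≤ n)
    (hL : 2 ^ L ≤ 2 * n) :
    ∑ i, prob β n L i * ∫ s, ‖Zc β f n L s i‖ ^ 2 ∂seed d n
      ≤ 2 * (L + 1) * (2 * K ^ 2 * M ^ 2 + 72 * K ^ 4 * (d * (n * (1 - β)))) := by
  set S := 2 * K ^ 2 * M ^ 2 + 72 * K ^ 4 * (d * (n * (1 - β)))
  have hS : 0 ≤ S := by
    have := sub_nonneg.2 h1.le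
    positivity
  have hW : 0 ≤ tw β n := (tw_pos h0 h1 hn).le
  have hW1 : tw β n ≤ 1 := by unfold tw; linarith [pow_nonneg h0 n]
  calc ∑ i, prob β n L i * ∫ s, ‖Zc β f n L s i‖ ^ 2 ∂seed d n
      ≤ ∑ i : Fin n × Fin (L + 1), (1 - β) * β ^ (n - 1 - (i.1 : ℕ)) * (2 * S) := by
        refine sum_le_sum fun i _ => ?_
        have hl := lw_pos L i.2
        have h := delta_sq (n := n) hf h0 h1.le hn hL (i := i.1) i.1.isLt.le i.2
          (Nat.lt_succ_iff.1 i.2.isLt)
        simp only [Zc, norm_smul, mul_pow, norm_eq_abs, sq_abs, integral_const_mul]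
        refine (mul_le_mul_of_nonneg_left (mul_le_mul_of_nonneg_left h (sq_nonneg _))
          (prob_nonneg h0 h1 i)).trans ?_
        have e : prob β n L i * ((tw β n / lw L i.2) ^ 2 * ((2 : ℝ)⁻¹ ^ (i.2 : ℕ) * S))
            = (1 - β) * β ^ (n - 1 - (i.1 : ℕ)) * (tw β n * ((2 : ℝ)⁻¹ ^ (i.2 : ℕ) / lw L i.2) * S) := by
          have := (tw_pos h0 h1 hn).ne'
          simp only [prob]; field_simp
        rw [e]
        refine mul_le_mul_of_nonneg_left (mul_le_mul_of_nonneg_right ?_ hS)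
          (weight_nonneg h0 h1.le n i.1)
        have hr : (2 : ℝ)⁻¹ ^ (i.2 : ℕ) / lw L i.2 ≤ 2 := by
          rw [div_le_iff₀ hl]; linarith [lw_ge L i.2]
        nlinarith [mul_le_mul_of_nonneg_left hr hW]
    _ ≤ _ := by
        rw [Fintype.sum_prod_type]
        simp only [sum_const, card_univ, Fintype.card_fin, nsmul_eq_mul]
        rw [← mul_sum, ← sum_mul, Fin.sum_univ_eq_sum_range (fun i => (1 - β) * β ^ (n - 1 - i)) n]
        push_cast
        nlinarith [mul_le_mul_of_nonneg_right (weight_sum_le (β := β) h0 n)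
          (show 0 ≤ ((L : ℝ) + 1) * (2 * S) by positivity)]

end

end Vale.Agent.P347.Quarter
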