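import Mathlib

/-!
# P347, exponent 1/4: the objects of the analysis
-/

namespace Vale.Agent.P347.Quarter

open MeasureTheory ProbabilityTheory Real
open scoped RealInnerProductSpace

noncomputable section

/-- Euclidean space. -/
abbrev E (d : ℕ) := EuclideanSpace ℝ (Fin d)

/-- The standard Gaussian law. -/
def γ (d : ℕ) : Measure (E d) := stdGaussian (E d)

instance (d : ℕ) : IsProbabilityMeasure (γ d) := by unfold γ; infer_instance

variable {d : ℕ}

/-- Squared Hilbert–Schmidt norm. -/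
def hs (A : E d →L[ℝ] E d) : ℝ := ∑ i, ‖A (EuclideanSpace.single i 1)‖ ^ 2

/-- The gradient map of a potential with Hessian between `1` and `2`, critical at `0`. -/
structure Pot (g : E d → E d) : Prop where
  smooth : ContDiff ℝ 1 g
  zero : g 0 = 0
  symm : ∀ x u v, ⟪fderiv ℝ g x u, v⟫ = ⟪u, fderiv ℝ g x v⟫
  lower : ∀ x v, ‖v‖ ^ 2 ≤ ⟪fderiv ℝ g x v, v⟫
  upper : ∀ x v, ⟪fderiv ℝ g x v, v⟫ ≤ 2 * ‖v‖ ^ 2

/-- Gaussian smoothing with variance `b`. -/
def G {F : Type*} [NormedAddCommGroup F] [NormedSpace ℝ F] (b : ℝ) (v : E d → F) (x : E d) : F :=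
  ∫ w, v (x + √b • w) ∂γ d

/-- A test function bounded by one, with Lipschitz constant `L`. -/
structure Lip1 (u : E d → ℝ) (L : ℝ) : Prop where
  bdd : ∀ x, |u x| ≤ 1
  smooth : ContDiff ℝ 1 u
  lip : ∀ x, ‖fderiv ℝ u x‖ ≤ L

/-- A test function with gradient `du`, gradient bound `L₁` and Hilbert–Schmidt Hessian bound `L₂`. -/
structure Test (u : E d → ℝ) (du : E d → E d) (L₁ L₂ : ℝ) : Prop where
  bdd : ∀ x, |u x| ≤ 1
  grad : ∀ x, HasGradientAt u (du x) x
  smooth : ContDiff ℝ 1 du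
  le₁ : ∀ x, ‖du x‖ ≤ L₁
  le₂ : ∀ x, hs (fderiv ℝ du x) ≤ L₂ ^ 2

/-- A random differentiable map, `c`-Lipschitz and with derivative `e`-close to the identity. -/
structure Flow {Ω : Type} [MeasurableSpace Ω] (c e : ℝ) (μ : Measure Ω) (Φ : E d → Ω → E d) :
    Prop where
  prob : IsProbabilityMeasure μ
  meas : Measurable fun p : E d × Ω => Φ p.1 p.2
  smooth : ∀ ω, ContDiff ℝ 1 fun z => Φ z ω
  lip : ∀ ω z, ‖fderiv ℝ (fun z => Φ z ω) z‖ ≤ c
  near : ∀ ω z, ‖fderiv ℝ (fun z => Φ z ω) z - ContinuousLinearMap.id ℝ (E d)‖ ≤ e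

/-- Averaging over a random map. -/
def R {Ω : Type} [MeasurableSpace Ω] (μ : Measure Ω) (Φ : E d → Ω → E d) (u : E d → ℝ)
    (z : E d) : ℝ := ∫ ω, u (Φ z ω) ∂μ

/-- A random map followed, as operators, by smoothing: one round of the outer chain. -/
def Q {Ω : Type} [MeasurableSpace Ω] (b : ℝ) (μ : Measure Ω) (Φ : E d → Ω → E d)
    (u : E d → ℝ) : E d → ℝ := G b (R μ Φ u)

/-- The Gaussian autoregression operator. -/
def P {F : Type*} [NormedAddCommGroup F] [NormedSpace ℝ F] (β : ℝ) (v : E d → F) (x : E d) : F :=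
  ∫ w, v (β • x + √(1 - β ^ 2) • w) ∂γ d

/-- Seeds of the fine chain: a start and `n` increments. -/
abbrev Seed (d n : ℕ) := E d × (Fin n → E d)

/-- The law of the seeds. -/
def seed (d n : ℕ) : Measure (Seed d n) := (γ d).prod (Measure.pi fun _ : Fin n => γ d)

/-- The increments, continued by zero. -/
def pad {n : ℕ} (w : Fin n → E d) (k : ℕ) : E d := if hk : k < n then w ⟨k, hk⟩ else 0

/-- The stationary Gaussian autoregression path. -/
def ou {n : ℕ} (β : ℝ) (s : Seed d n) : ℕ → E d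
  | 0 => s.1
  | k + 1 => β • ou β s k + √(1 - β ^ 2) • pad s.2 k

/-- The Euler chain for the proximal target at `z`, started near its mode. -/
def chain {n : ℕ} (h β : ℝ) (g : E d → E d) (z : E d) (s : Seed d n) : ℕ → E d
  | 0 => z - h • g z + √h • s.1
  | k + 1 => β • chain h β g z s k + (1 - β) • (z - h • g (chain h β g z s k)) +
      (√h * √(1 - β ^ 2)) • pad s.2 k

/-- The end of the Euler chain. -/
def Phi (h β : ℝ) (g : E d → E d) (n : ℕ) (z : E d) (s : Seed d n) : E d := chain h β g z s n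

/-- The last, Gaussian, step. -/
def Nlast (η : ℝ) (g : E d → E d) (f : E d → ℝ) (z : E d) : ℝ :=
  ∫ w, f (z - η • g z + √η • w) ∂γ d

end

end Vale.Agent.P347.Quarter
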