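import Vale.Agent.P347.Quarter.Field

/-!
# P347, exponent 1/4: the drifts as functions of the increments
-/

namespace Vale.Agent.P347.Quarter

open MeasureTheory ProbabilityTheory Real WithLp Finset
open scoped RealInnerProductSpace ENNReal

noncomputable section

variable {d n : ℕ} {β : ℝ} {f : E d → E d} {K M : ℝ}

/-- The increments as one Euclidean vector. -/
abbrev Noise (d n : ℕ) := PiLp 2 fun _ : Fin n => E d

theorem map_noise :
    (Measure.pi fun _ : Fin n => γ d).map (toLp 2) = stdGaussian (Noise d n) := by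
  have : IsProbabilityMeasure ((Measure.pi fun _ : Fin n => γ d).map
      (toLp 2 : (Fin n → E d) → Noise d n)) :=
    Measure.isProbabilityMeasure_map (by fun_prop)
  refine Measure.ext_of_charFun (funext fun t => ?_)
  rw [charFun_pi, charFun_stdGaussian]
  simp only [γ, charFun_stdGaussian, ← Complex.exp_sum]
  rw [← Finset.sum_div, Finset.sum_neg_distrib]
  congr 2
  have h := congrArg (fun r : ℝ => (r : ℂ)) (PiLp.norm_sq_eq_of_L2 (fun _ : Fin n => E d) t)
  push_cast at h
  rw [h]

theorem integral_noise {G : Type*} [NormedAddCommGroup G] [NormedSpace ℝ G]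
    {v : Noise d n → G} (hv : Continuous v) :
    ∫ w, v (toLp 2 w) ∂(Measure.pi fun _ : Fin n => γ d) = ∫ x, v x ∂stdGaussian (Noise d n) := by
  rw [← map_noise, integral_map (by fun_prop) hv.aestronglyMeasurable]

/-- The reversed path. -/
def qb (β : ℝ) (s : Seed d n) (j : ℕ) : E d := ou β s (n - j)

theorem contDiff_pad (k : ℕ) : ContDiff ℝ 1 fun x : Noise d n => pad (ofLp x) k := by
  unfold pad
  split_ifs with h
  · exact contDiff_piLp_apply (p := 2)
  · exact contDiff_const

theorem contDiff_ou (x₀ : E d) : ∀ k,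
    ContDiff ℝ 1 fun x : Noise d n => ou β ((x₀, ofLp x) : Seed d n) k
  | 0 => contDiff_const
  | k + 1 => by
    simp only [ou]
    exact ((contDiff_ou x₀ k).const_smul β).add
      ((contDiff_pad k).const_smul (√(1 - β ^ 2)))

theorem norm_ou_sub (hβ : |β| ≤ 1) (x₀ : E d) (x y : Noise d n) (k : ℕ) :
    ‖ou β ((x₀, ofLp x) : Seed d n) k - ou β ((x₀, ofLp y) : Seed d n) k‖ ≤ ‖x - y‖ := by
  have hs := sqrt_sq_aux hβ
  set s := √(1 - β ^ 2)
  have key : ∀ k, ‖ou β ((x₀, ofLp x) : Seed d n) k - ou β ((x₀, ofLp y) : Seed d n) k‖ ^ 2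
      ≤ ∑ j ∈ range k, ‖pad (ofLp x) j - pad (ofLp y) j‖ ^ 2 := by
    intro k
    induction k with
    | zero => simp [ou]
    | succ k ih =>
      rw [sum_range_succ]
      set a := ou β ((x₀, ofLp x) : Seed d n) k - ou β ((x₀, ofLp y) : Seed d n) k
      set b := pad (ofLp x) k - pad (ofLp y) k
      have e : ou β ((x₀, ofLp x) : Seed d n) (k + 1) - ou β ((x₀, ofLp y) : Seed d n) (k + 1)
          = β • a + s • b := by simp only [ou, a, b, s]; module
      rw [e]
      have h1 : ‖β • a + s • b‖ ^ 2 ≤ ‖a‖ ^ 2 + ‖b‖ ^ 2 := by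
        have e2 : ‖β • a + s • b‖ ^ 2 + ‖s • a - β • b‖ ^ 2 = ‖a‖ ^ 2 + ‖b‖ ^ 2 := by
          rw [norm_add_sq_real, norm_sub_sq_real]
          simp only [norm_smul, mul_pow, norm_eq_abs, sq_abs, inner_smul_left, inner_smul_right,
            RCLike.conj_to_real, hs]
          ring
        linarith [sq_nonneg ‖s • a - β • b‖]
      linarith
  refine (abs_le_of_sq_le_sq' ((key k).trans ?_) (norm_nonneg _)).2
  rw [PiLp.norm_sq_eq_of_L2]
  refine le_trans ?_ (le_of_eq (Finset.sum_range (fun j => ‖pad (ofLp x) j - pad (ofLp y) j‖ ^ 2)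
    |>.trans (Finset.sum_congr rfl fun i _ => by simp [pad])))
  rcases le_total k n with h | h
  · exact sum_le_sum_of_subset_of_nonneg (range_subset_range.2 h) fun _ _ _ => sq_nonneg _
  · refine le_of_eq (sum_subset (range_subset_range.2 h) fun j _ hj => ?_).symm
    simp [pad, show ¬j < n from fun h => hj (mem_range.2 h)]

theorem contDiff_acc {v : ℕ → Noise d n → E d} {k : ℕ} (hv : ∀ j < k, ContDiff ℝ 1 (v j)) :
    ContDiff ℝ 1 fun x => acc β (fun j => v j x) k :=
  ContDiff.sum fun j hj => (hv j (mem_range.1 hj)).const_smul ((1 - β) * β ^ (k - 1 - j))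

theorem contDiff_D2qb (hf : Fld f K M) (x₀ : E d) (k : ℕ) :
    ContDiff ℝ 1 fun x : Noise d n => D2 β f (qb β ((x₀, ofLp x) : Seed d n)) k :=
  contDiff_acc fun j _ => hf.smooth.comp ((contDiff_ou x₀ _).sub
    (contDiff_acc fun i _ => hf.smooth.comp (contDiff_ou x₀ _)))

theorem norm_D2qb_sub (hf : Fld f K M) (h0 : 0 ≤ β) (h1 : β ≤ 1) (x₀ : E d) (x y : Noise d n)
    (k : ℕ) : ‖D2 β f (qb β ((x₀, ofLp x) : Seed d n)) k
      - D2 β f (qb β ((x₀, ofLp y) : Seed d n)) k‖ ≤ 2 * K * ‖x - y‖ := by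
  have hb : |β| ≤ 1 := by rwa [abs_of_nonneg h0]
  have hK := hf.K0
  rw [D2, D2, acc_sub]
  refine norm_acc_le_const h0 h1 _ k (by positivity) fun j _ => (hf.lip _ _).trans ?_
  have hD : ‖D1 β f (qb β ((x₀, ofLp x) : Seed d n)) j - D1 β f (qb β ((x₀, ofLp y) : Seed d n)) j‖
      ≤ K * ‖x - y‖ := by
    rw [D1, D1, acc_sub]
    exact norm_acc_le_const h0 h1 _ j (by positivity) fun i _ =>
      (hf.lip _ _).trans (mul_le_mul_of_nonneg_left (norm_ou_sub hb x₀ x y _) hK)
  refine (mul_le_mul_of_nonneg_left ?_ hK).trans (le_of_eq (show K * (2 * ‖x - y‖) = _ by ring))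
  have hq := norm_ou_sub (β := β) hb x₀ x y (n - j)
  rw [sub_sub_sub_comm]
  refine (norm_sub_le _ _).trans ?_
  simp only [qb] at hD ⊢
  have hx := norm_nonneg (x - y)
  nlinarith [hf.K_half, mul_le_mul_of_nonneg_right hf.K_half (norm_nonneg (x - y))]

theorem fderiv_le_of_lip {F : Type*} [NormedAddCommGroup F] [NormedSpace ℝ F] {δ : F → E d} {C : ℝ}
    (hC : 0 ≤ C) (h : ∀ x y, ‖δ x - δ y‖ ≤ C * ‖x - y‖) (x : F) : ‖fderiv ℝ δ x‖ ≤ C :=
  norm_fderiv_le_of_lipschitz ℝ (C := ⟨C, hC⟩) (LipschitzWith.of_dist_le_mul fun a b => by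
    rw [dist_eq_norm, dist_eq_norm]; exact h a b)

/-- Averaging along the path is iterating the autoregression operator. -/
theorem integral_ou_from (hβ : |β| ≤ 1) (hc : Continuous f)
    (hl : ∀ x y, ‖f x - f y‖ ≤ K * ‖x - y‖) :
    ∀ (k n : ℕ), k ≤ n → ∀ x : E d,
      ∫ w, f (ou β ((x, w) : Seed d n) k) ∂(Measure.pi fun _ => γ d) = ((P β)^[k] f) x
  | 0, n, _, x => by simp [ou]
  | k + 1, 0, hk, x => absurd hk (by omega)
  | k + 1, n + 1, hk, x => by
    have hi : Integrable (fun w => f (ou β ((x, w) : Seed d (n + 1)) (k + 1)))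
        (Measure.pi fun _ => γ d) :=
      (memLp_comp_lip hc hl (memLp_ou_from hβ x hk)).integrable one_le_two
    set g := fun p : E d × (Fin n → E d) =>
      f (ou β (((β • x + √(1 - β ^ 2) • p.1), p.2) : Seed d n) k)
    have e : (fun w => f (ou β ((x, w) : Seed d (n + 1)) (k + 1)))
        = fun w => g (w 0, fun j => w j.succ) := by
      funext w; rw [ou_head]; rfl
    have hg : AEStronglyMeasurable g ((γ d).prod (Measure.pi fun _ => γ d)) :=
      (hc.measurable.comp ((measurable_ou β k).comp (by fun_prop))).aestronglyMeasurable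
    have hp := measurePreserving_cons (d := d) (n := n)
    have hig : Integrable g ((γ d).prod (Measure.pi fun _ => γ d)) := by
      rw [e] at hi; exact (hp.integrable_comp hg).1 hi
    rw [e, ← integral_map (f := g) hp.measurable.aemeasurable (by rw [hp.map_eq]; exact hg),
      hp.map_eq, integral_prod _ hig, Function.iterate_succ_apply']
    refine integral_congr_ae (ae_of_all _ fun w => ?_)
    exact integral_ou_from hβ hc hl k n (by omega) (β • x + √(1 - β ^ 2) • w)

/-- Moving between a fibrewise and a joint integral. -/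
theorem integral_seed_fibre {G : Type*} [NormedAddCommGroup G] [NormedSpace ℝ G] {v : Seed d n → G}
    (hv : Integrable v (seed d n)) :
    ∫ s, v s ∂seed d n = ∫ x, ∫ w, v (x, w) ∂(Measure.pi fun _ => γ d) ∂γ d :=
  integral_prod _ hv

end

end Vale.Agent.P347.Quarter
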