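import Vale.Agent.P347.Quarter.Moments

/-!
# P347, exponent 1/4: Lipschitz fields along the path, and the discounted sums
-/

namespace Vale.Agent.P347.Quarter

open MeasureTheory ProbabilityTheory Real WithLp Finset
open scoped RealInnerProductSpace ENNReal

noncomputable section

variable {d n : ℕ} {β : ℝ}

/-- A `K`-Lipschitz field of size `M` in mean square. -/
structure Fld (f : E d → E d) (K M : ℝ) : Prop where
  smooth : ContDiff ℝ 1 f
  K0 : 0 ≤ K
  K_half : K ≤ 1 / 2
  lip : ∀ x y, ‖f x - f y‖ ≤ K * ‖x - y‖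
  M0 : 0 ≤ M
  size : ∫ x, ‖f x‖ ^ 2 ∂γ d ≤ M ^ 2

variable {f : E d → E d} {K M : ℝ}

theorem Fld.cont (hf : Fld f K M) : Continuous f := hf.smooth.continuous

/-- The discounted sum. -/
def acc (β : ℝ) (v : ℕ → E d) (k : ℕ) : E d := ∑ j ∈ range k, ((1 - β) * β ^ (k - 1 - j)) • v j

theorem acc_succ (v : ℕ → E d) (k : ℕ) : acc β v (k + 1) = β • acc β v k + (1 - β) • v k := by
  rw [acc, sum_range_succ, Nat.add_sub_cancel, Nat.sub_self, pow_zero, mul_one, acc, smul_sum]
  congr 1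
  refine sum_congr rfl fun j hj => ?_
  rw [smul_smul, show k - j = k - 1 - j + 1 by have := mem_range.1 hj; omega, pow_succ]
  congr 1; ring

theorem sum_weights (β : ℝ) : ∀ k : ℕ, ∑ j ∈ range k, (1 - β) * β ^ (k - 1 - j) = 1 - β ^ k
  | 0 => by simp
  | k + 1 => by
    rw [sum_range_succ, Nat.add_sub_cancel, Nat.sub_self, pow_zero, mul_one]
    have : ∑ x ∈ range k, (1 - β) * β ^ (k - x) = β * ∑ x ∈ range k, (1 - β) * β ^ (k - 1 - x) := by
      rw [mul_sum]
      refine sum_congr rfl fun j hj => ?_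
      rw [show k - j = k - 1 - j + 1 by have := mem_range.1 hj; omega, pow_succ]; ring
    rw [this, sum_weights β k]; ring

theorem weight_nonneg (h0 : 0 ≤ β) (h1 : β ≤ 1) (k j : ℕ) : 0 ≤ (1 - β) * β ^ (k - 1 - j) :=
  mul_nonneg (sub_nonneg.2 h1) (pow_nonneg h0 _)

theorem weight_sum_le (h0 : 0 ≤ β) (k : ℕ) :
    ∑ j ∈ range k, (1 - β) * β ^ (k - 1 - j) ≤ 1 := by
  rw [sum_weights]; linarith [pow_nonneg h0 k]

theorem norm_acc_le (h0 : 0 ≤ β) (h1 : β ≤ 1) (v : ℕ → E d) (k : ℕ) :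
    ‖acc β v k‖ ≤ ∑ j ∈ range k, (1 - β) * β ^ (k - 1 - j) * ‖v j‖ := by
  refine (norm_sum_le _ _).trans_eq (sum_congr rfl fun j _ => ?_)
  rw [norm_smul, norm_eq_abs, abs_of_nonneg (weight_nonneg h0 h1 k j)]

theorem norm_acc_le_const (h0 : 0 ≤ β) (h1 : β ≤ 1) (v : ℕ → E d) (k : ℕ) {B : ℝ} (hB0 : 0 ≤ B)
    (hB : ∀ j < k, ‖v j‖ ≤ B) : ‖acc β v k‖ ≤ B := by
  refine (norm_acc_le h0 h1 v k).trans ((sum_le_sum fun j hj => mul_le_mul_of_nonneg_left
    (hB j (mem_range.1 hj)) (weight_nonneg h0 h1 k j)).trans ?_)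
  rw [← sum_mul]; exact mul_le_of_le_one_left hB0 (weight_sum_le h0 k)

theorem acc_sub (v v' : ℕ → E d) (k : ℕ) :
    acc β v k - acc β v' k = acc β (fun j => v j - v' j) k := by
  simp only [acc, smul_sub, sum_sub_distrib]

/-- Weighted Jensen inequality for squares. -/
theorem sq_acc_le (h0 : 0 ≤ β) (h1 : β ≤ 1) (v : ℕ → E d) (k : ℕ) :
    ‖acc β v k‖ ^ 2 ≤ ∑ j ∈ range k, (1 - β) * β ^ (k - 1 - j) * ‖v j‖ ^ 2 := by
  have hw := weight_nonneg h0 h1 k
  have hs := weight_sum_le (β := β) h0 k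
  refine (pow_le_pow_left₀ (norm_nonneg _) (norm_acc_le h0 h1 v k) 2).trans ?_
  have h := sum_mul_sq_le_sq_mul_sq (range k) (fun j => √((1 - β) * β ^ (k - 1 - j)))
    (fun j => √((1 - β) * β ^ (k - 1 - j)) * ‖v j‖)
  simp only [← mul_assoc, mul_self_sqrt (hw _), mul_pow, sq_sqrt (hw _)] at h
  exact h.trans (mul_le_of_le_one_left (sum_nonneg fun j _ => mul_nonneg (hw j) (sq_nonneg _)) hs)

theorem memLp_comp_lip {α : Type*} [MeasurableSpace α] {μ : Measure α} [IsFiniteMeasure μ]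
    (hc : Continuous f) (hl : ∀ x y, ‖f x - f y‖ ≤ K * ‖x - y‖)
    {X : α → E d} (hX : MemLp X 2 μ) : MemLp (fun a => f (X a)) 2 μ := by
  have hg : MemLp (fun a => (1 : ℝ) + ‖X a‖) 2 μ :=
    (memLp_const (μ := μ) (p := 2) (1 : ℝ)).add hX.norm
  refine hg.of_le_mul (c := ‖f 0‖ + |K|) (hc.comp_aestronglyMeasurable hX.1)
    (ae_of_all _ fun a => ?_)
  have h := hl (X a) 0
  rw [sub_zero] at h
  have h2 := norm_add_le (f (X a) - f 0) (f 0)
  rw [sub_add_cancel] at h2
  rw [norm_eq_abs, abs_of_nonneg (show 0 ≤ (1 : ℝ) + ‖X a‖ by positivity)]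
  nlinarith [norm_nonneg (X a), norm_nonneg (f 0), le_abs_self K, abs_nonneg K,
    mul_le_mul_of_nonneg_right (le_abs_self K) (norm_nonneg (X a))]

theorem memLp_acc {α : Type*} [MeasurableSpace α] {μ : Measure α} {v : ℕ → α → E d} {k : ℕ}
    (hv : ∀ j < k, MemLp (v j) 2 μ) : MemLp (fun a => acc β (fun j => v j a) k) 2 μ :=
  memLp_finsetSum _ fun j hj => (hv j (mem_range.1 hj)).const_smul ((1 - β) * β ^ (k - 1 - j))

theorem memLp_ou (hβ : |β| ≤ 1) {k : ℕ} (hk : k ≤ n) :
    MemLp (fun s : Seed d n => ou β s k) 2 (seed d n) := by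
  have hm : AEMeasurable (fun s : Seed d n => ou β s k) (seed d n) :=
    (measurable_ou β k).aemeasurable
  have h : MemLp (id : E d → E d) 2 ((seed d n).map fun s => ou β s k) := by
    rw [map_ou hβ n k hk]; exact IsGaussian.memLp_two_id
  exact (memLp_map_measure_iff (g := (id : E d → E d)) aestronglyMeasurable_id hm).1 h

theorem memLp_ou_from (hβ : |β| ≤ 1) (x : E d) {k : ℕ} (hk : k ≤ n) :
    MemLp (fun w => ou β ((x, w) : Seed d n) k) 2 (Measure.pi fun _ => γ d) := by
  have hm : AEMeasurable (fun w => ou β ((x, w) : Seed d n) k)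
      (Measure.pi fun _ : Fin n => γ d) :=
    ((measurable_ou β k).comp measurable_prodMk_left).aemeasurable
  have hl : Measurable fun w : E d => β ^ k • x + √(1 - (β ^ k) ^ 2) • w := by fun_prop
  have h : MemLp (id : E d → E d) 2
      ((Measure.pi fun _ : Fin n => γ d).map fun w => ou β ((x, w) : Seed d n) k) := by
    rw [map_ou_from hβ x n k hk]
    refine (memLp_map_measure_iff (g := (id : E d → E d)) aestronglyMeasurable_id
      hl.aemeasurable).2 ?_
    have h2 : MemLp (fun w : E d => √(1 - (β ^ k) ^ 2) • w) 2 (γ d) :=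
      (IsGaussian.memLp_two_id (μ := γ d)).const_smul (√(1 - (β ^ k) ^ 2))
    exact (memLp_const (μ := γ d) (p := 2) (β ^ k • x)).add h2
  exact (memLp_map_measure_iff (g := (id : E d → E d)) aestronglyMeasurable_id hm).1 h

theorem Fld.size_ou (hf : Fld f K M) (hβ : |β| ≤ 1) {k : ℕ} (hk : k ≤ n) :
    ∫ s, ‖f (ou β s k)‖ ^ 2 ∂seed d n ≤ M ^ 2 := by
  have h := hf.size
  have hc := hf.cont
  rwa [← map_ou hβ n k hk, integral_map (measurable_ou β k).aemeasurable (by fun_prop)] at h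

theorem integral_norm_le {α : Type*} [MeasurableSpace α] {μ : Measure α} [IsProbabilityMeasure μ]
    {X : α → E d} (hX : MemLp X 2 μ) {B : ℝ} (hB : 0 ≤ B) (h : ∫ a, ‖X a‖ ^ 2 ∂μ ≤ B ^ 2) :
    ∫ a, ‖X a‖ ∂μ ≤ B := by
  have hi : Integrable (fun a => ‖X a‖) μ := (hX.integrable one_le_two).norm
  have hv := variance_nonneg (fun a => ‖X a‖) μ
  rw [variance_eq_sub hX.norm] at hv
  refine (abs_le_of_sq_le_sq' ?_ hB).2
  simp only [Pi.pow_apply] at hv
  linarith

/-- The pathwise drift recursion. -/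
def drift (β : ℝ) (f : E d → E d) (p : ℕ → E d) : ℕ → E d
  | 0 => 0
  | k + 1 => β • drift β f p k + (1 - β) • f (p k - drift β f p k)

theorem drift_eq (p : ℕ → E d) :
    ∀ k, drift β f p k = acc β (fun j => f (p j - drift β f p j)) k
  | 0 => by simp [drift, acc]
  | k + 1 => by rw [drift, acc_succ, drift_eq p k]

/-- First order drift. -/
def D1 (β : ℝ) (f : E d → E d) (p : ℕ → E d) (k : ℕ) : E d := acc β (fun j => f (p j)) k

/-- Second order drift. -/
def D2 (β : ℝ) (f : E d → E d) (p : ℕ → E d) (k : ℕ) : E d :=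
  acc β (fun j => f (p j - D1 β f p j)) k

theorem memLp_drift {α : Type*} [MeasurableSpace α] {μ : Measure α} [IsFiniteMeasure μ]
    (hf : Fld f K M) {p : α → ℕ → E d} : ∀ k, (∀ j < k, MemLp (fun a => p a j) 2 μ) →
      MemLp (fun a => drift β f (p a) k) 2 μ
  | 0, _ => by simp [drift]
  | k + 1, h => by
    have ih := memLp_drift hf k fun j hj => h j (by omega)
    have h2 : MemLp (fun a => f (p a k - drift β f (p a) k)) 2 μ :=
      memLp_comp_lip hf.cont hf.lip ((h k (Nat.lt_succ_self k)).sub ih)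
    exact (ih.const_smul β).add (h2.const_smul (1 - β))

theorem memLp_D1 {α : Type*} [MeasurableSpace α] {μ : Measure α} [IsFiniteMeasure μ]
    (hf : Fld f K M) {p : α → ℕ → E d} {k : ℕ} (h : ∀ j < k, MemLp (fun a => p a j) 2 μ) :
    MemLp (fun a => D1 β f (p a) k) 2 μ :=
  memLp_acc fun j hj => memLp_comp_lip hf.cont hf.lip (h j hj)

theorem memLp_D2 {α : Type*} [MeasurableSpace α] {μ : Measure α} [IsFiniteMeasure μ]
    (hf : Fld f K M) {p : α → ℕ → E d} {k : ℕ} (h : ∀ j < k, MemLp (fun a => p a j) 2 μ) :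
    MemLp (fun a => D2 β f (p a) k) 2 μ :=
  memLp_acc fun j hj => memLp_comp_lip hf.cont hf.lip
    ((h j hj).sub (memLp_D1 hf fun i hi => h i (by omega)))

/-- The second order drift is accurate to third order. -/
theorem drift_D2 (hf : Fld f K M) (h0 : 0 ≤ β) (h1 : β ≤ 1) :
    ∫ s, ‖drift β f (ou β s) n - D2 β f (ou β s) n‖ ∂seed d n ≤ 2 * K ^ 2 * M := by
  have hb : |β| ≤ 1 := by rwa [abs_of_nonneg h0]
  have hM := hf.M0
  have hK := hf.K0
  set P : Seed d n → ℕ → E d := fun s => ou β s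
  have hP : ∀ j ≤ n, MemLp (fun s => P s j) 2 (seed d n) := fun j hj => memLp_ou hb hj
  have hint : ∀ {X : Seed d n → E d}, MemLp X 2 (seed d n) → Integrable (fun s => ‖X s‖) (seed d n) :=
    fun hX => (hX.integrable one_le_two).norm
  have hdr : ∀ k ≤ n, MemLp (fun s => drift β f (P s) k) 2 (seed d n) := fun k hk =>
    memLp_drift hf k fun j hj => hP j (by omega)
  have hfP : ∀ j ≤ n, MemLp (fun s => f (P s j)) 2 (seed d n) := fun j hj =>
    memLp_comp_lip hf.cont hf.lip (hP j hj)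
  have hmean : ∀ j ≤ n, ∫ s, ‖f (P s j)‖ ∂seed d n ≤ M := fun j hj =>
    integral_norm_le (hfP j hj) hM (hf.size_ou hb hj)
  -- weighted sums
  have key : ∀ (k : ℕ) (X : Seed d n → E d) (Y : ℕ → Seed d n → ℝ) (B : ℝ), 0 ≤ B →
      Integrable (fun s => ‖X s‖) (seed d n) → (∀ j < k, Integrable (Y j) (seed d n)) →
      (∀ s, ‖X s‖ ≤ ∑ j ∈ range k, (1 - β) * β ^ (k - 1 - j) * Y j s) →
      (∀ j < k, ∫ s, Y j s ∂seed d n ≤ B) → ∫ s, ‖X s‖ ∂seed d n ≤ B := by
    intro k X Y B hB hX hY hle hYB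
    refine (integral_mono hX (integrable_finsetSum _ fun j hj => (hY j (mem_range.1 hj)).const_mul _)
      hle).trans ?_
    rw [integral_finsetSum _ fun j hj => (hY j (mem_range.1 hj)).const_mul _]
    simp only [integral_const_mul]
    refine (sum_le_sum fun j hj => mul_le_mul_of_nonneg_left (hYB j (mem_range.1 hj))
      (weight_nonneg h0 h1 k j)).trans ?_
    rw [← sum_mul]; exact mul_le_of_le_one_left hB (weight_sum_le h0 k)
  have hd : ∀ k ≤ n, ∫ s, ‖drift β f (P s) k‖ ∂seed d n ≤ 2 * M := by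
    intro k
    induction k using Nat.strong_induction_on with
    | _ k ih =>
      intro hk
      refine key k _ (fun j s => ‖f (P s j)‖ + K * ‖drift β f (P s) j‖) _ (by positivity)
        (hint (hdr k hk)) (fun j hj => (hint (hfP j (by omega))).add
          ((hint (hdr j (by omega))).const_mul K)) (fun s => ?_) fun j hj => ?_
      · rw [drift_eq (P s) k]
        refine (norm_acc_le h0 h1 _ k).trans (sum_le_sum fun j _ =>
          mul_le_mul_of_nonneg_left ?_ (weight_nonneg h0 h1 k j))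
        have := norm_le_insert' (f (P s j - drift β f (P s) j)) (f (P s j))
        have h2 := hf.lip (P s j - drift β f (P s) j) (P s j)
        rw [sub_sub_cancel_left, norm_neg] at h2
        linarith
      · rw [integral_add (hint (hfP j (by omega))) ((hint (hdr j (by omega))).const_mul K),
          integral_const_mul]
        nlinarith [hmean j (by omega), ih j hj (by omega), hf.K_half,
          mul_le_mul_of_nonneg_left (ih j hj (by omega)) hK]
  have h1' : ∀ k ≤ n, ∫ s, ‖drift β f (P s) k - D1 β f (P s) k‖ ∂seed d n ≤ 2 * K * M := by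
    intro k hk
    refine key k _ (fun j s => K * ‖drift β f (P s) j‖) _ (by positivity)
      (hint ((hdr k hk).sub (memLp_D1 hf fun j hj => hP j (by omega))))
      (fun j hj => (hint (hdr j (by omega))).const_mul K) (fun s => ?_) fun j hj => ?_
    · rw [drift_eq (P s) k, D1, acc_sub]
      refine (norm_acc_le h0 h1 _ k).trans (sum_le_sum fun j _ =>
        mul_le_mul_of_nonneg_left ?_ (weight_nonneg h0 h1 k j))
      have h2 := hf.lip (P s j - drift β f (P s) j) (P s j)
      rwa [sub_sub_cancel_left, norm_neg] at h2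
    · rw [integral_const_mul]
      nlinarith [mul_le_mul_of_nonneg_left (hd j (by omega)) hK]
  refine key n _ (fun j s => K * ‖drift β f (P s) j - D1 β f (P s) j‖) _ (by positivity)
    (hint ((hdr n le_rfl).sub (memLp_D2 hf fun j hj => hP j (by omega))))
    (fun j hj => (hint ((hdr j (by omega)).sub (memLp_D1 hf fun i hi => hP i (by omega)))).const_mul K)
    (fun s => ?_) fun j hj => ?_
  · rw [drift_eq (P s) n, D2, acc_sub]
    refine (norm_acc_le h0 h1 _ n).trans (sum_le_sum fun j _ =>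
      mul_le_mul_of_nonneg_left ?_ (weight_nonneg h0 h1 n j))
    refine (hf.lip _ _).trans (le_of_eq ?_)
    rw [sub_sub_sub_cancel_left, norm_sub_rev]
  · rw [integral_const_mul]
    nlinarith [mul_le_mul_of_nonneg_left (h1' j (by omega)) hK]

end

end Vale.Agent.P347.Quarter
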