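import Vale.Agent.P347.Quarter.Path

/-!
# P347, exponent 1/4: laws and moments along the autoregression
-/

namespace Vale.Agent.P347.Quarter

open MeasureTheory ProbabilityTheory Real WithLp
open scoped RealInnerProductSpace

noncomputable section

variable {d n : ℕ} {β : ℝ}

instance (d : ℕ) : IsGaussian (γ d) := by unfold γ; infer_instance

theorem prod_map_right {α ι : Type*} [MeasurableSpace α] [MeasurableSpace ι] {ν : Measure α}
    [IsProbabilityMeasure ν] (μ : Measure ι) [SFinite μ] {f : α → E d} (hf : Measurable f) :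
    μ.prod (ν.map f) = (μ.prod ν).map (Prod.map id f) := by
  conv_lhs => rw [← Measure.map_id (μ := μ)]
  exact Measure.map_prod_map _ _ measurable_id hf

theorem γ_sq_integrable : Integrable (fun x : E d => ‖x‖ ^ 2) (γ d) :=
  IsGaussian.memLp_two_id.integrable_norm_pow two_ne_zero

theorem γ_norm_integrable : Integrable (fun x : E d => ‖x‖) (γ d) :=
  IsGaussian.integrable_id.norm

theorem γ_inner_zero (a : E d) : ∫ x, ⟪a, x⟫ ∂γ d = 0 :=
  integral_strongDual_stdGaussian (innerSL ℝ a)

theorem γ_inner_sq (a : E d) : ∫ x, ⟪a, x⟫ ^ 2 ∂γ d = ‖a‖ ^ 2 := by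
  have h := variance_dual_stdGaussian (innerSL ℝ a : StrongDual ℝ (E d))
  rw [variance_of_integral_eq_zero (by fun_prop) (integral_strongDual_stdGaussian _)] at h
  simp only [innerSL_apply_apply ℝ, innerSL_apply_norm] at h
  exact h

theorem γ_norm_sq : ∫ x, ‖x‖ ^ 2 ∂γ d = d := by
  have e : (fun x : E d => ‖x‖ ^ 2)
      = fun x => ∑ i, ⟪EuclideanSpace.single i (1 : ℝ), x⟫ ^ 2 := by
    funext x; simp [EuclideanSpace.norm_sq_eq, EuclideanSpace.inner_single_left]
  rw [e, integral_finsetSum]
  · simp [γ_inner_sq]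
  · exact fun i _ => γ_sq_integrable.mono' (by fun_prop) (ae_of_all _ fun x => by
      rw [norm_eq_abs, abs_pow]
      exact pow_le_pow_left₀ (abs_nonneg _) ((abs_real_inner_le_norm _ x).trans (by simp)) 2)

theorem pow_sq_le (hβ : |β| ≤ 1) (k : ℕ) : |β ^ k| ≤ 1 := by
  rw [abs_pow]; exact pow_le_one₀ (abs_nonneg _) hβ

/-- Several steps of the autoregression from a given start are one step. -/
theorem map_ou_from (hβ : |β| ≤ 1) (x : E d) : ∀ (n k : ℕ), k ≤ n →
    (Measure.pi fun _ : Fin n => γ d).map (fun w => ou β ((x, w) : Seed d n) k)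
      = (γ d).map fun w => β ^ k • x + √(1 - (β ^ k) ^ 2) • w
  | n, 0, _ => by simp [ou]
  | 0, k + 1, hk => absurd hk (by omega)
  | n + 1, k + 1, hk => by
    set s' := √(1 - β ^ 2)
    rcases Nat.lt_or_ge k n with hkn | hkn
    · -- the last increment is not used
      have hm : MeasurePreserving (fun w : Fin (n + 1) → E d => fun j : Fin n => w j.castSucc)
          (Measure.pi fun _ => γ d) (Measure.pi fun _ : Fin n => γ d) :=
        measurePreserving_snd.comp measurePreserving_snoc
      rw [← map_ou_from hβ x n (k + 1) hkn, ← hm.map_eq,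
        Measure.map_map (g := fun w => ou β ((x, w) : Seed d n) (k + 1)) (by fun_prop)
          hm.measurable]
      congr 1; funext w
      exact ou_castSucc ((x, w) : Seed d (n + 1)) hkn
    obtain rfl : k = n := le_antisymm (by omega) hkn
    have e : (Measure.pi fun _ : Fin (k + 1) => γ d).map
        (fun w => ou β ((x, w) : Seed d (k + 1)) (k + 1))
        = ((γ d).prod ((γ d).map fun w => β ^ k • x + √(1 - (β ^ k) ^ 2) • w)).map
          (fun p => β • p.2 + s' • p.1) := by
      rw [← map_ou_from hβ x k k le_rfl]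
      rw [prod_map_right _ (by fun_prop), Measure.map_map (by fun_prop)
        (by fun_prop), ← measurePreserving_snoc.map_eq, Measure.map_map (by fun_prop)
        measurePreserving_snoc.measurable]
      congr 1; funext w
      simp [ou, s', ou_castSucc ((x, w) : Seed d (k + 1)) le_rfl, pad]
      rfl
    rw [e]
    rw [prod_map_right _ (by fun_prop), Measure.map_map (by fun_prop)
      (by fun_prop)]
    set A := β * √(1 - (β ^ k) ^ 2)
    set r := √(1 - (β ^ (k + 1)) ^ 2)
    have hA : A ^ 2 + s' ^ 2 = r ^ 2 := by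
      simp only [A, r, s', mul_pow, sqrt_sq_aux hβ, sqrt_sq_aux (pow_sq_le hβ k),
        sqrt_sq_aux (pow_sq_le hβ (k + 1))]
      ring
    rcases eq_or_ne r 0 with hr | hr
    · have hA0 : A = 0 ∧ s' = 0 := by
        rw [hr] at hA
        constructor <;> nlinarith [sq_nonneg A, sq_nonneg s']
      have h1 : ∀ p : E d × E d, ((fun p => β • p.2 + s' • p.1) ∘ Prod.map id
          fun w => β ^ k • x + √(1 - (β ^ k) ^ 2) • w) p = β ^ (k + 1) • x := fun p => by
        simp only [Function.comp_apply, Prod.map_snd, hA0.2, zero_smul, add_zero,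
          smul_add, smul_smul]
        rw [show β * √(1 - (β ^ k) ^ 2) = A from rfl, hA0.1, zero_smul, add_zero, pow_succ']
      simp only [funext h1, hr, zero_smul, add_zero, Measure.map_const, measure_univ, one_smul]
    have hc := comb_map (d := d) (a := s' / r) (b := A / r) (by field_simp; linarith)
    conv_rhs => rw [← hc.map_eq]
    rw [Measure.map_map (by fun_prop) hc.measurable]
    congr 1; funext p
    simp only [Function.comp_apply, Prod.map_fst, Prod.map_snd, id_eq, A, smul_add, smul_smul]
    match_scalars <;> field_simp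
    ring

theorem map_ou (hβ : |β| ≤ 1) : ∀ (n k : ℕ), k ≤ n → (seed d n).map (fun s => ou β s k) = γ d
  | n, 0, _ => measurePreserving_fst.map_eq
  | 0, k + 1, hk => absurd hk (by omega)
  | n + 1, k + 1, hk => by
    have h := measurePreserving_fst.comp (headSplit_preserving (d := d) (n := n) hβ)
    rw [← map_ou hβ n k (by omega), ← h.map_eq, Measure.map_map (by fun_prop) h.measurable]
    congr 1; funext s
    exact ou_head s k

/-- Stationarity of pairs. -/
theorem integral_pair (hβ : |β| ≤ 1) {v : E d × E d → ℝ} (hv : Measurable v) :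
    ∀ (n j m : ℕ), j + m ≤ n →
      ∫ s, v (ou β s j, ou β s (j + m)) ∂seed d n = ∫ s, v (ou β s 0, ou β s m) ∂seed d (n - j)
  | n, 0, m, _ => by simp
  | 0, j + 1, m, hk => absurd hk (by omega)
  | n + 1, j + 1, m, hk => by
    have h := measurePreserving_fst.comp (headSplit_preserving (d := d) (n := n) hβ)
    have ih := integral_pair hβ hv n j m (by omega)
    have hm : Measurable fun s : Seed d n => v (ou β s j, ou β s (j + m)) := by fun_prop
    rw [← h.map_eq, integral_map h.measurable.aemeasurable hm.aestronglyMeasurable] at ih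
    rw [show j + 1 + m = j + m + 1 by omega, show n + 1 - (j + 1) = n - j by omega, ← ih]
    simp only [ou_head, Function.comp_apply]

theorem integral_ou_sub_sq (hβ : 0 ≤ β) (hβ' : β ≤ 1) {n j m : ℕ} (h : j + m ≤ n) :
    ∫ s, ‖ou β s (j + m) - ou β s j‖ ^ 2 ∂seed d n ≤ 2 * d * m * (1 - β) := by
  have hb : |β| ≤ 1 := by rwa [abs_of_nonneg hβ]
  rw [integral_pair (v := fun p => ‖p.2 - p.1‖ ^ 2) hb (by fun_prop) n j m h]
  set b := β ^ m
  have hb0 : 0 ≤ b := pow_nonneg hβ m
  have hb1 : b ≤ 1 := pow_le_one₀ hβ hβ'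
  set c := √(1 - b ^ 2)
  have hc : c ^ 2 = 1 - b ^ 2 := sqrt_sq_aux (pow_sq_le hb m)
  have hsplit : (seed d (n - j)).map (fun s => (s.1, ou β s m))
      = ((γ d).prod (γ d)).map fun p => (p.1, b • p.1 + c • p.2) := by
    ext S hS
    rw [Measure.map_apply (by fun_prop) hS, Measure.map_apply (by fun_prop) hS, seed,
      Measure.prod_apply ((measurable_fst.prodMk (measurable_ou β m)) hS),
      Measure.prod_apply (measurableSet_preimage (by fun_prop) hS)]
    refine lintegral_congr fun x => ?_
    have hx := map_ou_from (d := d) hb x (n - j) m (by omega)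
    have hS' : MeasurableSet {y | (x, y) ∈ S} := measurable_prodMk_left hS
    have := congrArg (fun μ : Measure (E d) => μ {y | (x, y) ∈ S}) hx
    rw [Measure.map_apply (by fun_prop) hS', Measure.map_apply (by fun_prop) hS'] at this
    exact this
  have key : ∫ s, ‖ou β s m - ou β s 0‖ ^ 2 ∂seed d (n - j)
      = ∫ p, ‖(b • p.1 + c • p.2) - p.1‖ ^ 2 ∂(γ d).prod (γ d) := by
    have := congrArg (fun μ : Measure (E d × E d) => ∫ p, ‖p.2 - p.1‖ ^ 2 ∂μ) hsplit
    rw [integral_map (by fun_prop) (by fun_prop), integral_map (by fun_prop) (by fun_prop)] at this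
    exact this
  rw [key]
  rcases eq_or_ne ((b - 1) ^ 2 + c ^ 2) 0 with h0 | h0
  · have h1 : b - 1 = 0 ∧ c = 0 := by constructor <;> nlinarith [sq_nonneg (b - 1), sq_nonneg c]
    have : ∀ p : E d × E d, (b • p.1 + c • p.2) - p.1 = 0 := fun p => by
      rw [show b = 1 by linarith [h1.1], h1.2]; simp
    simp only [this]
    simp; positivity
  set r := √((b - 1) ^ 2 + c ^ 2)
  have hr : r ^ 2 = (b - 1) ^ 2 + c ^ 2 := sq_sqrt (by positivity)
  have hr0 : r ≠ 0 := by intro h; rw [h] at hr; exact h0 (by linarith)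
  have hm := comb_map (d := d) (a := (b - 1) / r) (b := c / r) (by field_simp; linarith)
  have e : ∀ p : E d × E d, ‖(b • p.1 + c • p.2) - p.1‖ ^ 2
      = r ^ 2 * ‖((b - 1) / r) • p.1 + (c / r) • p.2‖ ^ 2 := fun p => by
    rw [← sq_abs r, ← mul_pow, ← norm_eq_abs, ← norm_smul, smul_add, smul_smul, smul_smul,
      mul_div_cancel₀ _ hr0, mul_div_cancel₀ _ hr0]
    congr 2; module
  simp only [e, integral_const_mul]
  rw [show ∫ p, ‖((b - 1) / r) • p.1 + (c / r) • p.2‖ ^ 2 ∂(γ d).prod (γ d) = (d : ℝ) by
    have := γ_norm_sq (d := d)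
    rwa [← hm.map_eq, integral_map hm.measurable.aemeasurable (by fun_prop)] at this, hr, hc]
  have h2 : 1 - b ≤ m * (1 - β) := by
    have := one_add_mul_le_pow (a := β - 1) (by linarith) m
    simp only [add_sub_cancel] at this
    linarith
  nlinarith [mul_le_mul_of_nonneg_left h2 (show (0 : ℝ) ≤ 2 * d by positivity)]

end

end Vale.Agent.P347.Quarter
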