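import Vale.Agent.P347.Quarter.Tilt
import Vale.Agent.P347.Quarter.Moments

/-!
# P347, exponent 1/4: Gaussian smoothing
-/

namespace Vale.Agent.P347.Quarter

open MeasureTheory ProbabilityTheory Real Filter Topology
open scoped RealInnerProductSpace

noncomputable section

variable {d : ℕ} {F : Type*} [NormedAddCommGroup F] [InnerProductSpace ℝ F] [FiniteDimensional ℝ F]
  [MeasurableSpace F] [BorelSpace F]

/-- Integration by parts. -/
theorem stein {u : F → ℝ} (hu : ContDiff ℝ 1 u) {C : ℝ} (hC : ∀ x, ‖fderiv ℝ u x‖ ≤ C * (1 + ‖x‖))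
    (a : F) : ∫ x, ⟪x, a⟫ * u x ∂stdGaussian F = ∫ x, fderiv ℝ u x a ∂stdGaussian F := by
  have hC0 : 0 ≤ C := by simpa using (norm_nonneg (fderiv ℝ u 0)).trans (hC 0)
  exact stein_vec hu zero_le_one (C := C) (fun x => (hC x).trans (mul_le_mul_of_nonneg_left
    (by linarith [add_one_le_exp (1 * ‖x‖)]) hC0)) a

theorem integral_inner_mul_inner (a b : F) :
    ∫ x, ⟪x, a⟫ * ⟪x, b⟫ ∂stdGaussian F = ⟪a, b⟫ := by
  have he : (fun x : F => ⟪x, b⟫) = innerSL ℝ b := funext fun x => real_inner_comm b x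
  have hu : ContDiff ℝ 1 fun x : F => ⟪x, b⟫ := by rw [he]; exact (innerSL ℝ b).contDiff
  have hf : ∀ x : F, fderiv ℝ (fun x : F => ⟪x, b⟫) x = innerSL ℝ b := fun x => by
    rw [he]; exact (innerSL ℝ b).fderiv
  rw [stein hu (C := ‖b‖) (fun x => ?_) a]
  · simp only [hf, innerSL_apply_apply ℝ, integral_const, probReal_univ, one_smul]
    exact real_inner_comm _ _
  · rw [hf, innerSL_apply_norm]
    nlinarith [mul_nonneg (norm_nonneg b) (norm_nonneg x)]

/-- The Bessel inequality for the constant and the coordinates. -/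
theorem bessel {W : Type*} [NormedAddCommGroup W] [InnerProductSpace ℝ W] [FiniteDimensional ℝ W]
    {f : E d → W} (hf : AEStronglyMeasurable f (γ d)) {B : ℝ} (hB : ∀ w, ‖f w‖ ≤ B) :
    ∑ i, ‖∫ w, ⟪w, EuclideanSpace.single i (1 : ℝ)⟫ • f w ∂γ d‖ ^ 2 + ‖∫ w, f w ∂γ d‖ ^ 2
      ≤ ∫ w, ‖f w‖ ^ 2 ∂γ d := by
  set e : Fin d → E d := fun i => EuclideanSpace.single i 1
  set c : Fin d → W := fun i => ∫ w, ⟪w, e i⟫ • f w ∂γ d
  set c₀ := ∫ w, f w ∂γ d
  have hB0 : 0 ≤ B := (norm_nonneg _).trans (hB 0)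
  have he : ∀ i, ‖e i‖ = 1 := fun i => by simp [e]
  have hin : ∀ i (w : E d), |⟪w, e i⟫| ≤ ‖w‖ := fun i w => by
    simpa [he i] using abs_real_inner_le_norm w (e i)
  have i1 : Integrable f (γ d) := Integrable.of_bound hf B (ae_of_all _ hB)
  have i2 : ∀ i, Integrable (fun w => ⟪w, e i⟫ • f w) (γ d) := fun i =>
    (γ_norm_integrable.mul_const B).mono' ((Continuous.aestronglyMeasurable (by fun_prop)).smul hf)
      (ae_of_all _ fun w => by
        rw [norm_smul, norm_eq_abs]
        exact mul_le_mul (hin i w) (hB w) (norm_nonneg _) (norm_nonneg _))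
  have i3 : ∀ i, Integrable (fun w => ⟪w, e i⟫) (γ d) := fun i =>
    γ_norm_integrable.mono' (Continuous.aestronglyMeasurable (by fun_prop))
      (ae_of_all _ fun w => by rw [norm_eq_abs]; exact hin i w)
  have i4 : ∀ i j, Integrable (fun w => ⟪w, e i⟫ * ⟪w, e j⟫) (γ d) := fun i j =>
    γ_sq_integrable.mono' (Continuous.aestronglyMeasurable (by fun_prop))
      (ae_of_all _ fun w => by
        rw [norm_eq_abs, abs_mul, sq]
        exact mul_le_mul (hin i w) (hin j w) (abs_nonneg _) (norm_nonneg _))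
  set A : E d → W := fun w => c₀ + ∑ i, ⟪w, e i⟫ • c i
  have i5 : Integrable (fun w => ⟪f w, c₀⟫ + ∑ i, ⟪w, e i⟫ * ⟪f w, c i⟫) (γ d) :=
    ((i1.inner_const c₀)).add (integrable_finsetSum _ fun i _ => by
      simpa [inner_smul_left] using (i2 i).inner_const (𝕜 := ℝ) (c i))
  have i6 : Integrable (fun w => ‖c₀‖ ^ 2 + ((2 * ∑ i, ⟪w, e i⟫ * ⟪c₀, c i⟫)
      + ∑ i, ∑ j, ⟪w, e i⟫ * ⟪w, e j⟫ * ⟪c i, c j⟫)) (γ d) :=
    (integrable_const _).add (((integrable_finsetSum _ fun i _ => (i3 i).mul_const _).const_mul _).add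
      (integrable_finsetSum _ fun i _ => integrable_finsetSum _ fun j _ => (i4 i j).mul_const _))
  have e1 : ∀ w, 2 * (⟪f w, c₀⟫ + ∑ i, ⟪w, e i⟫ * ⟪f w, c i⟫) - (‖c₀‖ ^ 2
      + ((2 * ∑ i, ⟪w, e i⟫ * ⟪c₀, c i⟫) + ∑ i, ∑ j, ⟪w, e i⟫ * ⟪w, e j⟫ * ⟪c i, c j⟫))
      ≤ ‖f w‖ ^ 2 := fun w => by
    have h := sq_nonneg ‖f w - A w‖
    have hq : ‖∑ i, ⟪w, e i⟫ • c i‖ ^ 2 = ∑ i, ∑ j, ⟪w, e i⟫ * ⟪w, e j⟫ * ⟪c i, c j⟫ := by
      rw [← real_inner_self_eq_norm_sq, sum_inner]
      refine Finset.sum_congr rfl fun i _ => ?_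
      rw [inner_sum]
      refine Finset.sum_congr rfl fun j _ => ?_
      rw [inner_smul_left, inner_smul_right, RCLike.conj_to_real]
      ring
    rw [norm_sub_sq_real, norm_add_sq_real c₀, hq] at h
    simp only [A, inner_add_right, inner_sum, inner_smul_right] at h
    linarith
  have isq : Integrable (fun w => ‖f w‖ ^ 2) (γ d) :=
    Integrable.of_bound (hf.norm.pow 2) (B ^ 2) (ae_of_all _ fun w => by
      rw [norm_eq_abs, abs_pow, abs_norm]; exact pow_le_pow_left₀ (norm_nonneg _) (hB w) 2)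
  have hmono := integral_mono ((i5.const_mul 2).sub i6) isq e1
  have e2 : ∀ i, ∫ w, ⟪w, e i⟫ * ⟪f w, c i⟫ ∂γ d = ‖c i‖ ^ 2 := fun i => by
    rw [← real_inner_self_eq_norm_sq]
    calc ∫ w, ⟪w, e i⟫ * ⟪f w, c i⟫ ∂γ d = ∫ w, ⟪c i, ⟪w, e i⟫ • f w⟫ ∂γ d :=
          integral_congr_ae (ae_of_all _ fun w => by
            simp only [inner_smul_right]; rw [real_inner_comm (c i)])
      _ = _ := integral_inner (i2 i) (c i)
  have e3 : ∫ w, ⟪f w, c₀⟫ ∂γ d = ‖c₀‖ ^ 2 := by
    rw [← real_inner_self_eq_norm_sq, ← integral_inner i1 c₀]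
    exact integral_congr_ae (ae_of_all _ fun w => real_inner_comm _ _)
  have e4 : ∀ i, ∫ w, ⟪w, e i⟫ ∂γ d = 0 := fun i => by
    rw [← γ_inner_zero (e i)]
    exact integral_congr_ae (ae_of_all _ fun w => real_inner_comm _ _)
  simp only [Pi.sub_apply] at hmono
  rw [integral_sub (i5.const_mul 2) i6, integral_const_mul,
    integral_add (i1.inner_const c₀) (integrable_finsetSum _ fun i _ => by
      simpa [inner_smul_left] using (i2 i).inner_const (𝕜 := ℝ) (c i)),
    integral_finsetSum _ (fun i _ => by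
      simpa [inner_smul_left] using (i2 i).inner_const (𝕜 := ℝ) (c i)),
    integral_add (integrable_const _)
      (((integrable_finsetSum _ fun i _ => (i3 i).mul_const _).const_mul _).fun_add
      (integrable_finsetSum _ fun i _ => integrable_finsetSum _ fun j _ => (i4 i j).mul_const _)),
    integral_add ((integrable_finsetSum _ fun i _ => (i3 i).mul_const _).const_mul _)
      (integrable_finsetSum _ fun i _ => integrable_finsetSum _ fun j _ => (i4 i j).mul_const _),
    integral_const_mul, integral_finsetSum _ (fun i _ => (i3 i).mul_const _),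
    integral_finsetSum _ (fun i _ => integrable_finsetSum _ fun j _ => (i4 i j).mul_const _),
    e3, integral_const, probReal_univ, one_smul] at hmono
  have horth : ∀ i, ∫ w, ∑ j, ⟪w, e i⟫ * ⟪w, e j⟫ * ⟪c i, c j⟫ ∂γ d = ‖c i‖ ^ 2 := fun i => by
    rw [integral_finsetSum _ (fun j _ => (i4 i j).mul_const _)]
    simp only [integral_mul_const, γ, integral_inner_mul_inner]
    rw [Finset.sum_eq_single i (fun j _ hj => by simp [e, EuclideanSpace.inner_single_left, Ne.symm hj])
      (fun h => absurd (Finset.mem_univ i) h)]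
    simp [e, real_inner_self_eq_norm_sq]
  simp only [e2, horth, integral_mul_const, e4, zero_mul, Finset.sum_const_zero, mul_zero,
    zero_add] at hmono
  linarith

theorem G_eq_tilt {b : ℝ} (hb : 0 < b) (v : E d → F) :
    G b v = fun x => ∫ w, v (√b • (w + (√b)⁻¹ • x)) ∂stdGaussian (E d) := by
  funext x
  simp only [G, γ, smul_add, smul_smul, mul_inv_cancel₀ (sqrt_ne_zero'.2 hb), one_smul, add_comm]

/-- Smoothing of a bounded measurable field. -/
theorem G_contDiff {b B : ℝ} (hb : 0 < b) {v : E d → F} (hv : Measurable v) (hB : ∀ x, ‖v x‖ ≤ B) :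
    ContDiff ℝ 1 (G b v) ∧
    (∀ x a, fderiv ℝ (G b v) x a = ∫ w, (⟪w, a⟫ / √b) • v (x + √b • w) ∂γ d) ∧
    ∀ x, b * ∑ i, ‖fderiv ℝ (G b v) x (EuclideanSpace.single i 1)‖ ^ 2 + ‖G b v x‖ ^ 2
      ≤ G b (fun y => ‖v y‖ ^ 2) x := by
  set s := √b
  have hs : s ≠ 0 := sqrt_ne_zero'.2 hb
  set vb : E d → F := fun w => v (s • w)
  have hvb : StronglyMeasurable vb := (hv.comp (measurable_const_smul s)).stronglyMeasurable
  have hbd : ∀ w, ‖vb w‖ ≤ B * exp (0 * ‖w‖) := fun w => by simpa [vb] using hB _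
  set D : E d → E d →L[ℝ] F := fun a =>
    ∫ w, tilt a w • (innerSL ℝ (w - a)).smulRight (vb w) ∂stdGaussian (E d)
  set ι : E d →L[ℝ] E d := s⁻¹ • ContinuousLinearMap.id ℝ (E d)
  have hD : ∀ a, Integrable (fun w => tilt a w • (innerSL ℝ (w - a)).smulRight (vb w))
      (stdGaussian (E d)) := fun a => (hasFDerivAt_tilt_integral hvb hbd a).1
  have hG : ∀ x, HasFDerivAt (G b v) ((D (ι x)).comp ι) x := fun x => by
    rw [G_eq_tilt hb v]
    exact ((hasFDerivAt_tilt_integral hvb hbd (ι x)).2.1).comp x ι.hasFDerivAt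
  have hDc : Continuous D := continuous_iff_continuousAt.2 fun a =>
    (hasFDerivAt_tilt_integral hvb hbd a).2.2
  have hder : ∀ x a, fderiv ℝ (G b v) x a = ∫ w, (⟪w, a⟫ / s) • v (x + s • w) ∂γ d := fun x a => by
    rw [(hG x).fderiv, ContinuousLinearMap.comp_apply, ContinuousLinearMap.integral_apply (hD _)]
    obtain ⟨p, hp⟩ : ∃ p, p = ι x := ⟨_, rfl⟩
    have hk := gauss_shift (H := E d) (v := fun w => ⟪w - p, ι a⟫ • vb w)
      ((Continuous.stronglyMeasurable (by fun_prop)).smul hvb) (C := ‖ι a‖ * B * exp ‖p‖) (R := 1)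
      (fun w => by
        rw [norm_smul, norm_eq_abs, mul_assoc, ← exp_add]
        calc |⟪w - p, ι a⟫| * ‖vb w‖ ≤ (‖w - p‖ * ‖ι a‖) * B :=
              mul_le_mul (abs_real_inner_le_norm _ _) (hB _) (norm_nonneg _) (by positivity)
          _ ≤ exp (‖p‖ + 1 * ‖w‖) * ‖ι a‖ * B := by
              have hB0 : 0 ≤ B := (norm_nonneg _).trans (hB 0)
              gcongr
              linarith [norm_sub_le w p, add_one_le_exp (‖p‖ + 1 * ‖w‖)]
          _ = _ := by ring) p
    have e : ∫ w, (tilt (ι x) w • (innerSL ℝ (w - ι x)).smulRight (vb w)) (ι a) ∂stdGaussian (E d)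
        = ∫ w, tilt p w • ⟪w - p, ι a⟫ • vb w ∂stdGaussian (E d) :=
      integral_congr_ae (ae_of_all _ fun w => by simp [hp, innerSL_apply_apply ℝ, inner_sub_left])
    rw [e, ← hk]
    refine integral_congr_ae (ae_of_all _ fun w => ?_)
    simp only [vb, add_sub_cancel_right, hp, ι, smul_add, smul_smul, inner_smul_right,
      _root_.smul_apply, ContinuousLinearMap.id_apply, mul_inv_cancel₀ hs, one_smul,
      div_eq_inv_mul, add_comm]
  refine ⟨contDiff_one_iff_fderiv.2 ⟨fun x => (hG x).differentiableAt, ?_⟩, hder, fun x => ?_⟩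
  · rw [show fderiv ℝ (G b v) = fun x => (D (ι x)).comp ι from funext fun x => (hG x).fderiv]
    exact (hDc.comp ι.continuous).clm_comp continuous_const
  · have h := bessel (f := fun w => v (x + s • w))
      (hv.comp (Measurable.const_add (measurable_const_smul s) x)).stronglyMeasurable.aestronglyMeasurable
      (fun w => hB _)
    have e : ∀ i, b * ‖fderiv ℝ (G b v) x (EuclideanSpace.single i 1)‖ ^ 2
        = ‖∫ w, ⟪w, EuclideanSpace.single i (1 : ℝ)⟫ • v (x + s • w) ∂γ d‖ ^ 2 := fun i => by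
      rw [hder]
      simp only [div_eq_inv_mul, ← smul_smul, integral_smul, norm_smul, mul_pow, norm_inv,
        norm_eq_abs, inv_pow, sq_abs]
      rw [← mul_assoc, show b * (s ^ 2)⁻¹ = 1 by
        rw [sq_sqrt hb.le, mul_inv_cancel₀ hb.ne'], one_mul]
    rw [Finset.mul_sum, Finset.sum_congr rfl fun i _ => e i]
    exact h

/-- Smoothing commutes with the derivative. -/
theorem fderiv_G {b B : ℝ} (_hb : 0 ≤ b) {v : E d → F} (hv : ContDiff ℝ 1 v)
    (hB : ∀ x, ‖fderiv ℝ v x‖ ≤ B) (x : E d) :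
    fderiv ℝ (G b v) x = ∫ w, fderiv ℝ v (x + √b • w) ∂γ d :=
  (hasFDerivAt_avg hv le_rfl (C := B) (fun y => by simpa using hB y) (√b) x).fderiv

theorem norm_apply_le_hs (A : E d →L[ℝ] E d) (z : E d) : ‖A z‖ ≤ √(hs A) * ‖z‖ := by
  have e : A z = ∑ i, z i • A (EuclideanSpace.single i 1) := by
    conv_lhs => rw [← (EuclideanSpace.basisFun (Fin d) ℝ).sum_repr z]
    simp
  rw [e]
  refine (norm_sum_le _ _).trans ?_
  simp only [norm_smul, norm_eq_abs]
  refine (Real.sum_mul_le_sqrt_mul_sqrt _ _ _).trans (le_of_eq ?_)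
  rw [mul_comm, hs, EuclideanSpace.norm_eq]
  simp only [norm_eq_abs]

theorem sum_sq_adjoint {n : ℕ} (A : E n →L[ℝ] E d) :
    ∑ k, ‖A (EuclideanSpace.single k 1)‖ ^ 2
      = ∑ i, ‖ContinuousLinearMap.adjoint A (EuclideanSpace.single i 1)‖ ^ 2 := by
  simp only [EuclideanSpace.norm_sq_eq, norm_eq_abs, sq_abs]
  rw [Finset.sum_comm]
  refine Finset.sum_congr rfl fun i _ => Finset.sum_congr rfl fun k _ => ?_
  congr 1
  calc A (EuclideanSpace.single k 1) i
      = ⟪EuclideanSpace.single i (1 : ℝ), A (EuclideanSpace.single k 1)⟫ := by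
        simp [EuclideanSpace.inner_single_left]
    _ = ⟪ContinuousLinearMap.adjoint A (EuclideanSpace.single i 1), EuclideanSpace.single k (1 : ℝ)⟫ :=
        (ContinuousLinearMap.adjoint_inner_left A _ _).symm
    _ = _ := by simp [EuclideanSpace.inner_single_right]

theorem sum_sq_le {n : ℕ} (A : E n →L[ℝ] E d) {K : ℝ} (hA : ‖A‖ ≤ K) :
    ∑ k, ‖A (EuclideanSpace.single k 1)‖ ^ 2 ≤ d * K ^ 2 := by
  rw [sum_sq_adjoint]
  calc ∑ i : Fin d, ‖ContinuousLinearMap.adjoint A (EuclideanSpace.single i 1)‖ ^ 2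
      ≤ ∑ _i : Fin d, K ^ 2 := Finset.sum_le_sum fun i _ => by
        refine pow_le_pow_left₀ (norm_nonneg _) ?_ 2
        refine ((ContinuousLinearMap.adjoint A).le_opNorm _).trans ?_
        rw [LinearIsometryEquiv.norm_map]
        simpa using hA
    _ = _ := by simp

theorem sum_sq_comp_le {n : ℕ} (H : E d →L[ℝ] E d) (A : E n →L[ℝ] E d) {K : ℝ} (hA : ‖A‖ ≤ K) :
    ∑ k, ‖H (A (EuclideanSpace.single k 1))‖ ^ 2 ≤ K ^ 2 * hs H := by
  have h := sum_sq_adjoint (H.comp A)
  simp only [ContinuousLinearMap.comp_apply, ContinuousLinearMap.adjoint_comp] at h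
  rw [h, hs, sum_sq_adjoint H, Finset.mul_sum]
  refine Finset.sum_le_sum fun i _ => ?_
  rw [← mul_pow]
  refine pow_le_pow_left₀ (norm_nonneg _) (((ContinuousLinearMap.adjoint A).le_opNorm _).trans ?_) 2
  rw [LinearIsometryEquiv.norm_map]
  exact mul_le_mul_of_nonneg_right hA (norm_nonneg _)

/-- The second-order Taylor bound. -/
theorem taylor {u : E d → ℝ} {du : E d → E d} {L₁ L₂ : ℝ} (hu : Test u du L₁ L₂) (hL : 0 ≤ L₂)
    (c z : E d) : |u (c + z) - u c - ⟪du c, z⟫| ≤ L₂ / 2 * ‖z‖ ^ 2 := by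
  have hlip : ∀ x y, ‖du y - du x‖ ≤ L₂ * ‖y - x‖ := fun x y =>
    convex_univ.norm_image_sub_le_of_norm_fderiv_le
      (fun w _ => hu.smooth.differentiable one_ne_zero w)
      (fun w _ => ContinuousLinearMap.opNorm_le_bound _ hL fun v => (norm_apply_le_hs _ v).trans
        (mul_le_mul_of_nonneg_right ((Real.sqrt_le_left hL).2 (hu.le₂ w)) (norm_nonneg _)))
      (Set.mem_univ x) (Set.mem_univ y)
  set f : ℝ → ℝ := fun t => u (c + t • z) - u c - t * ⟪du c, z⟫
  have hf : ∀ t, HasDerivAt f (⟪du (c + t • z), z⟫ - ⟪du c, z⟫) t := fun t => by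
    have h1 : HasDerivAt (fun t : ℝ => u (c + t • z)) ⟪du (c + t • z), z⟫ t := by
      have := (hu.grad (c + t • z)).hasFDerivAt.comp_hasDerivAt t
        (((hasDerivAt_id t).smul_const z).const_add c)
      simpa [InnerProductSpace.toDual_apply_apply, Function.comp_def] using this
    exact ((h1.sub_const (u c)).sub ((hasDerivAt_id' t).mul_const ⟪du c, z⟫)).congr_deriv (by simp)
  have h := image_norm_le_of_norm_deriv_right_le_deriv_boundary (f := f)
    (f' := fun t => ⟪du (c + t • z), z⟫ - ⟪du c, z⟫) (a := 0) (b := 1)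
    (B := fun t => L₂ / 2 * ‖z‖ ^ 2 * t ^ 2) (B' := fun t => L₂ * ‖z‖ ^ 2 * t)
    (fun t _ => (hf t).continuousAt.continuousWithinAt) (fun t _ => (hf t).hasDerivWithinAt)
    (by simp [f]) (fun t => by
      refine ((hasDerivAt_pow 2 t).const_mul (L₂ / 2 * ‖z‖ ^ 2)).congr_deriv ?_
      ring)
    (fun t ht => by
      rw [← inner_sub_left, norm_eq_abs]
      refine (abs_real_inner_le_norm _ _).trans ?_
      calc ‖du (c + t • z) - du c‖ * ‖z‖ ≤ (L₂ * ‖c + t • z - c‖) * ‖z‖ :=
            mul_le_mul_of_nonneg_right (hlip _ _) (norm_nonneg _)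
        _ = _ := by rw [add_sub_cancel_left, norm_smul, norm_eq_abs, abs_of_nonneg ht.1]; ring)
    (show (1 : ℝ) ∈ Set.Icc 0 1 by simp)
  simpa [f] using h

/-- The random corollary of the Taylor bound. -/
theorem taylor_mean {u : E d → ℝ} {du : E d → E d} {L₁ L₂ : ℝ} (hu : Test u du L₁ L₂) (hL : 0 ≤ L₂)
    {Ω : Type*} [MeasurableSpace Ω] {μ : Measure Ω} [IsProbabilityMeasure μ] {Z : Ω → E d}
    (hZm : Measurable Z) (hZ : Integrable (fun ω => ‖Z ω‖ ^ 2) μ) (c : E d) :
    |∫ ω, u (c + Z ω) ∂μ - u (c + ∫ ω, Z ω ∂μ)| ≤ L₂ / 2 * ∫ ω, ‖Z ω‖ ^ 2 ∂μ := by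
  set m := ∫ ω, Z ω ∂μ
  have iZ : Integrable Z μ := ((integrable_const (1 : ℝ)).add hZ).mono' hZm.aestronglyMeasurable
    (ae_of_all _ fun ω => by
      simp only [Pi.add_apply]
      nlinarith [sq_nonneg (‖Z ω‖ - 1)])
  have huc : Continuous u := continuous_iff_continuousAt.2 fun x => (hu.grad x).continuousAt
  have iu : Integrable (fun ω => u (c + Z ω)) μ :=
    Integrable.of_bound (huc.measurable.comp (hZm.const_add c)).aestronglyMeasurable 1
      (ae_of_all _ fun ω => hu.bdd _)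
  have isub : Integrable (fun ω => Z ω - m) μ := iZ.sub (integrable_const m)
  have i2 : Integrable (fun ω => ⟪du (c + m), Z ω - m⟫) μ := isub.const_inner (𝕜 := ℝ) (du (c + m))
  have i3 : Integrable (fun ω => ‖Z ω‖ ^ 2 - 2 * ⟪Z ω, m⟫ + ‖m‖ ^ 2) μ :=
    (hZ.sub ((iZ.inner_const (𝕜 := ℝ) m).const_mul 2)).add (integrable_const _)
  have e0 : ∫ ω, ⟪du (c + m), Z ω - m⟫ ∂μ = 0 := by
    rw [integral_inner isub, integral_sub iZ (integrable_const m), integral_const, probReal_univ,
      one_smul, sub_self, inner_zero_right]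
  have e1 : ∫ ω, u (c + Z ω) ∂μ - u (c + m)
      = ∫ ω, u (c + Z ω) - u (c + m) - ⟪du (c + m), Z ω - m⟫ ∂μ := by
    rw [integral_sub (iu.sub' (integrable_const _)) i2, e0,
      integral_sub iu (integrable_const _), integral_const, probReal_univ, one_smul, sub_zero]
  rw [e1]
  refine (abs_integral_le_integral_abs).trans ?_
  calc ∫ ω, |u (c + Z ω) - u (c + m) - ⟪du (c + m), Z ω - m⟫| ∂μ
      ≤ ∫ ω, L₂ / 2 * (‖Z ω‖ ^ 2 - 2 * ⟪Z ω, m⟫ + ‖m‖ ^ 2) ∂μ := by
        refine integral_mono ((iu.sub' (integrable_const _)).sub' i2).abs (i3.const_mul _) fun ω => ?_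
        have := taylor hu hL (c + m) (Z ω - m)
        rwa [norm_sub_sq_real, show c + m + (Z ω - m) = c + Z ω by abel] at this
    _ = L₂ / 2 * (∫ ω, ‖Z ω‖ ^ 2 ∂μ - ‖m‖ ^ 2) := by
        have e : ∫ ω, ⟪Z ω, m⟫ ∂μ = ‖m‖ ^ 2 := by
          rw [← real_inner_self_eq_norm_sq, ← integral_inner iZ m]
          exact integral_congr_ae (ae_of_all _ fun ω => real_inner_comm _ _)
        rw [integral_const_mul, integral_add (hZ.sub' ((iZ.inner_const (𝕜 := ℝ) m).const_mul 2))
          (integrable_const _), integral_sub hZ ((iZ.inner_const (𝕜 := ℝ) m).const_mul 2),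
          integral_const_mul, e, integral_const, probReal_univ, one_smul]
        ring
    _ ≤ _ := mul_le_mul_of_nonneg_left (sub_le_self _ (sq_nonneg _)) (by positivity)

theorem sum_inner_apply {n : ℕ} (A : E n →L[ℝ] E d) (q : E d) (z : E n) :
    ⟪q, A z⟫ = ∑ k, ⟪z, EuclideanSpace.single k (1 : ℝ)⟫ * ⟪q, A (EuclideanSpace.single k 1)⟫ := by
  conv_lhs => rw [← (EuclideanSpace.basisFun (Fin n) ℝ).sum_repr z]
  simp [inner_sum, inner_smul_right, EuclideanSpace.inner_single_right]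

/-- The covariance of a bounded and a centred field, by interpolation along rotations. -/
theorem cov_core {n : ℕ} {a δ : E n → E d} {L₁ M K : ℝ} (ha : ContDiff ℝ 1 a)
    (haB : ∀ x, ‖a x‖ ≤ L₁) (hM : 0 ≤ M)
    (haM : ∀ x, ∑ k, ‖fderiv ℝ a x (EuclideanSpace.single k 1)‖ ^ 2 ≤ M ^ 2)
    (hδ : ContDiff ℝ 1 δ) (hK : ∀ x, ‖fderiv ℝ δ x‖ ≤ K) (h0 : ∫ x, δ x ∂γ n = 0) :
    |∫ x, ⟪a x, δ x⟫ ∂γ n| ≤ M * (√d * K) := by
  have hL1 : 0 ≤ L₁ := (norm_nonneg _).trans (haB 0)
  have hK0 : 0 ≤ K := (norm_nonneg _).trans (hK 0)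
  have had := hδ.continuous_fderiv one_ne_zero
  have hac := ha.continuous
  have hdc := hδ.continuous
  have hgrow : ∀ x, ‖δ x‖ ≤ ‖δ 0‖ + K * ‖x‖ := fun x => by
    have := convex_univ.norm_image_sub_le_of_norm_fderiv_le
      (fun w _ => hδ.differentiable one_ne_zero w) (fun w _ => hK w) (Set.mem_univ (0 : E n))
      (Set.mem_univ x)
    rw [sub_zero] at this
    linarith [norm_le_norm_add_norm_sub' (δ x) (δ 0)]
  have iN : Integrable (fun p : E n × E n => ‖p.1‖ + ‖p.2‖) ((γ n).prod (γ n)) :=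
    (γ_norm_integrable.comp_fst (γ n)).add (γ_norm_integrable.comp_snd (γ n))
  set pt : ℝ → E n × E n → E n := fun θ p => cos θ • p.1 + sin θ • p.2
  have hpt : ∀ θ p, ‖pt θ p‖ ≤ ‖p.1‖ + ‖p.2‖ := fun θ p => by
    refine (norm_add_le _ _).trans ?_
    simp only [norm_smul, norm_eq_abs]
    nlinarith [abs_cos_le_one θ, abs_sin_le_one θ, norm_nonneg p.1, norm_nonneg p.2]
  set ψ : ℝ → ℝ := fun θ => ∫ p, ⟪a p.1, δ (pt θ p)⟫ ∂(γ n).prod (γ n)
  set ψ' : ℝ → ℝ := fun θ =>
    ∫ p, ⟪a p.1, fderiv ℝ δ (pt θ p) ((-sin θ) • p.1 + cos θ • p.2)⟫ ∂(γ n).prod (γ n)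
  have iF : ∀ θ, Integrable (fun p : E n × E n => ⟪a p.1, δ (pt θ p)⟫) ((γ n).prod (γ n)) := fun θ => by
    refine (((integrable_const ‖δ 0‖).add (iN.const_mul K)).const_mul L₁).mono'
      (Continuous.aestronglyMeasurable (by fun_prop)) (ae_of_all _ fun p => ?_)
    rw [norm_eq_abs]
    refine (abs_real_inner_le_norm _ _).trans ?_
    refine mul_le_mul (haB _) ((hgrow _).trans ?_) (norm_nonneg _) hL1
    simp only [Pi.add_apply]
    exact add_le_add le_rfl (mul_le_mul_of_nonneg_left (hpt θ p) hK0)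
  have hψ : ∀ θ, HasDerivAt ψ (ψ' θ) θ := fun θ => by
    refine (hasDerivAt_integral_of_dominated_loc_of_deriv_le (s := Set.univ)
      (F' := fun θ p => ⟪a p.1, fderiv ℝ δ (pt θ p) ((-sin θ) • p.1 + cos θ • p.2)⟫)
      (bound := fun p => L₁ * (K * (‖p.1‖ + ‖p.2‖))) univ_mem
      (Eventually.of_forall fun t => (iF t).aestronglyMeasurable) (iF θ)
      (Continuous.aestronglyMeasurable (by fun_prop)) (ae_of_all _ fun p t _ => ?_)
      ((iN.const_mul K).const_mul L₁) (ae_of_all _ fun p t _ => ?_)).2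
    · rw [norm_eq_abs]
      refine (abs_real_inner_le_norm _ _).trans (mul_le_mul (haB _) ?_ (norm_nonneg _) hL1)
      refine ((fderiv ℝ δ _).le_opNorm _).trans (mul_le_mul (hK _) ?_ (norm_nonneg _) hK0)
      refine (norm_add_le _ _).trans ?_
      simp only [norm_smul, norm_neg, norm_eq_abs]
      nlinarith [abs_cos_le_one t, abs_sin_le_one t, norm_nonneg p.1, norm_nonneg p.2]
    · have h1 : HasDerivAt (fun t => pt t p) ((-sin t) • p.1 + cos t • p.2) t :=
        ((hasDerivAt_cos t).smul_const p.1).add ((hasDerivAt_sin t).smul_const p.2)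
      have h2 := (hδ.differentiable one_ne_zero (pt t p)).hasFDerivAt.comp_hasDerivAt t h1
      have h3 := ((innerSL ℝ (a p.1)).hasFDerivAt).comp_hasDerivAt t h2
      simpa [innerSL_apply_apply ℝ, Function.comp_def] using h3
  have hbd : ∀ θ ∈ Set.Ico (0 : ℝ) (π / 2), |ψ' θ| ≤ M * (√d * K) * sin θ := by
    intro θ hθ
    have hs : 0 ≤ sin θ := sin_nonneg_of_nonneg_of_le_pi hθ.1 (by linarith [hθ.2, pi_pos])
    have hsq : √(1 - cos θ ^ 2) = sin θ := by
      rw [← abs_of_nonneg hs, abs_sin_eq_sqrt_one_sub_cos_sq]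
    have hT := pair_map (d := n) (abs_cos_le_one θ)
    rw [hsq] at hT
    set g : E n × E n → ℝ := fun q => -⟪a (cos θ • q.1 + sin θ • q.2), fderiv ℝ δ q.1 q.2⟫
    have hg : Continuous g := by fun_prop
    have e1 : ψ' θ = ∫ q, g q ∂(γ n).prod (γ n) := by
      conv_rhs => rw [← hT.map_eq]
      rw [integral_map hT.aemeasurable hg.aestronglyMeasurable]
      refine integral_congr_ae (ae_of_all _ fun p => ?_)
      have e : cos θ • (cos θ • p.1 + sin θ • p.2) + sin θ • (sin θ • p.1 - cos θ • p.2) = p.1 := by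
        match_scalars
        · linear_combination cos_sq_add_sin_sq θ
        · ring
      simp only [g, e, ← inner_neg_right, ← map_neg]
      congr 2
      module
    have ig : Integrable g ((γ n).prod (γ n)) := by
      refine ((γ_norm_integrable.comp_snd (γ n)).const_mul (L₁ * K)).mono'
        hg.aestronglyMeasurable (ae_of_all _ fun q => ?_)
      rw [norm_eq_abs, abs_neg, mul_assoc]
      exact (abs_real_inner_le_norm _ _).trans (mul_le_mul (haB _)
        (((fderiv ℝ δ _).le_opNorm _).trans (mul_le_mul_of_nonneg_right (hK _) (norm_nonneg _)))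
        (norm_nonneg _) hL1)
    rw [e1, integral_prod _ ig]
    refine (norm_integral_le_of_norm_le_const (μ := γ n) (f := fun y => ∫ z, g (y, z) ∂γ n)
      (C := M * (√d * K) * sin θ) (ae_of_all _ fun y => ?_)).trans_eq (by rw [probReal_univ, mul_one])
    set A := fderiv ℝ δ y
    set e : Fin n → E n := fun k => EuclideanSpace.single k 1
    set u : Fin n → E n → ℝ := fun k z => ⟪a (cos θ • y + sin θ • z), A (e k)⟫
    have hu : ∀ k z, HasFDerivAt (u k) ((innerSL ℝ (A (e k))).comp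
        ((fderiv ℝ a (cos θ • y + sin θ • z)).comp (sin θ • ContinuousLinearMap.id ℝ (E n)))) z :=
      fun k z => by
        have h1 : HasFDerivAt (fun z : E n => cos θ • y + sin θ • z)
            (sin θ • ContinuousLinearMap.id ℝ (E n)) z :=
          ((hasFDerivAt_id z).const_smul (sin θ)).const_add _
        have h2 := (innerSL ℝ (A (e k))).hasFDerivAt.comp z
          ((ha.differentiable one_ne_zero _).hasFDerivAt.comp z h1)
        refine h2.congr_of_eventuallyEq (Eventually.of_forall fun w => ?_)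
        simp only [u, Function.comp_apply, innerSL_apply_apply ℝ]
        exact real_inner_comm _ _
    have huc : ∀ k, ContDiff ℝ 1 (u k) := fun k =>
      (ha.comp (contDiff_const.add (contDiff_id.const_smul (sin θ)))).inner ℝ contDiff_const
    have haop : ∀ x, ‖fderiv ℝ a x‖ ≤ M := fun x => by
      refine ContinuousLinearMap.opNorm_le_bound _ hM fun v => ?_
      rw [← (EuclideanSpace.basisFun (Fin n) ℝ).sum_repr v, map_sum,
        (EuclideanSpace.basisFun (Fin n) ℝ).sum_repr v]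
      refine (norm_sum_le _ _).trans ?_
      simp only [map_smul, norm_smul, norm_eq_abs, EuclideanSpace.basisFun_repr,
        EuclideanSpace.basisFun_apply]
      refine (Real.sum_mul_le_sqrt_mul_sqrt _ _ _).trans ?_
      rw [EuclideanSpace.norm_eq, mul_comm]
      simp only [norm_eq_abs]
      exact mul_le_mul_of_nonneg_right ((Real.sqrt_le_left hM).2 (haM x)) (sqrt_nonneg _)
    have hub : ∀ k z, ‖fderiv ℝ (u k) z‖ ≤ ‖A (e k)‖ * M * (1 + ‖z‖) := fun k z => by
      rw [(hu k z).fderiv]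
      refine ((ContinuousLinearMap.opNorm_comp_le _ _).trans ?_).trans
        (le_mul_of_one_le_right (by positivity) (by linarith [norm_nonneg z]))
      rw [innerSL_apply_norm]
      refine mul_le_mul_of_nonneg_left ((ContinuousLinearMap.opNorm_comp_le _ _).trans ?_)
        (norm_nonneg _)
      refine (mul_le_mul_of_nonneg_right (haop _) (norm_nonneg _)).trans
        (mul_le_of_le_one_right hM ?_)
      refine ContinuousLinearMap.opNorm_le_bound _ zero_le_one fun v => ?_
      simp only [_root_.smul_apply, ContinuousLinearMap.id_apply, norm_smul, norm_eq_abs]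
      exact mul_le_mul_of_nonneg_right (abs_sin_le_one θ) (norm_nonneg _)
    have hst : ∀ k, ∫ z, ⟪z, e k⟫ * u k z ∂γ n
        = sin θ * ∫ z, ⟪fderiv ℝ a (cos θ • y + sin θ • z) (e k), A (e k)⟫ ∂γ n := fun k => by
      rw [← integral_const_mul, γ, stein (huc k) (hub k) (e k)]
      refine integral_congr_ae (ae_of_all _ fun z => ?_)
      simp only [(hu k z).fderiv, ContinuousLinearMap.comp_apply, _root_.smul_apply,
        ContinuousLinearMap.id_apply, innerSL_apply_apply ℝ, map_smul, inner_smul_right]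
      rw [real_inner_comm]
    have iu : ∀ k, Integrable (fun z => ⟪z, e k⟫ * u k z) (γ n) := fun k => by
      refine (γ_norm_integrable.mul_const (L₁ * ‖A (e k)‖)).mono'
        (Continuous.aestronglyMeasurable (by fun_prop)) (ae_of_all _ fun z => ?_)
      rw [norm_eq_abs, abs_mul]
      refine mul_le_mul ?_ ((abs_real_inner_le_norm _ _).trans
        (mul_le_mul_of_nonneg_right (haB _) (norm_nonneg _))) (abs_nonneg _) (norm_nonneg _)
      simpa [e] using abs_real_inner_le_norm z (e k)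
    have ik : ∀ k, Integrable (fun z => ⟪fderiv ℝ a (cos θ • y + sin θ • z) (e k), A (e k)⟫) (γ n) :=
      fun k => by
      have hc := ha.continuous_fderiv one_ne_zero
      refine Integrable.of_bound (Continuous.aestronglyMeasurable (by fun_prop))
        (M * ‖e k‖ * ‖A (e k)‖) (ae_of_all _ fun z => ?_)
      rw [norm_eq_abs]
      exact (abs_real_inner_le_norm _ _).trans (mul_le_mul_of_nonneg_right
        (((fderiv ℝ a _).le_opNorm _).trans (mul_le_mul_of_nonneg_right (haop _) (norm_nonneg _)))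
        (norm_nonneg _))
    have e2 : ∫ z, g (y, z) ∂γ n
        = -(sin θ * ∫ z, ∑ k, ⟪fderiv ℝ a (cos θ • y + sin θ • z) (e k), A (e k)⟫ ∂γ n) := by
      rw [integral_finsetSum _ fun k _ => ik k, Finset.mul_sum]
      have hg2 : ∀ z, g (y, z) = -∑ k, ⟪z, e k⟫ * u k z := fun z =>
        congrArg Neg.neg (sum_inner_apply A _ z)
      simp only [hg2, ← hst]
      rw [integral_neg, integral_finsetSum _ fun k _ => iu k]
    rw [e2, norm_neg, norm_mul, norm_eq_abs, abs_of_nonneg hs, mul_comm]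
    refine mul_le_mul_of_nonneg_right ((norm_integral_le_of_norm_le_const (C := M * (√d * K))
      (ae_of_all _ fun z => ?_)).trans (by simp)) hs
    rw [norm_eq_abs]
    refine (Finset.abs_sum_le_sum_abs _ _).trans ((Finset.sum_le_sum fun k _ =>
      abs_real_inner_le_norm _ _).trans ((Real.sum_mul_le_sqrt_mul_sqrt _ _ _).trans ?_))
    refine mul_le_mul ((Real.sqrt_le_left hM).2 (haM _)) ?_ (sqrt_nonneg _) hM
    refine (Real.sqrt_le_sqrt (sum_sq_le A (hK y))).trans (le_of_eq ?_)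
    rw [sqrt_mul (Nat.cast_nonneg d), sqrt_sq hK0]
  have h := image_norm_le_of_norm_deriv_right_le_deriv_boundary
    (f := fun θ => ψ θ - ψ 0) (f' := ψ') (a := 0) (b := π / 2)
    (B := fun θ => M * (√d * K) * (1 - cos θ)) (B' := fun θ => M * (√d * K) * sin θ)
    (fun θ _ => ((hψ θ).sub_const _).continuousAt.continuousWithinAt)
    (fun θ _ => ((hψ θ).sub_const _).hasDerivWithinAt) (by simp)
    (fun θ => (((hasDerivAt_cos θ).const_sub 1).const_mul _).congr_deriv (by ring))
    (fun θ hθ => by rw [norm_eq_abs]; exact hbd θ hθ)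
    (Set.right_mem_Icc.2 (by positivity))
  have e0 : ψ 0 = ∫ x, ⟪a x, δ x⟫ ∂γ n := by
    simp only [ψ, pt, cos_zero, sin_zero, one_smul, zero_smul, add_zero]
    rw [integral_fun_fst (μ := γ n) (ν := γ n) (fun x => ⟪a x, δ x⟫), probReal_univ, one_smul]
  have e1 : ψ (π / 2) = 0 := by
    have hi := iF (π / 2)
    simp only [pt, cos_pi_div_two, sin_pi_div_two, zero_smul, one_smul, zero_add] at hi
    simp only [ψ, pt, cos_pi_div_two, sin_pi_div_two, zero_smul, one_smul, zero_add]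
    rw [integral_prod _ hi]
    have iδ : Integrable δ (γ n) :=
      ((integrable_const ‖δ 0‖).add (γ_norm_integrable.const_mul K)).mono'
        hdc.aestronglyMeasurable (ae_of_all _ fun x => hgrow x)
    simp [integral_inner iδ, h0]
  simpa [e0, e1, cos_pi_div_two, norm_eq_abs] using h

theorem cov_euclid {n : ℕ} {u : E d → ℝ} {du : E d → E d} {L₁ L₂ : ℝ} (hu : Test u du L₁ L₂)
    (hL : 0 ≤ L₂) {δ : E n → E d} (hδ : ContDiff ℝ 1 δ) {K : ℝ} (hK : ∀ x, ‖fderiv ℝ δ x‖ ≤ K)
    (c : E d) :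
    |∫ x, u (c + δ x) ∂γ n - u (c + ∫ x, δ x ∂γ n)| ≤ L₂ * √d * K ^ 2 := by
  have hK0 : 0 ≤ K := (norm_nonneg _).trans (hK 0)
  set m := ∫ x, δ x ∂γ n
  set δ₀ : E n → E d := fun x => δ x - m
  have hδ₀ : ContDiff ℝ 1 δ₀ := hδ.sub contDiff_const
  have hd₀ : ∀ x, fderiv ℝ δ₀ x = fderiv ℝ δ x := fun x => fderiv_sub_const (x := x) m
  have hK₀ : ∀ x, ‖fderiv ℝ δ₀ x‖ ≤ K := fun x => by rw [hd₀]; exact hK x
  have iδ : Integrable δ (γ n) := integrable_of_growth hδ.continuous.aestronglyMeasurable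
    (‖δ 0‖ + K) (0 + 1) (growth_of_deriv (hδ.differentiable one_ne_zero) le_rfl
      fun x => by simpa using hK x)
  have iδ₀ : Integrable δ₀ (γ n) := iδ.sub (integrable_const m)
  have h0 : ∫ x, δ₀ x ∂γ n = 0 := by
    simp only [δ₀]
    rw [integral_sub iδ (integrable_const m), integral_const, probReal_univ, one_smul, sub_self]
  have huc : Continuous u := continuous_iff_continuousAt.2 fun x => (hu.grad x).continuousAt
  have hdc := hu.smooth.continuous
  have hδc := hδ₀.continuous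
  have hL1 : 0 ≤ L₁ := (norm_nonneg _).trans (hu.le₁ c)
  set φ : ℝ → ℝ := fun s => ∫ x, u (c + m + s • δ₀ x) ∂γ n
  have hφ : ∀ s, HasDerivAt φ (∫ x, ⟪du (c + m + s • δ₀ x), δ₀ x⟫ ∂γ n) s := fun s => by
    refine (hasDerivAt_integral_of_dominated_loc_of_deriv_le (s := Set.univ)
      (F' := fun t x => ⟪du (c + m + t • δ₀ x), δ₀ x⟫)
      (bound := fun x => L₁ * ‖δ₀ x‖) univ_mem
      (Eventually.of_forall fun t => Continuous.aestronglyMeasurable (by fun_prop))
      (Integrable.of_bound (Continuous.aestronglyMeasurable (by fun_prop)) 1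
        (ae_of_all _ fun x => hu.bdd _))
      (Continuous.aestronglyMeasurable (by fun_prop)) (ae_of_all _ fun x t _ => ?_)
      (iδ₀.norm.const_mul L₁) (ae_of_all _ fun x t _ => ?_)).2
    · rw [norm_eq_abs]
      exact (abs_real_inner_le_norm _ _).trans
        (mul_le_mul_of_nonneg_right (hu.le₁ _) (norm_nonneg _))
    · have := (hu.grad (c + m + t • δ₀ x)).hasFDerivAt.comp_hasDerivAt t
        (((hasDerivAt_id t).smul_const (δ₀ x)).const_add (c + m))
      simpa [InnerProductSpace.toDual_apply_apply, Function.comp_def] using this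
  have hb : ∀ s ∈ Set.Icc (0 : ℝ) 1,
      ‖∫ x, ⟪du (c + m + s • δ₀ x), δ₀ x⟫ ∂γ n‖ ≤ L₂ * √d * K ^ 2 := fun s hs => by
    set a : E n → E d := fun x => du (c + m + s • δ₀ x)
    have hd : ∀ x, HasFDerivAt a ((fderiv ℝ du (c + m + s • δ₀ x)).comp (s • fderiv ℝ δ₀ x)) x :=
      fun x => (hu.smooth.differentiable one_ne_zero _).hasFDerivAt.comp x
        (((hδ₀.differentiable one_ne_zero x).hasFDerivAt.const_smul s).const_add (c + m))
    have ha : ContDiff ℝ 1 a := hu.smooth.comp (contDiff_const.add (hδ₀.const_smul s))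
    have h := cov_core ha (fun x => hu.le₁ _) (mul_nonneg hK0 hL) (fun x => ?_) hδ₀ hK₀ h0
    · rw [norm_eq_abs]
      exact h.trans (le_of_eq (by ring))
    · rw [(hd x).fderiv]
      simp only [ContinuousLinearMap.comp_apply]
      have hsB : ‖s • fderiv ℝ δ₀ x‖ ≤ K := by
        refine ContinuousLinearMap.opNorm_le_bound _ hK0 fun v => ?_
        rw [_root_.smul_apply, norm_smul, norm_eq_abs, abs_of_nonneg hs.1]
        exact (mul_le_of_le_one_left (norm_nonneg _) hs.2).trans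
          (((fderiv ℝ δ₀ x).le_opNorm v).trans (mul_le_mul_of_nonneg_right (hK₀ x) (norm_nonneg _)))
      refine (sum_sq_comp_le _ _ hsB).trans ?_
      rw [mul_pow]
      exact mul_le_mul_of_nonneg_left (hu.le₂ _) (sq_nonneg K)
  have := (convex_Icc (0 : ℝ) 1).norm_image_sub_le_of_norm_hasDerivWithin_le
    (fun s _ => (hφ s).hasDerivWithinAt) hb (Set.left_mem_Icc.2 zero_le_one)
    (Set.right_mem_Icc.2 zero_le_one)
  simpa [φ, δ₀, norm_eq_abs, show ∀ x : E n, c + m + (δ x - m) = c + δ x from fun x => by abel]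
    using this

/-- The covariance lemma. -/
theorem cov_bound {u : E d → ℝ} {du : E d → E d} {L₁ L₂ : ℝ} (hu : Test u du L₁ L₂) (hL : 0 ≤ L₂)
    {δ : F → E d} (hδ : ContDiff ℝ 1 δ) {K : ℝ} (hK : ∀ x, ‖fderiv ℝ δ x‖ ≤ K)
    (c : E d) :
    |∫ x, u (c + δ x) ∂stdGaussian F - u (c + ∫ x, δ x ∂stdGaussian F)| ≤ L₂ * √d * K ^ 2 := by
  set e := (stdOrthonormalBasis ℝ F).repr.symm
  have hδe : ContDiff ℝ 1 (fun x => δ (e x)) := hδ.comp e.toContinuousLinearEquiv.contDiff
  have hKe : ∀ x, ‖fderiv ℝ (fun x => δ (e x)) x‖ ≤ K := fun x => by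
    have hd : HasFDerivAt (fun x => δ (e x))
        ((fderiv ℝ δ (e x)).comp (e.toLinearIsometry.toContinuousLinearMap)) x :=
      (hδ.differentiable one_ne_zero (e x)).hasFDerivAt.comp x
        e.toLinearIsometry.toContinuousLinearMap.hasFDerivAt
    rw [hd.fderiv]
    refine ContinuousLinearMap.opNorm_le_bound _ ((norm_nonneg _).trans (hK 0)) fun v => ?_
    exact ((fderiv ℝ δ (e x)).le_opNorm _).trans (by
      refine mul_le_mul (hK _) (le_of_eq ?_) (norm_nonneg _) ((norm_nonneg _).trans (hK 0))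
      exact e.norm_map v)
  have huc : Continuous u := continuous_iff_continuousAt.2 fun x => (hu.grad x).continuousAt
  have hm := stdGaussian_map (E := E (Module.finrank ℝ F)) e
  have hdc := hδ.continuous
  have ec : Continuous e := e.continuous
  rw [← hm, integral_map ec.aemeasurable (Continuous.aestronglyMeasurable (by fun_prop)),
    integral_map ec.aemeasurable hdc.aestronglyMeasurable]
  exact cov_euclid hu hL hδe hKe c

end

end Vale.Agent.P347.Quarter
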