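import Vale.Agent.P347.Quarter.Rounds

/-!
# P347, exponent 1/4: the error of the algorithm
-/

namespace Vale.Agent.P347.Quarter

open MeasureTheory ProbabilityTheory Real WithLp Finset
open scoped RealInnerProductSpace

noncomputable section

variable {d χ : ℕ} {col : Fin d → Fin χ} {V : Colour.Pt d → ℝ}

theorem start_close (hV : Colour.Cls col V) (hd : 2 ≤ d) {u : E d → ℝ} {a : ℝ} (hu : Lip1 u a) :
    |u 0 - ∫ x, u x ∂piE V| ≤ a * √(8 * d) := by
  have := piE_prob hV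
  obtain ⟨hi, hm⟩ := piE_moment hV hd
  set r := √(8 * (d : ℝ))
  have hr : 0 < r := sqrt_pos.2 (by positivity)
  have hr2 : r ^ 2 = 8 * d := sq_sqrt (by positivity)
  have hlin : ∀ x, |u 0 - u x| ≤ a * (‖x‖ ^ 2 / (2 * r) + r / 2) := by
    intro x
    have h := convex_univ.norm_image_sub_le_of_norm_fderiv_le (𝕜 := ℝ)
      (fun y _ => hu.smooth.differentiable one_ne_zero y) (fun y _ => hu.lip y)
      (Set.mem_univ x) (Set.mem_univ 0)
    rw [norm_eq_abs, zero_sub, norm_neg] at h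
    refine h.trans (mul_le_mul_of_nonneg_left ?_ hu.nonneg)
    rw [div_add_div _ _ (by positivity) (by norm_num), le_div_iff₀ (by positivity)]
    nlinarith [sq_nonneg (‖x‖ - r)]
  have hui : Integrable u (piE V) :=
    Integrable.of_bound hu.meas.aestronglyMeasurable 1 (ae_of_all _ fun x => hu.bdd x)
  have hb : Integrable (fun x : E d => a * (‖x‖ ^ 2 / (2 * r) + r / 2)) (piE V) :=
    ((hi.div_const _).add (integrable_const _)).const_mul a
  rw [show u 0 - ∫ x, u x ∂piE V = ∫ x, (u 0 - u x) ∂piE V by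
    rw [integral_sub (integrable_const _) hui, integral_const, probReal_univ, one_smul]]
  refine abs_integral_le_integral_abs.trans
    ((integral_mono ((integrable_const _).sub hui).abs hb fun x => hlin x).trans ?_)
  rw [integral_const_mul, integral_add (hi.div_const _) (integrable_const _), integral_div,
    integral_const, probReal_univ, one_smul]
  refine mul_le_mul_of_nonneg_left ?_ hu.nonneg
  calc (∫ x, ‖x‖ ^ 2 ∂piE V) / (2 * r) + r / 2 ≤ r ^ 2 / (2 * r) + r / 2 := by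
        rw [hr2]; gcongr
    _ = r := by field_simp; ring

variable {n L J₃ : ℕ} {β h : ℝ} {S : Finset ℕ} {c : ℕ → ℝ} {f : E d → ℝ}

/-- The Euler chains almost preserve the target. -/
theorem chains_invariant (hV : Colour.Cls col V) (hd : 2 ≤ d) (hh : 0 < h) (hh' : h ≤ 1 / 8)
    (hβ : 2 / 3 ≤ β) (hβ' : β < 1) (hf : Measurable f) (hf1 : ∀ x, |f x| ≤ 1) (j : ℕ) :
    |∫ x, UE h β n J₃ (gOf (Colour.oracle V)) f j x ∂piE V - ∫ x, f x ∂piE V|
      ≤ j * (50 * √(2 ^ (J₃ + 1) / h) * d * (β ^ n + n * (1 - β) ^ (3 / 2 : ℝ)))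
        + 50 * (h / 2 ^ (J₃ + 1)) * d := by
  have hg := pot_gOf hV
  have hη : 0 < h / 2 ^ (J₃ + 1) := by positivity
  have hη' : h / 2 ^ (J₃ + 1) ≤ 1 / 4 :=
    (div_le_self hh.le (one_le_pow₀ one_le_two)).trans (by linarith)
  obtain ⟨hN, h0⟩ := last_inv hV hd hη hη' hf hf1
  induction j with
  | zero => simpa [UE] using h0
  | succ j ih =>
    have hu := UE_lip (n := n) hg hh hh' hβ hβ' hN j
    have h1 := round_inv (n := n) hV hd (size_pos (J₃ := J₃) hh j)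
      (by linarith [size_le (J₃ := J₃) hh j]) hβ hβ' hu
    rw [one_div, ← sqrt_inv, inv_div] at h1
    refine (abs_sub_le _ (∫ x, UE h β n J₃ (gOf (Colour.oracle V)) f j x ∂piE V) _).trans
      ((add_le_add h1 ih).trans (le_of_eq ?_))
    push_cast; ring

/-- The accumulated bounds fit into the total error. -/
theorem budget_fits {Cq : ℝ} {p M k : ℕ} (hh : 0 ≤ h) (hβ : 0 ≤ β) (hβ' : β ≤ 1)
    (hε : 0 ≤ epsQ Cq p M n β) :
    (6 * √(d : ℝ) * (8 * h ^ 2 + epsQ Cq p M n β) * (h * (2 * J₃ + (2 + 2 * √k)))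
        + bracket Cq d n L h β * (h ^ 2 * (4 * J₃ + (4 + 4 * harmonic k + 8 * h * k))))
        * (1 + 5 * h * (k + 2))
      + ((1 / (1 + h)) ^ (k + 1) * (2 / √h) * √(8 * d)
        + (((J₃ + (k + 1) : ℕ) : ℝ) * (50 * √(2 ^ (J₃ + 1) / h) * d
          * (β ^ n + n * (1 - β) ^ (3 / 2 : ℝ))) + 50 * (h / 2 ^ (J₃ + 1)) * d))
      ≤ totalErr Cq p M d n L (k + 1) J₃ h β := by
  have := sub_nonneg.2 hβ'
  have hk : (0 : ℝ) ≤ k := Nat.cast_nonneg k
  have hJ : (0 : ℝ) ≤ J₃ := Nat.cast_nonneg J₃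
  have hk1 : √(k : ℝ) ≤ √((k + 1 : ℕ) : ℝ) := sqrt_le_sqrt (by push_cast; linarith)
  have hk2 : (1 : ℝ) ≤ √((k + 1 : ℕ) : ℝ) := one_le_sqrt.2 (by push_cast; linarith)
  have hH : (harmonic k : ℝ) ≤ 1 + log ((k + 1 : ℕ) : ℝ) := by
    refine (harmonic_le_one_add_log k).trans (add_le_add le_rfl ?_)
    rcases Nat.eq_zero_or_pos k with rfl | hk'
    · simp
    · exact log_le_log (Nat.cast_pos.2 hk') (by push_cast; linarith)
  have hH0 : (0 : ℝ) ≤ harmonic k := by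
    rcases Nat.eq_zero_or_pos k with rfl | hk'
    · simp
    · exact_mod_cast (harmonic_pos hk'.ne').le
  have hB : 0 ≤ bracket Cq d n L h β := by unfold bracket; positivity
  set X := 6 * √(d : ℝ) * (8 * h ^ 2 + epsQ Cq p M n β) with hX
  have hX0 : 0 ≤ X := by positivity
  set B := bracket Cq d n L h β
  set T := 50 * √(2 ^ (J₃ + 1) / h) * d * (β ^ n + n * (1 - β) ^ (3 / 2 : ℝ)) with hT
  have hT0 : 0 ≤ T := by positivity
  have e1 : X * (h * (2 * J₃ + (2 + 2 * √(k : ℝ))))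
      ≤ X * (h * (2 * (J₃ + 3 * √((k + 1 : ℕ) : ℝ)))) :=
    mul_le_mul_of_nonneg_left (mul_le_mul_of_nonneg_left (by linarith) hh) hX0
  have e2 : B * (h ^ 2 * (4 * J₃ + (4 + 4 * harmonic k + 8 * h * k)))
      ≤ B * (h ^ 2 * (4 * J₃ + 4 * (2 + log ((k + 1 : ℕ) : ℝ)) + 8 * h * (k + 1 : ℕ))) := by
    refine mul_le_mul_of_nonneg_left (mul_le_mul_of_nonneg_left ?_ (sq_nonneg h)) hB
    push_cast at hH ⊢
    linarith [show 8 * h * ((k : ℝ) + 1) = 8 * h * k + 8 * h by ring]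
  have e0 : 0 ≤ 1 + 5 * h * ((k : ℝ) + 2) := by positivity
  have e3 := mul_le_mul (add_le_add e1 e2)
    (show 1 + 5 * h * ((k : ℝ) + 2) ≤ 2 + 5 * h * ((k + 1 : ℕ) + 2) by push_cast; linarith)
    e0 ((show (0 : ℝ) ≤ X * (h * (2 * J₃ + (2 + 2 * √(k : ℝ))))
      + B * (h ^ 2 * (4 * J₃ + (4 + 4 * harmonic k + 8 * h * k))) by positivity).trans
      (add_le_add e1 e2))
  have e4 : ((J₃ + (k + 1) : ℕ) : ℝ) * T ≤ (J₃ + (k + 1 : ℕ) + 1) * (2 * T) := by
    push_cast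
    linarith [mul_nonneg hJ hT0, mul_nonneg hk hT0]
  refine le_trans (add_le_add e3 (add_le_add le_rfl (add_le_add e4 le_rfl))) (le_of_eq ?_)
  rw [totalErr, hX, hT]
  ring

/-- The error of the algorithm started at the origin. -/
theorem error_bound (hV : Colour.Cls col V) (hd : 2 ≤ d) {Cq : ℝ} {p M N : ℕ} (hN : 1 ≤ N)
    (hh : 0 < h) (hh' : h ≤ 1 / 8)
    (hr : Rule β n L S c (epsQ Cq p M n β) (wQ Cq n β)) (hs : Small h β n L (wQ Cq n β))
    (hA : Avg h β n L S c (gOf (Colour.oracle V))) (hf : Measurable f) (hf1 : ∀ x, |f x| ≤ 1) :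
    |UA h β n L S c J₃ (gOf (Colour.oracle V)) f (J₃ + N) 0 - ∫ x, f x ∂piE V|
      ≤ totalErr Cq p M d n L N J₃ h β := by
  have hg := pot_gOf hV
  have hd1 : 1 ≤ d := by omega
  have hη : 0 < h / 2 ^ (J₃ + 1) := by positivity
  have hη' : h / 2 ^ (J₃ + 1) ≤ 1 / 4 :=
    (div_le_self hh.le (one_le_pow₀ one_le_two)).trans (by linarith)
  obtain ⟨hl, -⟩ := last_inv hV hd hη hη' hf hf1
  set g := gOf (Colour.oracle V)
  obtain ⟨k, rfl⟩ : ∃ k, N = k + 1 := ⟨N - 1, by omega⟩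
  have h1 := close_uniform hg hh hh' hl hr hA hd1 hs k 0
  have h2 := start_close hV hd
    (UE_decay (n := n) hg hh hh' hr.β_ge hr.β_lt hl (k + 1))
  have h3 := chains_invariant (n := n) (J₃ := J₃) hV hd hh hh' hr.β_ge hr.β_lt hf hf1 (J₃ + (k + 1))
  refine (abs_sub_le _ (UE h β n J₃ g f (J₃ + (k + 1)) 0) _).trans
    ((add_le_add h1 ((abs_sub_le _ (∫ x, UE h β n J₃ g f (J₃ + (k + 1)) x ∂piE V) _).trans
      (add_le_add h2 h3))).trans ?_)
  rw [norm_zero, zero_pow two_ne_zero, zero_div, add_zero]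
  exact budget_fits hh.le hr.β0 hr.β_lt.le hr.ε0

end

end Vale.Agent.P347.Quarter
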