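import Vale.Agent.P347.Quarter.Total

/-!
# P347, exponent 1/4: choice of the parameters

All parameters are powers of one large real `x`, a constant multiple of the dimension:
`u = x ^ e`, `h = x ^ (-(1/4 + 3 e))`, `M ≈ u`, `N ≈ u / h`, `n ≥ x ^ 16` and `n (1 - β) = u`.
-/

namespace Vale.Agent.P347.Quarter

open Real

noncomputable section

namespace Par

/-- A power of two between `y` and `2 y`. -/
theorem two_pow_near {y : ℝ} (hy : 1 ≤ y) : ∃ k : ℕ, y ≤ 2 ^ k ∧ (2 : ℝ) ^ k ≤ 2 * y := by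
  obtain ⟨k, h1, h2⟩ := exists_nat_pow_near hy (one_lt_two : (1 : ℝ) < 2)
  refine ⟨k + 1, h2.le, ?_⟩
  rw [pow_succ']
  linarith

/-- The constant of a logarithm against a small power. -/
def lc (c : ℝ) (a : ℕ) (e : ℝ) : ℝ := 1 + 2 * (log c + a / e)

theorem one_le_lc {c e : ℝ} {a : ℕ} (hc : 1 ≤ c) (he : 0 < e) : 1 ≤ lc c a e := by
  have := log_nonneg hc
  have : (0 : ℝ) ≤ a / e := by positivity
  rw [lc]
  linarith

/-- A logarithm is at most a small power. -/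
theorem exp_bound {x e c : ℝ} {k a : ℕ} (hx : 1 ≤ x) (he : 0 < e) (hc : 1 ≤ c)
    (h : (2 : ℝ) ^ k ≤ c * x ^ a) : (k : ℝ) + 1 ≤ lc c a e * x ^ e := by
  rw [lc]
  have hx0 : 0 < x := by linarith
  have h1 := log_le_log (by positivity) h
  rw [log_pow, log_mul (by positivity) (by positivity), log_pow] at h1
  have hu : 1 ≤ x ^ e := one_le_rpow hx he.le
  have h2 : log x ≤ x ^ e / e := log_le_rpow_div hx0.le he
  have h3 : (a : ℝ) * log x ≤ (a : ℝ) / e * x ^ e :=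
    le_of_le_of_eq (mul_le_mul_of_nonneg_left h2 (Nat.cast_nonneg a)) (by ring)
  have h4 : log c ≤ log c * x ^ e := le_mul_of_one_le_right (log_nonneg hc) hu
  have h5 : (k : ℝ) * (1 / 2) ≤ (k : ℝ) * log 2 :=
    mul_le_mul_of_nonneg_left (by linarith [log_two_gt_d9]) (Nat.cast_nonneg k)
  nlinarith

/-- The constant of exponential decay. -/
def cE (e : ℝ) : ℝ := 2 ^ ⌈6 / e⌉₊ * (⌈6 / e⌉₊).factorial

theorem cE_nonneg (e : ℝ) : 0 ≤ cE e := by rw [cE]; positivity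

/-- Exponential decay beats powers. -/
theorem exp_decay {x e : ℝ} (hx : 1 ≤ x) (he : 0 < e) :
    exp (-(x ^ e / 2)) ≤ cE e / x ^ 6 := by
  rw [cE]
  set k := ⌈6 / e⌉₊
  have hx0 : 0 < x := by linarith
  have hk : 6 / e ≤ (k : ℝ) := Nat.le_ceil _
  rw [div_le_iff₀ he] at hk
  have h6 : x ^ 6 ≤ (x ^ e) ^ k := by
    rw [← rpow_natCast (x ^ e), ← rpow_mul hx0.le, ← rpow_natCast x]
    exact rpow_le_rpow_of_exponent_le hx (by push_cast; linarith)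
  have h1 := pow_div_factorial_le_exp (x := x ^ e / 2) (by positivity) k
  rw [exp_neg, inv_eq_one_div, div_le_div_iff₀ (exp_pos _) (by positivity)]
  rw [div_pow, div_div, div_le_iff₀ (by positivity)] at h1
  linarith

/-- The step size. -/
def hs (x e : ℝ) : ℝ := x ^ (-(1 / 4 + 3 * e))

theorem hs_facts {x e : ℝ} (hx : 1 ≤ x) (he : 0 < e) (he8 : e ≤ 1 / 8) :
    0 < hs x e ∧ hs x e ≤ x ^ (-e) ∧ hs x e ≤ 1 ∧ 1 ≤ x ^ e ∧ x ^ e ≤ x ∧
      x ^ e / hs x e ≤ x ∧ 1 ≤ x ^ e / hs x e ∧ 1 ≤ x * hs x e ∧ x ^ e ≤ x ^ e / hs x e ∧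
      1 / x ≤ x ^ (-e) := by
  have hx0 : 0 < x := by linarith
  have pw : ∀ {a b : ℝ}, a ≤ b → x ^ a ≤ x ^ b := fun hab => rpow_le_rpow_of_exponent_le hx hab
  have hd : x ^ e / hs x e = x ^ (e + (1 / 4 + 3 * e)) := by
    rw [hs, ← rpow_sub hx0, sub_neg_eq_add]
  have hm : x * hs x e = x ^ (1 + -(1 / 4 + 3 * e)) := by rw [hs, rpow_add hx0, rpow_one]
  rw [hd, hm]
  refine ⟨rpow_pos_of_pos hx0 _, pw (by linarith), rpow_le_one_of_one_le_of_nonpos hx (by linarith),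
    one_le_rpow hx he.le, by simpa using pw (show e ≤ 1 by linarith),
    by simpa using pw (show e + (1 / 4 + 3 * e) ≤ 1 by linarith), one_le_rpow hx (by linarith),
    one_le_rpow hx (by linarith), pw (by linarith), ?_⟩
  rw [one_div, ← rpow_neg_one]
  exact pw (by linarith)

/-- The algorithm against the Euler chain. -/
theorem termA {x e Cq eps c3 : ℝ} {d J₃ N : ℕ} (hx : 1 ≤ x) (he : 0 < e) (he8 : e ≤ 1 / 8)
    (hd : (d : ℝ) ≤ x) (hCq : 0 ≤ Cq) (hc3 : 1 ≤ c3) (heps0 : 0 ≤ eps)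
    (heps : eps ≤ Cq * (x ^ e / x ^ (3 : ℝ))) (hJ : (J₃ : ℝ) ≤ c3 * x ^ e)
    (hN : (N : ℝ) ≤ 2 * (x ^ e / hs x e)) :
    12 * √(d : ℝ) * hs x e * (8 * hs x e ^ 2 + eps) * (J₃ + 3 * √N)
      * (2 + 5 * hs x e * (N + 2)) ≤ 12 * (8 + Cq) * (c3 + 6) * 22 * x ^ (-e) := by
  obtain ⟨hh, -, hh1, hu, -, -, -, -, -, -⟩ := hs_facts hx he he8
  have hx0 : 0 < x := by linarith
  set u : ℝ := x ^ e with hudef
  set h : ℝ := hs x e with hhdef
  set s : ℝ := x ^ ((1 / 4 + 3 * e) / 2) with hsdef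
  have hs1 : 1 ≤ s := one_le_rpow hx (by positivity)
  have hu0 : 0 < u := by linarith
  have hus : u / h = u * (s * s) := by
    have hss : s * s = x ^ (1 / 4 + 3 * e) := by
      rw [hsdef, ← rpow_add hx0, add_halves]
    rw [hss, hhdef, hs, rpow_neg hx0.le, div_inv_eq_mul]
  have hsN : √(N : ℝ) ≤ 2 * u * s := by
    rw [sqrt_le_left (by positivity)]
    calc (N : ℝ) ≤ 2 * (u * (s * s)) := by rwa [← hus]
      _ ≤ 4 * (u * u * (s * s)) := by nlinarith [mul_pos (lt_of_lt_of_le one_pos hs1) (lt_of_lt_of_le one_pos hs1)]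
      _ = (2 * u * s) ^ 2 := by ring
  have hJ' : (J₃ : ℝ) + 3 * √N ≤ (c3 + 6) * u * s := by
    have : c3 * u ≤ c3 * u * s := le_mul_of_one_le_right (by positivity) hs1
    linarith
  have heps' : 8 * h ^ 2 + eps ≤ (8 + Cq) * h ^ 2 := by
    have : u / x ^ (3 : ℝ) ≤ h ^ 2 := by
      rw [hudef, hhdef, hs, ← rpow_sub hx0, ← rpow_two, ← rpow_mul hx0.le]
      exact rpow_le_rpow_of_exponent_le hx (by linarith)
    have : Cq * (u / x ^ (3 : ℝ)) ≤ Cq * h ^ 2 := by gcongr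
    linarith
  have hF : 2 + 5 * h * (N + 2) ≤ 22 * u := by
    have := mul_le_mul_of_nonneg_left hN hh.le
    rw [show h * (2 * (u / h)) = 2 * u by field_simp] at this
    linarith
  have hsx : √x * h * (h ^ 2 * s) * (u * u) ≤ x ^ (-e) := by
    rw [sqrt_eq_rpow, hudef, hhdef, hs, hsdef, ← rpow_two, ← rpow_mul hx0.le, ← rpow_add hx0,
      ← rpow_add hx0, ← rpow_add hx0, ← rpow_add hx0, ← rpow_add hx0]
    exact rpow_le_rpow_of_exponent_le hx (by linarith)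
  calc 12 * √(d : ℝ) * h * (8 * h ^ 2 + eps) * (J₃ + 3 * √N) * (2 + 5 * h * (N + 2))
      ≤ 12 * √x * h * ((8 + Cq) * h ^ 2) * ((c3 + 6) * u * s) * (22 * u) := by gcongr
    _ = 12 * (8 + Cq) * (c3 + 6) * 22 * (√x * h * (h ^ 2 * s) * (u * u)) := by ring
    _ ≤ _ := by gcongr

/-- The bias of the Euler chains. -/
theorem termB {x e Cq cL c3 : ℝ} {d L J₃ N : ℕ} (hx : 1 ≤ x) (he : 0 < e) (he8 : e ≤ 1 / 8)
    (hd : (d : ℝ) ≤ x) (hcL : 1 ≤ cL) (hc3 : 1 ≤ c3)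
    (hL : (L : ℝ) + 1 ≤ cL * x ^ e) (hJ : (J₃ : ℝ) ≤ c3 * x ^ e)
    (hN : (N : ℝ) ≤ 2 * (x ^ e / hs x e)) :
    hs x e ^ 2 * (4 * √(d : ℝ) * ((Cq * x ^ e) ^ 2 + 4)
        + 1500 * (L + 1) * (1 + x ^ e) * (hs x e ^ 2 * d))
      * (4 * J₃ + 4 * (2 + log N) + 8 * hs x e * N) * (2 + 5 * hs x e * (N + 2))
      ≤ (4 * (Cq ^ 2 + 4) + 3000 * cL) * (4 * c3 + 8 + 4 * (1 + 1 / e) + 16) * 22 * x ^ (-e) := by
  obtain ⟨hh, -, hh1, hu, -, huhx, -, -, -, -⟩ := hs_facts hx he he8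
  have hx0 : 0 < x := by linarith
  set u : ℝ := x ^ e with hudef
  set h : ℝ := hs x e with hhdef
  have hu0 : 0 < u := by linarith
  have hhN := mul_le_mul_of_nonneg_left hN hh.le
  rw [show h * (2 * (u / h)) = 2 * u by field_simp] at hhN
  have hF : 2 + 5 * h * (N + 2) ≤ 22 * u := by linarith
  have hlN : log (N : ℝ) ≤ (1 + 1 / e) * u := by
    have h0 : (1 + 1 / e) * u = u + u / e := by ring
    rcases Nat.eq_zero_or_pos N with hN0 | hN0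
    · subst hN0
      simp only [Nat.cast_zero, log_zero]
      positivity
    have h1 : (N : ℝ) ≤ 2 * x := by linarith
    have h2 := log_le_log (by exact_mod_cast hN0) h1
    rw [log_mul two_ne_zero hx0.ne'] at h2
    have h3 : log x ≤ u / e := log_le_rpow_div hx0.le he
    linarith [log_two_lt_d9]
  have hlN0 : 0 ≤ log (N : ℝ) := log_natCast_nonneg N
  have hh2 : h ^ 2 * (d : ℝ) ≤ √x := by
    calc h ^ 2 * (d : ℝ) ≤ h ^ 2 * x := by gcongr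
      _ = x ^ (-(1 / 4 + 3 * e) * 2 + 1) := by
          rw [hhdef, hs, rpow_add hx0, rpow_mul hx0.le, rpow_two, rpow_one]
      _ ≤ x ^ ((1 : ℝ) / 2) := rpow_le_rpow_of_exponent_le hx (by linarith)
      _ = √x := (sqrt_eq_rpow x).symm
  have hbr : 4 * √(d : ℝ) * ((Cq * u) ^ 2 + 4) + 1500 * (L + 1) * (1 + u) * (h ^ 2 * d)
      ≤ (4 * (Cq ^ 2 + 4) + 3000 * cL) * √x * (u * u) := by
    have h1 : (Cq * u) ^ 2 + 4 ≤ (Cq ^ 2 + 4) * (u * u) := by nlinarith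
    have h2 : 1 + u ≤ 2 * u := by linarith
    calc 4 * √(d : ℝ) * ((Cq * u) ^ 2 + 4) + 1500 * (L + 1) * (1 + u) * (h ^ 2 * d)
        ≤ 4 * √x * ((Cq ^ 2 + 4) * (u * u)) + 1500 * (cL * u) * (2 * u) * √x := by gcongr
      _ = _ := by ring
  have hlast : 4 * (J₃ : ℝ) + 4 * (2 + log N) + 8 * h * N ≤
      (4 * c3 + 8 + 4 * (1 + 1 / e) + 16) * u := by linarith
  have hsx : h ^ 2 * √x * (u * u) * (u * u) ≤ x ^ (-e) := by
    rw [sqrt_eq_rpow, hudef, hhdef, hs, ← rpow_two, ← rpow_mul hx0.le, ← rpow_add hx0,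
      ← rpow_add hx0, ← rpow_add hx0, ← rpow_add hx0]
    exact rpow_le_rpow_of_exponent_le hx (by linarith)
  calc h ^ 2 * (4 * √(d : ℝ) * ((Cq * u) ^ 2 + 4) + 1500 * (L + 1) * (1 + u) * (h ^ 2 * d))
        * (4 * J₃ + 4 * (2 + log N) + 8 * h * N) * (2 + 5 * h * (N + 2))
      ≤ h ^ 2 * ((4 * (Cq ^ 2 + 4) + 3000 * cL) * √x * (u * u))
        * ((4 * c3 + 8 + 4 * (1 + 1 / e) + 16) * u) * (22 * u) := by gcongr
    _ = (4 * (Cq ^ 2 + 4) + 3000 * cL) * (4 * c3 + 8 + 4 * (1 + 1 / e) + 16) * 22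
        * (h ^ 2 * √x * (u * u) * (u * u)) := by ring
    _ ≤ _ := by gcongr

/-- The last round. -/
theorem termC {x e c3 β : ℝ} {d J₃ N n : ℕ} (hx : 1 ≤ x) (he : 0 < e) (he8 : e ≤ 1 / 8)
    (hd : (d : ℝ) ≤ x) (hc3 : 1 ≤ c3) (hT : (2 : ℝ) ^ J₃ ≤ 2 * x)
    (hJ : (J₃ : ℝ) + 1 ≤ c3 * x ^ e) (hN : (N : ℝ) ≤ 2 * (x ^ e / hs x e))
    (hn : (n : ℝ) * (1 - β) = x ^ e) (hn16 : x ^ 16 ≤ (n : ℝ)) (hβ : 0 ≤ β) (hβ1 : β ≤ 1) :
    100 * ((J₃ : ℝ) + N + 1) * (√(2 ^ (J₃ + 1) / hs x e)) * d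
      * (β ^ n + n * (1 - β) ^ (3 / 2 : ℝ)) ≤ 100 * (c3 + 2) * 2 * (cE e + 1) * x ^ (-e) := by
  obtain ⟨hh, -, -, hu, hux, huhx, -, -, hule, hinvx⟩ := hs_facts hx he he8
  have hdec := exp_decay hx he
  have hE0 := cE_nonneg e
  have hx0 : 0 < x := by linarith
  set u : ℝ := x ^ e
  set h : ℝ := hs x e
  have hn0 : (0 : ℝ) < n := lt_of_lt_of_le (by positivity) hn16
  have hb : 1 - β = u / n := by rw [← hn]; field_simp
  have hix0 : 0 ≤ 1 / x := by positivity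
  have hix1 : 1 / x ≤ 1 := (div_le_one hx0).2 hx
  have h1 : (J₃ : ℝ) + N + 1 ≤ (c3 + 2) * x := by
    have : (c3 + 2) * (u / h) ≤ (c3 + 2) * x := by gcongr
    have : c3 * u ≤ c3 * (u / h) := by gcongr
    linarith
  have h2 : √((2 : ℝ) ^ (J₃ + 1) / h) ≤ 2 * x := by
    rw [sqrt_le_left (by positivity), pow_succ']
    have : 1 / h ≤ x := le_trans (div_le_div_of_nonneg_right hu hh.le) huhx
    calc 2 * (2 : ℝ) ^ J₃ / h = 2 * 2 ^ J₃ * (1 / h) := by ring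
      _ ≤ 2 * (2 * x) * x := by gcongr
      _ = (2 * x) ^ 2 := by ring
  have h3 : β ^ n ≤ cE e / x ^ 6 := by
    have : β ≤ exp (-(u / n)) := by linarith [add_one_le_exp (-(u / (n : ℝ)))]
    calc β ^ n ≤ exp (-(u / n)) ^ n := pow_le_pow_left₀ hβ this n
      _ = exp (-u) := by
          rw [← exp_nat_mul]
          congr 1
          field_simp
      _ ≤ exp (-(u / 2)) := exp_le_exp.2 (by linarith)
      _ ≤ _ := hdec
  have h4 : (n : ℝ) * (1 - β) ^ (3 / 2 : ℝ) ≤ 1 / x ^ 6 := by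
    rw [show (3 / 2 : ℝ) = 1 + 1 / 2 by norm_num, rpow_add' (by linarith) (by norm_num), rpow_one,
      ← sqrt_eq_rpow, ← mul_assoc, hn, hb]
    have hr : √(u / n) ≤ (1 / x) ^ 7 := by
      rw [sqrt_le_left (by positivity), ← pow_mul, div_pow, one_pow,
        div_le_div_iff₀ hn0 (by positivity), one_mul]
      calc u * x ^ (7 * 2) ≤ x * x ^ (7 * 2) := by gcongr
        _ = x ^ 15 := by ring
        _ ≤ x ^ 16 := pow_le_pow_right₀ hx (by norm_num)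
        _ ≤ n := hn16
    calc u * √(u / n) ≤ x * (1 / x) ^ 7 := by gcongr
      _ = 1 / x ^ 6 := by field_simp
  have h5 : 0 ≤ 1 - β := by linarith
  calc 100 * ((J₃ : ℝ) + N + 1) * (√(2 ^ (J₃ + 1) / h)) * d
        * (β ^ n + n * (1 - β) ^ (3 / 2 : ℝ))
      ≤ 100 * ((c3 + 2) * x) * (2 * x) * x * (cE e / x ^ 6 + 1 / x ^ 6) := by gcongr
    _ = 100 * (c3 + 2) * 2 * (cE e + 1) * (1 / x) ^ 3 := by field_simp
    _ ≤ 100 * (c3 + 2) * 2 * (cE e + 1) * (1 / x) := by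
        gcongr
        exact pow_le_of_le_one hix0 hix1 (by norm_num)
    _ ≤ _ := by gcongr

/-- The start. -/
theorem termE {x e : ℝ} {d N : ℕ} (hx : 1 ≤ x) (he : 0 < e) (he8 : e ≤ 1 / 8)
    (hd : (d : ℝ) ≤ x) (hN : x ^ e / hs x e ≤ N) :
    (1 / (1 + hs x e)) ^ N * (2 / √(hs x e)) * √(8 * (d : ℝ)) ≤ 2 * 3 * cE e * x ^ (-e) := by
  obtain ⟨hh, -, hh1, hu, -, -, -, hxh, -, hinvx⟩ := hs_facts hx he he8
  have hdec := exp_decay hx he
  have hE0 := cE_nonneg e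
  have hx0 : 0 < x := by linarith
  set u : ℝ := x ^ e
  set h : ℝ := hs x e
  have hhN := mul_le_mul_of_nonneg_left hN hh.le
  rw [show h * (u / h) = u by field_simp] at hhN
  have h1 : 1 / (1 + h) ≤ exp (-(h / 2)) := by
    have h' : 1 - h / 2 ≤ exp (-(h / 2)) := by linarith [add_one_le_exp (-(h / 2))]
    refine le_trans ?_ h'
    rw [div_le_iff₀ (by linarith)]
    nlinarith
  have h2 : (1 / (1 + h)) ^ N ≤ cE e / x ^ 6 := by
    calc (1 / (1 + h)) ^ N ≤ exp (-(h / 2)) ^ N := pow_le_pow_left₀ (by positivity) h1 N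
      _ = exp (-(h * N / 2)) := by
          rw [← exp_nat_mul]
          congr 1
          ring
      _ ≤ exp (-(u / 2)) := exp_le_exp.2 (by linarith)
      _ ≤ _ := hdec
  have h3 : 2 / √h ≤ 2 * x := by
    rw [div_le_iff₀ (sqrt_pos.2 hh), mul_assoc]
    have hhs : h ≤ √h := le_sqrt_of_sq_le (by nlinarith)
    have : 1 ≤ x * √h := le_trans hxh (mul_le_mul_of_nonneg_left hhs hx0.le)
    linarith
  have h4 : √(8 * (d : ℝ)) ≤ 3 * x := by
    rw [sqrt_le_left (by positivity)]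
    nlinarith
  have hix1 : 1 / x ≤ 1 := (div_le_one hx0).2 hx
  calc (1 / (1 + h)) ^ N * (2 / √h) * √(8 * (d : ℝ))
      ≤ cE e / x ^ 6 * (2 * x) * (3 * x) := by gcongr
    _ = 2 * 3 * cE e * (1 / x) ^ 4 := by field_simp
    _ ≤ 2 * 3 * cE e * (1 / x) := by
        gcongr
        exact pow_le_of_le_one (by positivity) hix1 (by norm_num)
    _ ≤ _ := by gcongr

/-- The cost. -/
theorem termCost {x e cJ cL c3 : ℝ} {p M J L N J₃ : ℕ} (hx : 1 ≤ x) (he : 0 < e) (he8 : e ≤ 1 / 8)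
    (hcL : 1 ≤ cL) (hc3 : 1 ≤ c3) (hJ : (J : ℝ) + 1 ≤ cJ * x ^ e)
    (hcJ : 1 ≤ cJ) (hM : (M : ℝ) ≤ 2 * x ^ e) (hL : (L : ℝ) + 1 ≤ cL * x ^ e)
    (hT : (J₃ : ℝ) ≤ c3 * x ^ e) (hN : (N : ℝ) ≤ 2 * (x ^ e / hs x e)) :
    40 * totalCost p M J L N J₃ + 2 ≤
      (40 * ((2 + c3) * (2 * cJ * p + 10 * cL + 1) + 2) + 2) * x ^ (1 / 4 + 6 * e) := by
  obtain ⟨hh, -, -, hu, -, -, -, -, hule, -⟩ := hs_facts hx he he8
  have hx0 : 0 < x := by linarith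
  have hu3 : x ^ e / hs x e * (x ^ e * x ^ e) = x ^ (1 / 4 + 6 * e) := by
    rw [hs, ← rpow_sub hx0, ← rpow_add hx0, ← rpow_add hx0]
    congr 1
    ring
  set u : ℝ := x ^ e
  set h : ℝ := hs x e
  have huu : u ≤ u * u := le_mul_of_one_le_right (by linarith) hu
  have h1 : (N : ℝ) + J₃ ≤ (2 + c3) * (u / h) := by
    have : c3 * u ≤ c3 * (u / h) := by gcongr
    linarith
  have h2 : ((J : ℝ) + 1) * (p * M) + 10 * (L + 1) + 1 ≤
      (2 * cJ * p + 10 * cL + 1) * (u * u) := by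
    have : ((J : ℝ) + 1) * (p * M) ≤ cJ * u * (p * (2 * u)) := by gcongr
    have : cL * u ≤ cL * (u * u) := by gcongr
    linarith
  have h3 : 1 ≤ x ^ (1 / 4 + 6 * e) := one_le_rpow hx (by positivity)
  rw [totalCost]
  have h4 : ((N : ℝ) + J₃) * (((J : ℝ) + 1) * (p * M) + 10 * (L + 1) + 1) ≤
      (2 + c3) * (2 * cJ * p + 10 * cL + 1) * x ^ (1 / 4 + 6 * e) := by
    rw [← hu3]
    calc ((N : ℝ) + J₃) * (((J : ℝ) + 1) * (p * M) + 10 * (L + 1) + 1)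
        ≤ (2 + c3) * (u / h) * ((2 * cJ * p + 10 * cL + 1) * (u * u)) := by gcongr
      _ = _ := by ring
  linarith

/-- The total constant of the error. -/
def kErr (e Cq cL c3 : ℝ) : ℝ :=
  12 * (8 + Cq) * (c3 + 6) * 22
    + (4 * (Cq ^ 2 + 4) + 3000 * cL) * (4 * c3 + 8 + 4 * (1 + 1 / e) + 16) * 22
    + 100 * (c3 + 2) * 2 * (cE e + 1) + 25 + 2 * 3 * cE e

/-- All bounds at a scale `x`. -/
theorem core {x e Cq : ℝ} {p d : ℕ} (he : 0 < e) (he8 : e ≤ 1 / 8) (hp : 3 / e ≤ (p : ℝ))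
    (hCq : 0 ≤ Cq) (hx : 1 ≤ x) (hsmall : x ^ (-e) ≤ 1 / 8) (hd : (d : ℝ) ≤ x) :
    ∃ (M J L N J₃ : ℕ) (h β : ℝ),
      1 ≤ M ∧ p * M * 2 ^ J ≤ 2 ^ L ∧ 2 ^ L ≤ 2 * (p * M * 2 ^ J) ∧ 1 ≤ N ∧
      0 < h ∧ h ≤ 1 / 8 ∧ 2 / 3 ≤ β ∧ β < 1 ∧
      h * (wQ Cq (p * M * 2 ^ J) β ^ 2
        + (L + 1) * (1 + (p * M * 2 ^ J : ℕ) * (1 - β))) ≤
          (Cq ^ 2 + 2 * lc (8 * p) 17 e) * x ^ (-e) ∧
      totalErr Cq p M d (p * M * 2 ^ J) L N J₃ h β ≤
        kErr e Cq (lc (8 * p) 17 e) (lc 2 1 e) * x ^ (-e) ∧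
      40 * totalCost p M J L N J₃ + 2 ≤ (40 * ((2 + lc 2 1 e) *
        (2 * lc 2 16 e * p + 10 * lc (8 * p) 17 e + 1) + 2) + 2) * x ^ (1 / 4 + 6 * e) := by
  obtain ⟨hh, hhe, hh1, hu, hux, huhx, huh1, -, hule, hinvx⟩ := hs_facts hx he he8
  have hp1 : (1 : ℝ) ≤ p := by
    refine le_trans ?_ hp
    rw [le_div_iff₀ he]
    linarith
  have hx0 : 0 < x := by linarith
  have hu0 : 0 < x ^ e := by linarith
  have hcL := one_le_lc (a := 17) (show 1 ≤ 8 * (p : ℝ) by linarith) he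
  have hc3 := one_le_lc (a := 1) one_le_two he
  have hcJ := one_le_lc (a := 16) one_le_two he
  set M : ℕ := ⌈x ^ e⌉₊
  set N : ℕ := ⌈x ^ e / hs x e⌉₊
  have hMu : x ^ e ≤ M := Nat.le_ceil _
  have hM2 : (M : ℝ) ≤ 2 * x ^ e := by linarith [Nat.ceil_lt_add_one hu0.le]
  have hM1 : 1 ≤ M := Nat.ceil_pos.2 hu0
  have hNu : x ^ e / hs x e ≤ N := Nat.le_ceil _
  have hN2 : (N : ℝ) ≤ 2 * (x ^ e / hs x e) := by
    linarith [Nat.ceil_lt_add_one (show 0 ≤ x ^ e / hs x e by linarith)]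
  have hN1 : 1 ≤ N := Nat.ceil_pos.2 (by linarith)
  obtain ⟨J, hJ1, hJ2⟩ := two_pow_near (one_le_pow₀ (n := 16) hx)
  obtain ⟨J₃, hT1, hT2⟩ := two_pow_near hx
  set n : ℕ := p * M * 2 ^ J with hndef
  have hn16 : x ^ 16 ≤ (n : ℝ) := by
    have h1 : (1 : ℝ) ≤ (p : ℝ) * M := one_le_mul_of_one_le_of_one_le hp1 (by exact_mod_cast hM1)
    calc x ^ 16 ≤ (2 : ℝ) ^ J := hJ1
      _ ≤ (p : ℝ) * M * 2 ^ J := le_mul_of_one_le_left (by positivity) h1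
      _ = n := by rw [hndef]; push_cast; rfl
  have hn0 : (0 : ℝ) < n := lt_of_lt_of_le (by positivity) hn16
  have hnn : n ≠ 0 := by
    intro h0
    simp [h0] at hn0
  have hn17 : (n : ℝ) ≤ 4 * p * x ^ 17 := by
    rw [hndef]
    push_cast
    calc (p : ℝ) * M * 2 ^ J ≤ p * (2 * x) * (2 * x ^ 16) := by
          gcongr
          linarith
      _ = 4 * p * x ^ 17 := by ring
  set L : ℕ := Nat.log 2 n + 1 with hLdef
  have hL1 : n ≤ 2 ^ L := (Nat.lt_pow_succ_log_self one_lt_two n).le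
  have hL2 : 2 ^ L ≤ 2 * n := by
    rw [hLdef, pow_succ']
    exact Nat.mul_le_mul_left _ (Nat.pow_log_le_self 2 hnn)
  have hJb : (J : ℝ) + 1 ≤ lc 2 16 e * x ^ e := exp_bound hx he one_le_two hJ2
  have hTb : (J₃ : ℝ) + 1 ≤ lc 2 1 e * x ^ e :=
    exp_bound hx he one_le_two (by rwa [pow_one])
  have hLb : (L : ℝ) + 1 ≤ lc (8 * p) 17 e * x ^ e := by
    refine exp_bound hx he (by linarith) ?_
    have : ((2 ^ L : ℕ) : ℝ) ≤ ((2 * n : ℕ) : ℝ) := by exact_mod_cast hL2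
    push_cast at this
    linarith
  set β : ℝ := 1 - x ^ e / n with hβdef
  have hb : 1 - β = x ^ e / n := by rw [hβdef]; ring
  have hT : (n : ℝ) * (1 - β) = x ^ e := by rw [hb]; field_simp
  have hb3 : x ^ e / n ≤ 1 / 8 := by
    refine le_trans ?_ (hinvx.trans hsmall)
    rw [div_le_div_iff₀ hn0 hx0, one_mul]
    calc x ^ e * x ≤ x * x := by gcongr
      _ = x ^ 2 := by ring
      _ ≤ x ^ 16 := pow_le_pow_right₀ hx (by norm_num)
      _ ≤ n := hn16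
  have hb0 : 0 < x ^ e / n := by positivity
  have hw : wQ Cq n β = Cq * x ^ e := by
    rw [wQ, hb]
    field_simp
  have heps : epsQ Cq p M n β ≤ Cq * (x ^ e / x ^ (3 : ℝ)) := by
    have hMp : x ^ (3 : ℝ) ≤ (M : ℝ) ^ p := by
      calc x ^ (3 : ℝ) ≤ x ^ (e * p) :=
            rpow_le_rpow_of_exponent_le hx (by rw [div_le_iff₀ he] at hp; linarith)
        _ = (x ^ e) ^ p := by rw [← rpow_natCast, ← rpow_mul hx0.le]
        _ ≤ (M : ℝ) ^ p := by gcongr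
    calc epsQ Cq p M n β = Cq * (x ^ e / (M : ℝ) ^ p) := by
          rw [epsQ, hb]
          field_simp
      _ ≤ _ := by gcongr
  have heps0 : 0 ≤ epsQ Cq p M n β := by
    rw [epsQ, hb]
    positivity
  refine ⟨M, J, L, N, J₃, hs x e, β, hM1, hL1, hL2, hN1, hh, hhe.trans hsmall, by linarith,
    by linarith, ?_, ?_, ?_⟩
  · rw [hw, hT]
    calc hs x e * ((Cq * x ^ e) ^ 2 + (L + 1) * (1 + x ^ e))
        ≤ hs x e * ((Cq * x ^ e) ^ 2 + lc (8 * p) 17 e * x ^ e * (2 * x ^ e)) := by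
          gcongr
          linarith
      _ = (Cq ^ 2 + 2 * lc (8 * p) 17 e) * (hs x e * x ^ e * x ^ e) := by ring
      _ ≤ _ := by
          gcongr
          rw [hs, ← rpow_add hx0, ← rpow_add hx0]
          exact rpow_le_rpow_of_exponent_le hx (by linarith)
  · have hA := termA hx he he8 hd hCq hc3 heps0 heps (J₃ := J₃) (by linarith) hN2
    have hB := termB (Cq := Cq) hx he he8 hd hcL hc3 hLb (J₃ := J₃) (by linarith) hN2
    have hC := termC (β := β) hx he he8 hd hc3 hT2 hTb hN2 hT hn16 (by linarith) (by linarith)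
    have hD : 50 * (hs x e / 2 ^ (J₃ + 1)) * d ≤ 25 * x ^ (-e) := by
      calc 50 * (hs x e / 2 ^ (J₃ + 1)) * (d : ℝ) ≤ 50 * (hs x e / (2 * x)) * x := by
            gcongr
            rw [pow_succ']
            linarith
        _ = 25 * hs x e := by field_simp; norm_num
        _ ≤ 25 * x ^ (-e) := by gcongr
    have hE := termE hx he he8 hd hNu
    rw [totalErr, bracket, hw, hT, add_mul, kErr]
    linarith
  · exact termCost hx he he8 hcL hc3 hJb hcJ hM2 hLb (by linarith) hN2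

end Par

/-- Parameters with exponent `1/4 + γ`. -/
theorem parameters {γ : ℝ} (hγ : 0 < γ) : ∃ p : ℕ, 1 ≤ p ∧ ∀ Cq : ℝ, 0 ≤ Cq → ∃ C : ℝ,
    ∀ d : ℕ, 2 ≤ d → ∃ (M J L N J₃ : ℕ) (h β : ℝ),
      1 ≤ M ∧ p * M * 2 ^ J ≤ 2 ^ L ∧ 2 ^ L ≤ 2 * (p * M * 2 ^ J) ∧ 1 ≤ N ∧
      0 < h ∧ h ≤ 1 / 8 ∧ 2 / 3 ≤ β ∧ β < 1 ∧
      h * (wQ Cq (p * M * 2 ^ J) β ^ 2
        + (L + 1) * (1 + (p * M * 2 ^ J : ℕ) * (1 - β))) ≤ 1 / 5000 ∧
      totalErr Cq p M d (p * M * 2 ^ J) L N J₃ h β ≤ 1 / 20 ∧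
      40 * totalCost p M J L N J₃ + 2 ≤ C * (d : ℝ) ^ ((1 : ℝ) / 4 + γ) := by
  set e : ℝ := min γ 1 / 8 with hedef
  have he : 0 < e := by
    have : 0 < min γ 1 := lt_min hγ one_pos
    positivity
  have he8 : e ≤ 1 / 8 := by
    rw [hedef]
    linarith [min_le_right γ 1]
  have he6 : 6 * e ≤ γ := by
    rw [hedef]
    linarith [min_le_left γ 1]
  refine ⟨⌈3 / e⌉₊, Nat.ceil_pos.2 (by positivity), fun Cq hCq => ?_⟩
  set p : ℕ := ⌈3 / e⌉₊ with hpdef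
  have hp : 3 / e ≤ (p : ℝ) := Nat.le_ceil _
  have hp1 : (1 : ℝ) ≤ p := by exact_mod_cast Nat.ceil_pos.2 (show (0 : ℝ) < 3 / e by positivity)
  have hcL := Par.one_le_lc (a := 17) (show 1 ≤ 8 * (p : ℝ) by linarith) he
  have hc3 := Par.one_le_lc (a := 1) one_le_two he
  have hcJ := Par.one_le_lc (a := 16) one_le_two he
  have hE0 := Par.cE_nonneg e
  set cL : ℝ := Par.lc (8 * p) 17 e
  set c3 : ℝ := Par.lc 2 1 e
  set kc : ℝ := 40 * ((2 + c3) * (2 * Par.lc 2 16 e * p + 10 * cL + 1) + 2) + 2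
  set k : ℝ := Cq ^ 2 + 2 * cL + Par.kErr e Cq cL c3 with hkdef
  have hk0 : 0 ≤ Par.kErr e Cq cL c3 := by
    rw [Par.kErr]
    positivity
  have hk1 : 0 ≤ Cq ^ 2 + 2 * cL := by positivity
  set R : ℝ := (5000 * (1 + k)) ^ (1 / e) with hRdef
  have hR : 1 ≤ R := one_le_rpow (by linarith) (by positivity)
  have hRe : R ^ (-e) = 1 / (5000 * (1 + k)) := by
    rw [hRdef, ← rpow_mul (by linarith), show 1 / e * -e = -1 by field_simp, rpow_neg_one,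
      one_div]
  refine ⟨kc * R ^ (1 / 4 + 6 * e), fun d hd => ?_⟩
  have hd1 : (1 : ℝ) ≤ d := by exact_mod_cast le_trans one_le_two hd
  set x : ℝ := R * d with hxdef
  have hxR : R ≤ x := le_mul_of_one_le_right (by linarith) hd1
  have hxd : (d : ℝ) ≤ x := le_mul_of_one_le_left (by linarith) hR
  have hxe0 : 0 ≤ x ^ (-e) := rpow_nonneg (by linarith) _
  have hcx : (1 + k) * x ^ (-e) ≤ 1 / 5000 := by
    calc (1 + k) * x ^ (-e) ≤ (1 + k) * R ^ (-e) := by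
          gcongr (1 + k) * ?_
          exact rpow_le_rpow_of_nonpos (by linarith) hxR (by linarith)
      _ = 1 / 5000 := by
          have : (1 + k) ≠ 0 := by linarith
          rw [hRe]
          field_simp
  rw [hkdef] at hcx
  have hA : 0 ≤ (Cq ^ 2 + 2 * cL) * x ^ (-e) := by positivity
  have hB : 0 ≤ Par.kErr e Cq cL c3 * x ^ (-e) := by positivity
  obtain ⟨M, J, L, N, J₃, h, β, h1, h2, h3, h4, h5, h6, h7, h8, h9, h10, h11⟩ :=
    Par.core he he8 hp hCq (show 1 ≤ x by linarith) (by linarith) hxd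
  refine ⟨M, J, L, N, J₃, h, β, h1, h2, h3, h4, h5, h6, h7, h8, h9.trans (by linarith),
    h10.trans (by linarith), h11.trans ?_⟩
  rw [mul_assoc kc, hxdef, mul_rpow (by linarith) (by linarith)]
  gcongr

end

end Vale.Agent.P347.Quarter
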