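import Vale.Agent.P347.Quarter.Defs

/-!
# P347, exponent 1/4: rotations and reversal of the stationary autoregression
-/

namespace Vale.Agent.P347.Quarter

open MeasureTheory ProbabilityTheory Real WithLp
open scoped RealInnerProductSpace

noncomputable section

variable {d n : ℕ} {β : ℝ}

theorem sqrt_sq_aux (hβ : |β| ≤ 1) : √(1 - β ^ 2) ^ 2 = 1 - β ^ 2 :=
  sq_sqrt (sub_nonneg.2 ((sq_le_one_iff_abs_le_one β).2 hβ))

theorem pair_map (hβ : |β| ≤ 1) :
    MeasurePreserving (fun p : E d × E d => (β • p.1 + √(1 - β ^ 2) • p.2,
      √(1 - β ^ 2) • p.1 - β • p.2)) ((γ d).prod (γ d)) ((γ d).prod (γ d)) := by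
  set s := √(1 - β ^ 2)
  have hs : s ^ 2 = 1 - β ^ 2 := sqrt_sq_aux hβ
  have hm : Measurable fun p : E d × E d => (β • p.1 + s • p.2, s • p.1 - β • p.2) := by fun_prop
  refine ⟨hm, ?_⟩
  have : IsProbabilityMeasure (((γ d).prod (γ d)).map
      fun p : E d × E d => (β • p.1 + s • p.2, s • p.1 - β • p.2)) :=
    Measure.isProbabilityMeasure_map hm.aemeasurable
  refine charFun_eq_prod_iff.1 fun t => ?_
  rw [Measure.map_map (by fun_prop) hm]
  have key : charFun (((γ d).prod (γ d)).map (toLp 2))
      (toLp 2 (β • (ofLp t).1 + s • (ofLp t).2, s • (ofLp t).1 - β • (ofLp t).2))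
      = charFun (((γ d).prod (γ d)).map ((toLp 2) ∘ fun p : E d × E d =>
        (β • p.1 + s • p.2, s • p.1 - β • p.2))) t := by
    rw [charFun_apply, charFun_apply, integral_map (by fun_prop) (by fun_prop),
      integral_map (by fun_prop) (by fun_prop)]
    refine integral_congr_ae (ae_of_all _ fun p => ?_)
    simp only [Function.comp_apply, prod_inner_apply, inner_add_left, inner_sub_left,
      inner_add_right, inner_sub_right, inner_smul_left, inner_smul_right, RCLike.conj_to_real]
    push_cast
    ring_nf
  rw [← key, charFun_prod, ofLp_toLp]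
  simp only [γ, charFun_stdGaussian, ← Complex.exp_add]
  congr 1
  have e : ‖β • (ofLp t).1 + s • (ofLp t).2‖ ^ 2 + ‖s • (ofLp t).1 - β • (ofLp t).2‖ ^ 2
      = ‖(ofLp t).1‖ ^ 2 + ‖(ofLp t).2‖ ^ 2 := by
    rw [norm_add_sq_real, norm_sub_sq_real]
    simp only [norm_smul, mul_pow, norm_eq_abs, sq_abs, inner_smul_left, inner_smul_right,
      RCLike.conj_to_real, hs]
    ring
  have e' := congrArg (fun r : ℝ => (r : ℂ)) e
  push_cast at e'
  linear_combination (-1 / 2 : ℂ) * e'

theorem comb_map {a b : ℝ} (hab : a ^ 2 + b ^ 2 = 1) :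
    MeasurePreserving (fun p : E d × E d => a • p.1 + b • p.2) ((γ d).prod (γ d)) (γ d) := by
  have ha : |a| ≤ 1 := abs_le_one_iff_mul_self_le_one.2 (by nlinarith)
  have hb : √(1 - a ^ 2) = |b| := by rw [← hab, add_sub_cancel_left, sqrt_sq_eq_abs]
  have h := measurePreserving_fst.comp (pair_map (d := d) ha)
  rw [hb] at h
  rcases le_or_gt 0 b with hb0 | hb0
  · rw [abs_of_nonneg hb0] at h; exact h
  · rw [abs_of_neg hb0] at h
    have hn : MeasurePreserving (fun w : E d => -w) (γ d) (γ d) :=
      ⟨measurable_neg, stdGaussian_map (LinearIsometryEquiv.neg ℝ)⟩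
    convert h.comp ((MeasurePreserving.id _).prod hn) using 1
    funext p; simp

/-- The first increment moved into the start. -/
def headSplit (β : ℝ) (s : Seed d (n + 1)) : Seed d n × E d :=
  ((β • s.1 + √(1 - β ^ 2) • s.2 0, fun j => s.2 j.succ), √(1 - β ^ 2) • s.1 - β • s.2 0)

theorem measurePreserving_cons :
    MeasurePreserving (fun w : Fin (n + 1) → E d => (w 0, fun j : Fin n => w j.succ))
      (Measure.pi fun _ => γ d) ((γ d).prod (Measure.pi fun _ : Fin n => γ d)) := by
  have h := measurePreserving_piFinSuccAbove (fun _ : Fin (n + 1) => γ d) 0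
  convert h using 1
  funext w
  simp [MeasurableEquiv.piFinSuccAbove, Fin.insertNthEquiv, Fin.tail_def]

theorem measurePreserving_snoc :
    MeasurePreserving (fun w : Fin (n + 1) → E d => (w (Fin.last n), fun j : Fin n => w j.castSucc))
      (Measure.pi fun _ => γ d) ((γ d).prod (Measure.pi fun _ : Fin n => γ d)) := by
  have h := measurePreserving_piFinSuccAbove (fun _ : Fin (n + 1) => γ d) (Fin.last n)
  convert h using 1
  funext w
  simp [MeasurableEquiv.piFinSuccAbove, Fin.insertNthEquiv, Fin.init_def]

theorem headSplit_preserving (hβ : |β| ≤ 1) :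
    MeasurePreserving (headSplit (d := d) (n := n) β) (seed d (n + 1)) ((seed d n).prod (γ d)) := by
  unfold seed
  set ν := Measure.pi fun _ : Fin n => γ d
  have h1 : MeasurePreserving (fun s : Seed d (n + 1) => ((s.1, s.2 0), fun j : Fin n => s.2 j.succ))
      ((γ d).prod (Measure.pi fun _ => γ d)) (((γ d).prod (γ d)).prod ν) :=
    (measurePreserving_prodAssoc _ _ _).symm.comp
      ((MeasurePreserving.id _).prod measurePreserving_cons)
  have h2 : MeasurePreserving (fun p : (E d × E d) × (Fin n → E d) => ((p.1.1, p.2), p.1.2))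
      (((γ d).prod (γ d)).prod ν) (((γ d).prod ν).prod (γ d)) :=
    (measurePreserving_prodAssoc _ _ _).symm.comp
      (((MeasurePreserving.id (γ d)).prod Measure.measurePreserving_swap).comp
        (measurePreserving_prodAssoc _ _ _))
  exact h2.comp (((pair_map hβ).prod (MeasurePreserving.id ν)).comp h1)

theorem tailSplit_preserving :
    MeasurePreserving (fun s : Seed d (n + 1) =>
      (((s.1, fun j => s.2 j.castSucc), s.2 (Fin.last n)) : Seed d n × E d))
      (seed d (n + 1)) ((seed d n).prod (γ d)) := by
  unfold seed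
  exact (measurePreserving_prodAssoc _ _ _).symm.comp
    ((MeasurePreserving.id _).prod (Measure.measurePreserving_swap.comp measurePreserving_snoc))

theorem pad_succ (w : Fin (n + 1) → E d) (k : ℕ) :
    pad w (k + 1) = pad (fun j => w j.succ) k := by
  unfold pad
  by_cases hk : k < n
  · simp [hk]
  · simp [hk]

theorem pad_castSucc (w : Fin (n + 1) → E d) {k : ℕ} (hk : k < n) :
    pad w k = pad (fun j => w j.castSucc) k := by
  simp [pad, hk, hk.trans (Nat.lt_succ_self n)]

@[fun_prop]
theorem measurable_pad (k : ℕ) : Measurable fun w : Fin n → E d => pad w k := by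
  unfold pad; split_ifs <;> fun_prop

@[fun_prop]
theorem measurable_ou (β : ℝ) : ∀ k : ℕ, Measurable fun s : Seed d n => ou β s k
  | 0 => measurable_fst
  | k + 1 => by
    simp only [ou]
    exact ((measurable_ou β k).const_smul β).add
      (((measurable_pad k).comp measurable_snd).const_smul (√(1 - β ^ 2)))

theorem ou_head (s : Seed d (n + 1)) : ∀ k, ou β s (k + 1) = ou β (headSplit β s).1 k
  | 0 => by simp [ou, headSplit, pad]
  | k + 1 => by
    have ih := ou_head s k
    rw [ou, ih, pad_succ]; rfl

theorem ou_head_zero (hβ : |β| ≤ 1) (s : Seed d (n + 1)) :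
    ou β s 0 = β • (ou β (headSplit β s).1 0) + √(1 - β ^ 2) • (headSplit β s).2 := by
  have hs := sqrt_sq_aux hβ
  simp only [ou, headSplit]
  match_scalars <;> first | linear_combination hs | linear_combination -hs | ring

theorem ou_castSucc (s : Seed d (n + 1)) :
    ∀ {k : ℕ}, k ≤ n → ou β s k = ou β ((s.1, fun j => s.2 j.castSucc) : Seed d n) k
  | 0, _ => rfl
  | k + 1, hk => by rw [ou, ou, ou_castSucc s (k := k) (by omega), pad_castSucc s.2 (by omega)]

/-- The path, recorded up to time `n`. -/
def path (β : ℝ) (s : Seed d n) : Fin (n + 1) → E d := fun i => ou β s i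

@[fun_prop]
theorem measurable_path : Measurable (path β : Seed d n → _) :=
  measurable_pi_lambda _ fun i => measurable_ou β i

instance : IsProbabilityMeasure (seed d n) := by unfold seed; infer_instance

/-- The stationary path is reversible. -/
theorem map_reverse (hβ : |β| ≤ 1) : ∀ n : ℕ,
    (seed d n).map (fun s i => path β s i.rev) = (seed d n).map (path β)
  | 0 => by
    congr 1; funext s i
    rw [Subsingleton.elim (α := Fin 1) i.rev i]
  | n + 1 => by
    set s' := √(1 - β ^ 2)
    -- append a step to a path, or prepend one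
    let ext : (Fin (n + 1) → E d) × E d → Fin (n + 2) → E d := fun p =>
      Fin.snoc (α := fun _ => E d) p.1 (β • p.1 (Fin.last n) + s' • p.2)
    let pre : (Fin (n + 1) → E d) × E d → Fin (n + 2) → E d := fun p =>
      Fin.cons (β • p.1 0 + s' • p.2) p.1
    have hext : Measurable ext := measurable_pi_lambda _ fun i => by
      refine Fin.lastCases ?_ (fun j => ?_) i <;> simp [ext] <;> fun_prop
    have hpre : Measurable pre := measurable_pi_lambda _ fun i => by
      refine Fin.cases ?_ (fun j => ?_) i <;> simp [pre] <;> fun_prop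
    have e1 : (seed d (n + 1)).map (path β) = ((seed d n).prod (γ d)).map
        (fun p => ext (path β p.1, p.2)) := by
      rw [← tailSplit_preserving.map_eq,
        Measure.map_map (by fun_prop) tailSplit_preserving.measurable]
      congr 1; funext s i
      refine Fin.lastCases ?_ (fun j => ?_) i
      · simp [ext, path, ou, s', ou_castSucc s le_rfl, pad]
        rfl
      · simp [ext, path, ou_castSucc s (Nat.le_of_lt_succ j.isLt)]
    have e2 : (seed d (n + 1)).map (path β) = ((seed d n).prod (γ d)).map
        (fun p => pre (path β p.1, p.2)) := by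
      rw [← (headSplit_preserving hβ).map_eq,
        Measure.map_map (by fun_prop) (headSplit_preserving hβ).measurable]
      congr 1; funext s i
      refine Fin.cases ?_ (fun j => ?_) i
      · simp only [Function.comp_apply, pre, Fin.cons_zero, path, Fin.val_zero]
        exact ou_head_zero hβ s
      · simp [pre, path, ou_head]
    have hrev : Measurable fun x : Fin (n + 2) → E d => fun i : Fin (n + 2) => x i.rev := by fun_prop
    let rv : Seed d n → Fin (n + 1) → E d := fun s i => path β s i.rev
    have hrv : Measurable rv := by fun_prop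
    have e3 : (seed d (n + 1)).map (fun s (i : Fin (n + 2)) => path β s i.rev)
        = (((seed d n).map rv).prod (γ d)).map pre := by
      have hp : ((seed d n).map rv).prod (γ d)
          = ((seed d n).prod (γ d)).map (fun p => (rv p.1, p.2)) := by
        conv_lhs => rw [← Measure.map_id (μ := γ d)]
        exact Measure.map_prod_map _ _ hrv measurable_id
      rw [hp, Measure.map_map hpre (by fun_prop),
        show (fun s : Seed d (n + 1) => fun i : Fin (n + 2) => path β s i.rev)
          = (fun x : Fin (n + 2) → E d => fun i => x (Fin.rev i)) ∘ path β from rfl,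
        ← Measure.map_map hrev measurable_path, e1, Measure.map_map hrev (by fun_prop)]
      congr 1; funext p i
      refine Fin.cases ?_ (fun j => ?_) i
      · simp [pre, ext, rv]
      · simp [pre, ext, rv, Fin.rev_succ]
    have hp : ((seed d n).map (path β)).prod (γ d)
        = ((seed d n).prod (γ d)).map (fun p => (path β p.1, p.2)) := by
      conv_lhs => rw [← Measure.map_id (μ := γ d)]
      exact Measure.map_prod_map _ _ measurable_path measurable_id
    rw [e3, map_reverse hβ n, e2, hp, Measure.map_map hpre (by fun_prop)]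
    rfl

end

end Vale.Agent.P347.Quarter
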