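import Vale.Agent.P347.Quarter.Moments

/-!
# P347, exponent 1/4: the sparse quadrature rule and its transfer to the autoregression operator

The operator is positive and contractive in the Gaussian `L²`, so its correlations are a completely
monotone sequence; a Bernstein identity turns them into nonnegative weights on a grid of `[0, 1]`.
-/

namespace Vale.Agent.P347.Quarter

open MeasureTheory ProbabilityTheory Real Polynomial
open scoped RealInnerProductSpace

noncomputable section

variable {d : ℕ}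

/-! ### The scalar rule -/

theorem exp_neg_remainder (p : ℕ) :
    ∀ x : ℝ, 0 ≤ x →
      |rexp (-x) - ∑ k ∈ Finset.range p, (-x) ^ k / (k.factorial : ℝ)| ≤ x ^ p / (p.factorial : ℝ) := by
  induction p with
  | zero =>
    intro x hx
    simp [abs_of_pos (exp_pos _), hx]
  | succ p ih =>
    let R : ℕ → ℝ → ℝ := fun q x =>
      rexp (-x) - ∑ k ∈ Finset.range q, (-x) ^ k / (k.factorial : ℝ)
    let T : ℝ → ℝ := fun x => x ^ (p + 1) / ((p + 1).factorial : ℝ)
    have hT : ∀ x, HasDerivAt T (x ^ p / (p.factorial : ℝ)) x := fun x => by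
      refine ((hasDerivAt_pow (p + 1) x).div_const ((p + 1).factorial : ℝ)).congr_deriv ?_
      rw [Nat.factorial_succ]
      push_cast
      field_simp
    have hR : ∀ x, HasDerivAt (R (p + 1)) (-R p x) x := fun x => by
      have h1 : HasDerivAt (fun x => ∑ k ∈ Finset.range (p + 1), (-x) ^ k / (k.factorial : ℝ))
          (∑ k ∈ Finset.range (p + 1), (k : ℝ) * (-x) ^ (k - 1) * -1 / (k.factorial : ℝ)) x := by
        refine HasDerivAt.fun_sum fun k _ => ?_
        exact (((hasDerivAt_neg x).pow k).div_const _)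
      refine (((hasDerivAt_neg x).exp).sub h1).congr_deriv ?_
      rw [Finset.sum_range_succ']
      simp only [Nat.cast_zero, zero_mul, zero_div, add_zero, R]
      rw [show ∑ k ∈ Finset.range p, ((k + 1 : ℕ) : ℝ) * (-x) ^ (k + 1 - 1) * -1 / ((k + 1).factorial : ℝ)
          = -∑ k ∈ Finset.range p, (-x) ^ k / (k.factorial : ℝ) by
        rw [← Finset.sum_neg_distrib]
        refine Finset.sum_congr rfl fun k _ => ?_
        rw [Nat.factorial_succ]
        push_cast
        field_simp
        try simp]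
      ring
    have hR0 : R (p + 1) 0 = 0 := by
      simp [R, Finset.sum_range_succ']
    have hT0 : T 0 = 0 := by simp [T]
    have mono : ∀ σ : ℝ, |σ| = 1 → ∀ x : ℝ, 0 ≤ x → σ * R (p + 1) x ≤ T x := by
      intro σ hσ x hx
      have hd : ∀ y, HasDerivAt (fun y => T y - σ * R (p + 1) y)
          (y ^ p / (p.factorial : ℝ) - σ * -R p y) y := fun y => (hT y).sub ((hR y).const_mul σ)
      have hm : MonotoneOn (fun y => T y - σ * R (p + 1) y) (Set.Ici 0) := by
        refine monotoneOn_of_deriv_nonneg (convex_Ici 0)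
          (fun y _ => (hd y).continuousAt.continuousWithinAt)
          (fun y _ => (hd y).differentiableAt.differentiableWithinAt) fun y hy => ?_
        rw [(hd y).deriv]
        rw [interior_Ici] at hy
        have := ih y (le_of_lt hy)
        have h2 : |σ * -R p y| ≤ y ^ p / (p.factorial : ℝ) := by
          rw [abs_mul, hσ, one_mul, abs_neg]; exact this
        linarith [(abs_le.1 h2).2]
      have := hm (Set.self_mem_Ici) hx hx
      simp only [hR0, hT0, mul_zero, sub_zero] at this
      linarith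
    intro x hx
    have h1 := mono 1 (by simp) x hx
    have h2 := mono (-1) (by simp) x hx
    exact abs_le.2 ⟨by simp only [R, T] at h2; linarith, by simp only [R, T] at h1; linarith⟩

theorem sum_range_dyadic (N : ℕ) (f : ℕ → ℝ) : ∀ J : ℕ,
    ∑ i ∈ Finset.range (N * 2 ^ J), f i = ∑ i ∈ Finset.range N, f i +
      ∑ l ∈ Finset.range J, ∑ t ∈ Finset.range (N * 2 ^ l), f (N * 2 ^ l + t)
  | 0 => by simp
  | J + 1 => by
    rw [Finset.sum_range_succ, show N * 2 ^ (J + 1) = N * 2 ^ J + N * 2 ^ J by ring,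
      Finset.sum_range_add, sum_range_dyadic N f J]
    ring

theorem sum_range_cells (len : ℕ) (f : ℕ → ℝ) : ∀ M : ℕ,
    ∑ t ∈ Finset.range (M * len), f t =
      ∑ s ∈ Finset.range M, ∑ u ∈ Finset.range len, f (s * len + u)
  | 0 => by simp
  | M + 1 => by
    rw [Nat.succ_mul, Finset.sum_range_add, Finset.sum_range_succ, sum_range_cells len f M]

/-- The interpolation weights on the nodes `0, .., p - 1`. -/
def lag (p j : ℕ) : ℝ[X] := Lagrange.basis (Finset.range p) (fun i : ℕ => (i : ℝ)) j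

/-- A bound for the interpolation weights on `[0, p]`. -/
def lagBound (p : ℕ) : ℝ :=
  ∑ j ∈ Finset.range p, ∑ k ∈ Finset.range ((lag p j).natDegree + 1),
    |(lag p j).coeff k| * (p : ℝ) ^ k

theorem lag_le {p : ℕ} {t : ℝ} (h0 : 0 ≤ t) (h1 : t ≤ p) :
    ∑ j ∈ Finset.range p, |(lag p j).eval t| ≤ lagBound p := by
  refine Finset.sum_le_sum fun j _ => ?_
  rw [eval_eq_sum_range]
  refine (Finset.abs_sum_le_sum_abs _ _).trans (Finset.sum_le_sum fun k _ => ?_)
  rw [abs_mul, abs_pow, abs_of_nonneg h0]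
  exact mul_le_mul_of_nonneg_left (pow_le_pow_left₀ h0 h1 k) (abs_nonneg _)

/-- Interpolation of an exponential. -/
theorem lag_exp {p : ℕ} (hp : 1 ≤ p) {a t : ℝ} (ha : 0 ≤ a) (h0 : 0 ≤ t) (h1 : t ≤ p) :
    |rexp (-(a * t)) - ∑ j ∈ Finset.range p, (lag p j).eval t * rexp (-(a * j))|
      ≤ (1 + lagBound p) * ((a * p) ^ p / (p.factorial : ℝ)) := by
  let T : ℝ[X] := ∑ k ∈ Finset.range p, Polynomial.C ((-a) ^ k / (k.factorial : ℝ)) * X ^ k
  have hT : ∀ u : ℝ, T.eval u = ∑ k ∈ Finset.range p, (-(a * u)) ^ k / (k.factorial : ℝ) :=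
    fun u => by
      simp only [T, eval_finsetSum, eval_mul, eval_C, eval_pow, eval_X]
      refine Finset.sum_congr rfl fun k _ => ?_
      rw [← neg_mul, mul_pow]; ring
  have hdeg : T.degree < (Finset.range p).card := by
    rw [Finset.card_range]
    refine (degree_sum_le _ _).trans_lt ((Finset.sup_lt_iff ?_).2 fun k hk => ?_)
    · exact WithBot.bot_lt_coe p
    · exact (degree_C_mul_X_pow_le _ _).trans_lt (WithBot.coe_lt_coe.2 (Finset.mem_range.1 hk))
  have hinj : Set.InjOn (fun i : ℕ => (i : ℝ)) (Finset.range p : Finset ℕ) :=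
    Nat.cast_injective.injOn
  have hex : T.eval t = ∑ j ∈ Finset.range p, (lag p j).eval t * T.eval (j : ℝ) := by
    conv_lhs => rw [Lagrange.eq_interpolate hinj hdeg, Lagrange.interpolate_apply]
    simp [eval_finsetSum, lag, mul_comm]
  set R : ℝ → ℝ := fun u => rexp (-(a * u)) - T.eval u
  have hR : ∀ u : ℝ, 0 ≤ u → u ≤ p → |R u| ≤ (a * p) ^ p / (p.factorial : ℝ) := fun u hu hu' => by
    simp only [R, hT]
    refine (exp_neg_remainder p _ (mul_nonneg ha hu)).trans ?_
    gcongr
  have e : rexp (-(a * t)) - ∑ j ∈ Finset.range p, (lag p j).eval t * rexp (-(a * j))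
      = R t - ∑ j ∈ Finset.range p, (lag p j).eval t * R j := by
    simp only [R, mul_sub, Finset.sum_sub_distrib, ← hex]
    ring
  rw [e, add_mul, one_mul]
  refine (abs_sub _ _).trans (add_le_add (hR t h0 h1) ?_)
  refine (Finset.abs_sum_le_sum_abs _ _).trans ?_
  refine le_trans (Finset.sum_le_sum fun j hj => ?_)
    (le_trans (le_of_eq (Finset.sum_mul _ _ _).symm)
      (mul_le_mul_of_nonneg_right (lag_le h0 h1) (by positivity)))
  rw [abs_mul]
  exact mul_le_mul_of_nonneg_left (hR j (Nat.cast_nonneg j)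
    (by exact_mod_cast (Finset.mem_range.1 hj).le)) (abs_nonneg _)

theorem quad_scalar (p : ℕ) (hp : 1 ≤ p) : ∃ C : ℝ, ∀ M J : ℕ, 1 ≤ M →
    ∃ (S : Finset ℕ) (w : ℕ → ℝ), S ⊆ Finset.range (p * M * 2 ^ J) ∧
      S.card ≤ (J + 1) * (p * M) ∧ ∑ i ∈ S, |w i| ≤ C * (p * M * 2 ^ J : ℕ) ∧
      ∀ y : ℝ, 0 ≤ y → y ≤ 1 →
        |∑ i ∈ Finset.range (p * M * 2 ^ J), y ^ i - ∑ i ∈ S, w i * y ^ i|
          ≤ C * (p * M * 2 ^ J : ℕ) / (M : ℝ) ^ p := by
  classical
  have hC0 : 0 ≤ lagBound p := Finset.sum_nonneg fun j _ => Finset.sum_nonneg fun k _ => by positivity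
  refine ⟨1 + lagBound p, fun M J hM => ?_⟩
  set N := p * M with hN
  have hN1 : 1 ≤ N := one_le_mul hp hM
  -- the cells and their weights
  let start : ℕ → ℕ → ℕ := fun l s => N * 2 ^ l + s * (p * 2 ^ l)
  let cw : ℕ → ℕ → ℝ := fun l j => ∑ u ∈ Finset.range (p * 2 ^ l), (lag p j).eval ((u : ℝ) / 2 ^ l)
  let D := Finset.range J ×ˢ Finset.range M ×ˢ Finset.range p
  let U := (Finset.range N).disjSum D
  let node : ℕ ⊕ (ℕ × ℕ × ℕ) → ℕ :=
    Sum.elim id fun x => start x.1 x.2.1 + x.2.2 * 2 ^ x.1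
  let c : ℕ ⊕ (ℕ × ℕ × ℕ) → ℝ := Sum.elim (fun _ => 1) fun x => cw x.1 x.2.2
  let w : ℕ → ℝ := fun i => ∑ x ∈ U with node x = i, c x
  have hcast : ((N * 2 ^ J : ℕ) : ℝ) = (N : ℝ) +
      ∑ l ∈ Finset.range J, ∑ _s ∈ Finset.range M, ∑ _u ∈ Finset.range (p * 2 ^ l), (1 : ℝ) := by
    have h := sum_range_dyadic N (fun _ => (1 : ℝ)) J
    simp only [Finset.sum_const, Finset.card_range, nsmul_eq_mul, mul_one] at h ⊢
    rw [h]
    congr 1
    refine Finset.sum_congr rfl fun l _ => ?_
    rw [hN]; push_cast; ring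
  refine ⟨U.image node, w, ?_, ?_, ?_, fun y hy hy' => ?_⟩
  · intro i hi
    obtain ⟨x, hx, rfl⟩ := Finset.mem_image.1 hi
    rw [Finset.mem_range]
    rcases x with x | ⟨l, s, j⟩
    · have := Finset.mem_range.1 (Finset.inl_mem_disjSum.1 hx)
      exact this.trans_le (Nat.le_mul_of_pos_right _ (Nat.two_pow_pos J))
    · have hx' := Finset.inr_mem_disjSum.1 hx
      simp only [D, Finset.mem_product, Finset.mem_range] at hx'
      obtain ⟨hl, hs, hj⟩ := hx'
      show N * 2 ^ l + s * (p * 2 ^ l) + j * 2 ^ l < N * 2 ^ J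
      calc N * 2 ^ l + s * (p * 2 ^ l) + j * 2 ^ l < N * 2 ^ l + (s + 1) * (p * 2 ^ l) := by
            have := Nat.mul_lt_mul_of_pos_right hj (Nat.two_pow_pos l)
            rw [add_one_mul]; omega
        _ ≤ N * 2 ^ l + M * (p * 2 ^ l) :=
            Nat.add_le_add_left (Nat.mul_le_mul_right _ hs) _
        _ = N * 2 ^ (l + 1) := by rw [hN]; ring
        _ ≤ N * 2 ^ J := Nat.mul_le_mul_left _ (Nat.pow_le_pow_right two_pos hl)
  · refine Finset.card_image_le.trans (le_of_eq ?_)
    simp only [U, D, Finset.card_disjSum, Finset.card_product, Finset.card_range]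
    rw [hN]; ring
  · calc ∑ i ∈ U.image node, |w i| ≤ ∑ i ∈ U.image node, ∑ x ∈ U with node x = i, |c x| :=
          Finset.sum_le_sum fun i _ => Finset.abs_sum_le_sum_abs _ _
      _ = ∑ x ∈ U, |c x| :=
          Finset.sum_fiberwise_of_maps_to (fun x hx => Finset.mem_image_of_mem node hx) _
      _ ≤ (1 + lagBound p) * (N * 2 ^ J : ℕ) := by
        rw [hcast, mul_add, Finset.sum_disjSum]
        refine add_le_add ?_ ?_
        · simp only [c, Sum.elim_inl, abs_one, Finset.sum_const, Finset.card_range, nsmul_eq_mul,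
            mul_one]
          nlinarith [(Nat.cast_nonneg N : (0 : ℝ) ≤ N)]
        · simp only [D, Finset.sum_product, c, Sum.elim_inr, Finset.mul_sum]
          refine Finset.sum_le_sum fun l _ => Finset.sum_le_sum fun s _ => ?_
          refine (Finset.sum_le_sum fun j _ => Finset.abs_sum_le_sum_abs _ _).trans ?_
          rw [Finset.sum_comm]
          refine Finset.sum_le_sum fun u hu => ?_
          have h2 : (u : ℝ) / 2 ^ l ≤ p := by
            rw [div_le_iff₀ (by positivity)]
            exact_mod_cast (Finset.mem_range.1 hu).le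
          linarith [lag_le (p := p) (t := (u : ℝ) / 2 ^ l) (by positivity) h2]
  · have hsum : ∑ i ∈ U.image node, w i * y ^ i = ∑ x ∈ U, c x * y ^ node x := by
      simp only [w, Finset.sum_mul]
      rw [← Finset.sum_fiberwise_of_maps_to (g := node) (t := U.image node)
        (fun x hx => Finset.mem_image_of_mem node hx) (fun x => c x * y ^ node x)]
      exact Finset.sum_congr rfl fun i _ => Finset.sum_congr rfl fun x hx => by
        rw [(Finset.mem_filter.1 hx).2]
    rw [hsum, Finset.sum_disjSum, sum_range_dyadic N (fun i => y ^ i) J]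
    simp only [c, node, Sum.elim_inl, id, one_mul]
    rw [add_sub_add_left_eq_sub]
    simp only [D, Finset.sum_product, Sum.elim_inr, cw]
    have hcell : ∀ l, ∑ t ∈ Finset.range (N * 2 ^ l), y ^ (N * 2 ^ l + t)
        = ∑ s ∈ Finset.range M, ∑ u ∈ Finset.range (p * 2 ^ l), y ^ (start l s + u) := fun l => by
      rw [show N * 2 ^ l = M * (p * 2 ^ l) by rw [hN]; ring, sum_range_cells]
      refine Finset.sum_congr rfl fun s _ => Finset.sum_congr rfl fun u _ => ?_
      simp only [start]
      rw [show N * 2 ^ l = M * (p * 2 ^ l) by rw [hN]; ring, add_assoc]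
    simp only [hcell, Finset.sum_mul]
    rw [← Finset.sum_sub_distrib]
    have hpt : ∀ l s u, u < p * 2 ^ l →
        |y ^ (start l s + u) - ∑ j ∈ Finset.range p,
          (lag p j).eval ((u : ℝ) / 2 ^ l) * y ^ (start l s + j * 2 ^ l)|
          ≤ (1 + lagBound p) / (M : ℝ) ^ p := by
      intro l s u hu
      have hpos : 0 ≤ (1 + lagBound p) / (M : ℝ) ^ p := by positivity
      have hst : 1 ≤ start l s := le_add_right (one_le_mul hN1 (Nat.one_le_two_pow))
      rcases hy.eq_or_lt with rfl | hy0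
      · simp only [zero_pow (show start l s + u ≠ 0 by omega)]
        rw [Finset.sum_eq_zero fun j _ => by
          rw [zero_pow (show start l s + j * 2 ^ l ≠ 0 by omega), mul_zero]]
        simpa using hpos
      set a := -((2 : ℝ) ^ l * Real.log y) with ha
      have ha0 : 0 ≤ a :=
        neg_nonneg.2 (mul_nonpos_of_nonneg_of_nonpos (by positivity) (log_nonpos hy hy'))
      have hpow : ∀ k : ℕ, y ^ k = rexp (-(a * ((k : ℝ) / 2 ^ l))) := fun k => by
        rw [← Real.rpow_natCast y k, Real.rpow_def_of_pos hy0]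
        congr 1
        rw [ha]; field_simp
      have ht : (u : ℝ) / 2 ^ l ≤ p := by
        rw [div_le_iff₀ (by positivity)]; exact_mod_cast hu.le
      have e : y ^ (start l s + u) - ∑ j ∈ Finset.range p,
          (lag p j).eval ((u : ℝ) / 2 ^ l) * y ^ (start l s + j * 2 ^ l)
          = y ^ start l s * (rexp (-(a * ((u : ℝ) / 2 ^ l))) - ∑ j ∈ Finset.range p,
            (lag p j).eval ((u : ℝ) / 2 ^ l) * rexp (-(a * j))) := by
        rw [mul_sub, Finset.mul_sum, pow_add, hpow u]
        congr 1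
        refine Finset.sum_congr rfl fun j _ => ?_
        rw [pow_add, hpow (j * 2 ^ l)]
        push_cast
        field_simp
      rw [e, abs_mul, abs_of_nonneg (pow_nonneg hy _)]
      refine (mul_le_mul_of_nonneg_left (lag_exp hp ha0 (by positivity) ht)
        (pow_nonneg hy _)).trans ?_
      have hst' : ((p * M : ℕ) : ℝ) ≤ (start l s : ℝ) / 2 ^ l := by
        rw [le_div_iff₀ (by positivity)]
        exact_mod_cast Nat.le_add_right (N * 2 ^ l) (s * (p * 2 ^ l))
      set X := a * ((p * M : ℕ) : ℝ) with hX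
      have h1 : y ^ start l s ≤ rexp (-X) := by
        rw [hpow]
        exact exp_le_exp.2 (neg_le_neg (mul_le_mul_of_nonneg_left hst' ha0))
      have h2 : X ^ p / (p.factorial : ℝ) ≤ rexp X :=
        pow_div_factorial_le_exp _ (by positivity) p
      have h3 : rexp (-X) * (X ^ p / (p.factorial : ℝ)) ≤ 1 := by
        rw [exp_neg, inv_mul_le_iff₀ (exp_pos X), mul_one]; exact h2
      have hM0 : (0 : ℝ) < (M : ℝ) ^ p := pow_pos (by exact_mod_cast hM) p
      have hXp : X ^ p = (a * p) ^ p * (M : ℝ) ^ p := by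
        rw [hX]; push_cast; ring
      calc y ^ start l s * ((1 + lagBound p) * ((a * p) ^ p / (p.factorial : ℝ)))
          ≤ rexp (-X) * ((1 + lagBound p) * ((a * p) ^ p / (p.factorial : ℝ))) :=
            mul_le_mul_of_nonneg_right h1 (by positivity)
        _ = (1 + lagBound p) / (M : ℝ) ^ p * (rexp (-X) * (X ^ p / (p.factorial : ℝ))) := by
            rw [hXp]; field_simp
        _ ≤ (1 + lagBound p) / (M : ℝ) ^ p := mul_le_of_le_one_right hpos h3
    refine (Finset.abs_sum_le_sum_abs _ _).trans ?_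
    have hfin : ∑ l ∈ Finset.range J, ∑ _s ∈ Finset.range M, ∑ _u ∈ Finset.range (p * 2 ^ l),
        (1 + lagBound p) / (M : ℝ) ^ p ≤ (1 + lagBound p) * (N * 2 ^ J : ℕ) / (M : ℝ) ^ p := by
      rw [mul_div_right_comm, hcast, mul_add]
      simp only [Finset.mul_sum, mul_one]
      exact le_add_of_nonneg_left (by positivity)
    refine le_trans (Finset.sum_le_sum fun l _ => ?_) hfin
    rw [← Finset.sum_sub_distrib]
    refine (Finset.abs_sum_le_sum_abs _ _).trans (Finset.sum_le_sum fun s _ => ?_)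
    rw [Finset.sum_comm, ← Finset.sum_sub_distrib]
    exact (Finset.abs_sum_le_sum_abs _ _).trans
      (Finset.sum_le_sum fun u hu => hpt l s u (Finset.mem_range.1 hu))

/-! ### Completely monotone sequences -/

theorem choose_ratio {N k : ℕ} (hk : k ≤ N) : ∀ j : ℕ, 2 * j ≤ N →
    |(k.choose j : ℝ) / (N.choose j : ℝ) - ((k : ℝ) / N) ^ j| ≤ 2 * (j : ℝ) ^ 2 / N
  | 0, _ => by simp
  | j + 1, hj => by
    have ih := choose_ratio hk j (by omega)
    have hN : (0 : ℝ) < N := by exact_mod_cast (show 0 < N by omega)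
    have hNj : (0 : ℝ) < ((N - j : ℕ) : ℝ) := by exact_mod_cast (show 0 < N - j by omega)
    set t : ℝ := ((k - j : ℕ) : ℝ) / ((N - j : ℕ) : ℝ)
    set q : ℝ := (k : ℝ) / N
    set A : ℝ := (k.choose j : ℝ) / (N.choose j : ℝ)
    have hA1 : |A| ≤ 1 := by
      rw [abs_of_nonneg (by positivity),
        div_le_one (by exact_mod_cast Nat.choose_pos (show j ≤ N by omega))]
      exact_mod_cast Nat.choose_le_choose j hk
    have hA : (k.choose (j + 1) : ℝ) / (N.choose (j + 1) : ℝ) = A * t := by
      have e1 : (k.choose (j + 1) : ℝ) * (j + 1) = (k.choose j : ℝ) * ((k - j : ℕ) : ℝ) := by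
        exact_mod_cast Nat.choose_succ_right_eq k j
      have e2 : (N.choose (j + 1) : ℝ) * (j + 1) = (N.choose j : ℝ) * ((N - j : ℕ) : ℝ) := by
        exact_mod_cast Nat.choose_succ_right_eq N j
      have hc : (N.choose (j + 1) : ℝ) ≠ 0 := by
        exact_mod_cast (Nat.choose_pos (show j + 1 ≤ N by omega)).ne'
      rw [div_mul_div_comm, ← e1, ← e2]
      field_simp
    have hq : 0 ≤ q ∧ q ≤ 1 := ⟨by positivity, by rw [div_le_one hN]; exact_mod_cast hk⟩
    have htq : |t - q| ≤ 2 * (j : ℝ) / N := by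
      rcases Nat.lt_or_ge k j with hkj | hkj
      · rw [show t = 0 by simp [t, Nat.sub_eq_zero_of_le hkj.le], zero_sub, abs_neg,
          abs_of_nonneg hq.1]
        refine div_le_div_of_nonneg_right ?_ hN.le
        have : (k : ℝ) ≤ j := by exact_mod_cast hkj.le
        linarith [(Nat.cast_nonneg k : (0 : ℝ) ≤ k)]
      · have hkN : (k : ℝ) ≤ N := by exact_mod_cast hk
        have hjN : 2 * (j : ℝ) ≤ N := by exact_mod_cast (show 2 * j ≤ N by omega)
        simp only [t, q]
        rw [Nat.cast_sub hkj, Nat.cast_sub (show j ≤ N by omega)]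
        rw [Nat.cast_sub (show j ≤ N by omega)] at hNj
        rw [div_sub_div _ _ hNj.ne' hN.ne', abs_div, abs_of_pos (mul_pos hNj hN),
          div_le_div_iff₀ (mul_pos hNj hN) hN]
        have e : |((k : ℝ) - j) * N - ((N : ℝ) - j) * k| = (j : ℝ) * (N - k) := by
          rw [show ((k : ℝ) - j) * N - ((N : ℝ) - j) * k = -((j : ℝ) * (N - k)) by ring, abs_neg,
            abs_of_nonneg (mul_nonneg (Nat.cast_nonneg _) (by linarith))]
        rw [e]
        nlinarith [mul_nonneg (Nat.cast_nonneg j : (0 : ℝ) ≤ j) hN.le,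
          mul_nonneg (mul_nonneg (Nat.cast_nonneg j : (0 : ℝ) ≤ j) hN.le)
            (show 0 ≤ (N : ℝ) - 2 * j + k by linarith [(Nat.cast_nonneg k : (0 : ℝ) ≤ k)])]
    rw [hA, pow_succ]
    calc |A * t - q ^ j * q| = |A * (t - q) + (A - q ^ j) * q| := by ring_nf
      _ ≤ 1 * (2 * (j : ℝ) / N) + 2 * (j : ℝ) ^ 2 / N * 1 := by
        refine (abs_add_le _ _).trans (add_le_add ?_ ?_)
        · rw [abs_mul]; exact mul_le_mul hA1 htq (abs_nonneg _) zero_le_one
        · rw [abs_mul, abs_of_nonneg hq.1]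
          exact mul_le_mul ih hq.2 hq.1 (by positivity)
      _ ≤ 2 * ((j + 1 : ℕ) : ℝ) ^ 2 / N := by
        rw [one_mul, mul_one, ← add_div]
        refine div_le_div_of_nonneg_right ?_ hN.le
        push_cast
        nlinarith [(Nat.cast_nonneg j : (0 : ℝ) ≤ j)]

/-- The finite differences of a sequence. -/
def diffs (a : ℕ → ℝ) : ℕ → ℕ → ℝ
  | k, 0 => a k
  | k, m + 1 => diffs a k m - diffs a (k + 1) m

theorem diffs_sum (a : ℕ → ℝ) : ∀ (m k : ℕ),
    ∑ i ∈ Finset.range (m + 1), (m.choose i : ℝ) * diffs a (k + i) (m - i) = a k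
  | 0, k => by simp [diffs]
  | m + 1, k => by
    rw [Finset.sum_range_succ']
    simp only [Nat.choose_succ_succ, Nat.cast_add, Nat.succ_sub_succ, add_mul,
      Finset.sum_add_distrib, Nat.choose_zero_right, Nat.cast_one, one_mul, add_zero, Nat.sub_zero]
    have h1 := diffs_sum a m (k + 1)
    have e1 : ∑ i ∈ Finset.range (m + 1), (m.choose i : ℝ) * diffs a (k + (i + 1)) (m - i)
        = a (k + 1) := by
      rw [← h1]; exact Finset.sum_congr rfl fun i _ => by rw [show k + (i + 1) = k + 1 + i by omega]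
    have e2 : ∑ i ∈ Finset.range (m + 1),
        (m.choose (i + 1) : ℝ) * diffs a (k + (i + 1)) (m - i) + diffs a k (m + 1)
        = ∑ i ∈ Finset.range (m + 1), (m.choose i : ℝ) * diffs a (k + i) (m - i + 1) := by
      conv_rhs => rw [Finset.sum_range_succ']
      rw [Finset.sum_range_succ]
      simp only [Nat.choose_succ_self, Nat.cast_zero, zero_mul, add_zero, Nat.choose_zero_right,
        Nat.cast_one, one_mul, Nat.sub_zero]
      congr 1
      refine Finset.sum_congr rfl fun i hi => ?_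
      rw [show m - (i + 1) + 1 = m - i by have := Finset.mem_range.1 hi; omega]
    have e3 : ∑ i ∈ Finset.range (m + 1), (m.choose i : ℝ) * diffs a (k + i) (m - i + 1)
        = a k - a (k + 1) := by
      simp only [diffs, mul_sub, Finset.sum_sub_distrib]
      rw [diffs_sum a m k, ← h1]
      congr 1
      exact Finset.sum_congr rfl fun i _ => by rw [show k + i + 1 = k + 1 + i by omega]
    linarith [e1, e2, e3]

/-- Completely monotone sequences integrate squares of polynomials like measures on `[0, 1]`. -/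
theorem sum_moment_le (a : ℕ → ℝ) (ha : ∀ k m, 0 ≤ diffs a k m) (S : Finset ℕ) (w : ℕ → ℝ)
    {ε : ℝ} (hε : ∀ y : ℝ, 0 ≤ y → y ≤ 1 → |∑ i ∈ S, w i * y ^ i| ≤ ε) :
    ∑ i ∈ S, ∑ j ∈ S, w i * w j * a (i + j) ≤ ε ^ 2 * a 0 := by
  set Λ := ∑ i ∈ S, ∑ j ∈ S, |w i * w j| * (2 * ((i + j : ℕ) : ℝ) ^ 2) * a 0
  refine le_of_forall_pos_le_add fun δ hδ => ?_
  obtain ⟨N₀, hN₀⟩ := exists_nat_gt (Λ / δ)
  set N := N₀ + 4 * (S.sup id) + 1
  have hN : (0 : ℝ) < N := by positivity
  let W : ℕ → ℝ := fun k => (N.choose k : ℝ) * diffs a k (N - k)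
  have hW : ∀ k, 0 ≤ W k := fun k => mul_nonneg (Nat.cast_nonneg _) (ha _ _)
  have hW1 : ∑ k ∈ Finset.range (N + 1), W k = a 0 := by
    rw [← diffs_sum a N 0]; simp [W]
  have ha0 : 0 ≤ a 0 := ha 0 0
  have key : ∀ j, 2 * j ≤ N →
      |a j - ∑ k ∈ Finset.range (N + 1), W k * ((k : ℝ) / N) ^ j| ≤ 2 * (j : ℝ) ^ 2 / N * a 0 := by
    intro j hj
    have hex : a j = ∑ k ∈ Finset.range (N + 1), W k * ((k.choose j : ℝ) / (N.choose j : ℝ)) := by
      have hc : (N.choose j : ℝ) ≠ 0 := by
        exact_mod_cast (Nat.choose_pos (show j ≤ N by omega)).ne'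
      rw [← diffs_sum a (N - j) j, show N + 1 = j + (N - j + 1) by omega,
        Finset.sum_range_add (n := j)]
      rw [Finset.sum_eq_zero (s := Finset.range j) (fun k hk => by
        simp [Nat.choose_eq_zero_of_lt (Finset.mem_range.1 hk)]), zero_add]
      refine Finset.sum_congr rfl fun i hi => ?_
      have hi' := Finset.mem_range.1 hi
      have h := Nat.choose_mul (n := N) (k := j + i) (s := j) (by omega)
      rw [show j + i - j = i by omega] at h
      simp only [W]
      rw [show N - (j + i) = N - j - i by omega, mul_right_comm, mul_div,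
        show (N.choose (j + i) : ℝ) * ((j + i).choose j : ℝ)
          = (N.choose j : ℝ) * ((N - j).choose i : ℝ) by exact_mod_cast h,
        mul_div_cancel_left₀ _ hc]
    rw [hex, ← Finset.sum_sub_distrib, ← hW1, Finset.mul_sum]
    refine (Finset.abs_sum_le_sum_abs _ _).trans (Finset.sum_le_sum fun k hk => ?_)
    rw [← mul_sub, abs_mul, abs_of_nonneg (hW k), mul_comm (2 * (j : ℝ) ^ 2 / N)]
    exact mul_le_mul_of_nonneg_left
      (choose_ratio (Nat.lt_succ_iff.1 (Finset.mem_range.1 hk)) j hj) (hW k)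
  have hΛ : Λ / N ≤ δ := by
    rw [div_le_iff₀ hN]
    rw [div_lt_iff₀ hδ] at hN₀
    have : (N₀ : ℝ) ≤ N := by exact_mod_cast (show N₀ ≤ N by omega)
    nlinarith
  calc ∑ i ∈ S, ∑ j ∈ S, w i * w j * a (i + j)
      ≤ ∑ i ∈ S, ∑ j ∈ S, (w i * w j * ∑ k ∈ Finset.range (N + 1), W k * ((k : ℝ) / N) ^ (i + j)
          + |w i * w j| * (2 * ((i + j : ℕ) : ℝ) ^ 2) * a 0 / N) := by
        refine Finset.sum_le_sum fun i hi => Finset.sum_le_sum fun j hj => ?_
        have h1 : i ≤ S.sup id := Finset.le_sup (f := id) hi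
        have h2 : j ≤ S.sup id := Finset.le_sup (f := id) hj
        have h3 := key (i + j) (by omega)
        set D := ∑ k ∈ Finset.range (N + 1), W k * ((k : ℝ) / N) ^ (i + j)
        have h4 : w i * w j * (a (i + j) - D) ≤ |w i * w j| * |a (i + j) - D| := by
          rw [← abs_mul]; exact le_abs_self _
        have h5 := mul_le_mul_of_nonneg_left h3 (abs_nonneg (w i * w j))
        have h6 : |w i * w j| * (2 * ((i + j : ℕ) : ℝ) ^ 2 / N * a 0)
            = |w i * w j| * (2 * ((i + j : ℕ) : ℝ) ^ 2) * a 0 / N := by ring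
        linarith
    _ = ∑ k ∈ Finset.range (N + 1), W k * (∑ i ∈ S, w i * ((k : ℝ) / N) ^ i) ^ 2 + Λ / N := by
        simp only [Finset.sum_add_distrib, Λ, Finset.sum_div]
        congr 1
        simp only [sq, Finset.mul_sum, Finset.sum_mul]
        rw [Finset.sum_comm (s := Finset.range (N + 1))]
        refine Finset.sum_congr rfl fun i _ => ?_
        rw [Finset.sum_comm (s := Finset.range (N + 1))]
        refine Finset.sum_congr rfl fun j _ => Finset.sum_congr rfl fun k _ => ?_
        ring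
    _ ≤ ∑ k ∈ Finset.range (N + 1), W k * ε ^ 2 + δ := by
        refine add_le_add (Finset.sum_le_sum fun k hk => mul_le_mul_of_nonneg_left ?_ (hW k)) hΛ
        have hk' : (k : ℝ) ≤ N := by exact_mod_cast Nat.lt_succ_iff.1 (Finset.mem_range.1 hk)
        rw [← sq_abs]
        exact pow_le_pow_left₀ (abs_nonneg _)
          (hε _ (by positivity) (by rw [div_le_one hN]; exact hk')) 2
    _ = ε ^ 2 * a 0 + δ := by rw [← Finset.sum_mul, hW1, mul_comm]

/-! ### The autoregression operator on Lipschitz fields -/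

/-- Lipschitz with some constant. -/
def LipF (f : E d → E d) : Prop := ∃ K, 0 ≤ K ∧ ∀ x y, ‖f x - f y‖ ≤ K * ‖x - y‖

theorem LipF.continuous {f : E d → E d} (hf : LipF f) : Continuous f := by
  obtain ⟨K, hK0, hK⟩ := hf
  exact (LipschitzWith.of_dist_le_mul (K := K.toNNReal) fun x y => by
    rw [dist_eq_norm, dist_eq_norm, Real.coe_toNNReal _ hK0]
    exact hK x y).continuous

theorem LipF.growth {f : E d → E d} (hf : LipF f) :
    ∃ A, 0 ≤ A ∧ ∀ x, ‖f x‖ ≤ A * (1 + ‖x‖) := by
  obtain ⟨K, hK0, hK⟩ := hf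
  refine ⟨‖f 0‖ + K, by positivity, fun x => ?_⟩
  have h := hK x 0
  rw [sub_zero] at h
  have := norm_sub_norm_le (f x) (f 0)
  nlinarith [norm_nonneg x, norm_nonneg (f 0)]

theorem LipF.zero : LipF (0 : E d → E d) := ⟨0, le_rfl, fun x y => by simp⟩

theorem LipF.add {f h : E d → E d} (hf : LipF f) (hh : LipF h) : LipF (f + h) := by
  obtain ⟨K, hK0, hK⟩ := hf
  obtain ⟨K', hK0', hK'⟩ := hh
  refine ⟨K + K', by positivity, fun x y => ?_⟩
  rw [Pi.add_apply, Pi.add_apply, add_sub_add_comm, add_mul]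
  exact (norm_add_le _ _).trans (add_le_add (hK x y) (hK' x y))

theorem LipF.smul {f : E d → E d} (hf : LipF f) (c : ℝ) : LipF (c • f) := by
  obtain ⟨K, hK0, hK⟩ := hf
  refine ⟨|c| * K, by positivity, fun x y => ?_⟩
  rw [Pi.smul_apply, Pi.smul_apply, ← smul_sub, norm_smul, norm_eq_abs, mul_assoc]
  exact mul_le_mul_of_nonneg_left (hK x y) (abs_nonneg c)

theorem LipF.integrable_comb {f : E d → E d} (hf : LipF f) (x : E d) (c : ℝ) :
    Integrable (fun w => f (x + c • w)) (γ d) := by
  obtain ⟨A, hA0, hA⟩ := hf.growth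
  refine (((integrable_const (1 + ‖x‖)).add (γ_norm_integrable.const_mul |c|)).const_mul A).mono'
    (hf.continuous.comp (by fun_prop)).aestronglyMeasurable (ae_of_all _ fun w => ?_)
  refine (hA _).trans (mul_le_mul_of_nonneg_left ?_ hA0)
  have h := norm_add_le x (c • w)
  rw [norm_smul, norm_eq_abs] at h
  simp only [Pi.add_apply]
  linarith

variable {β : ℝ}

theorem LipF.P (hβ : |β| ≤ 1) {f : E d → E d} (hf : LipF f) : LipF (P β f) := by
  obtain ⟨K, hK0, hK⟩ := hf
  have hL : LipF f := ⟨K, hK0, hK⟩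
  refine ⟨K, hK0, fun x y => ?_⟩
  show ‖(∫ w, f (β • x + _ • w) ∂γ d) - ∫ w, f (β • y + _ • w) ∂γ d‖ ≤ _
  rw [← integral_sub (hL.integrable_comb _ _) (hL.integrable_comb _ _)]
  refine (norm_integral_le_of_norm_le_const (C := K * ‖x - y‖) (ae_of_all _ fun w => ?_)).trans (le_of_eq ?_)
  · exact hK (β • x + √(1 - β ^ 2) • w) (β • y + √(1 - β ^ 2) • w) |>.trans (by
      rw [add_sub_add_right_eq_sub, ← smul_sub, norm_smul, norm_eq_abs]
      exact mul_le_mul_of_nonneg_left (mul_le_of_le_one_left (norm_nonneg _) hβ) hK0)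
  · simp

/-- The pairing of two fields. -/
def pairing (f h : E d → E d) : ℝ := ∫ x, ⟪f x, h x⟫ ∂γ d

theorem prod_integrable {f h : E d → E d} (hf : LipF f) (hh : LipF h) (a b c e : ℝ) :
    Integrable (fun q : E d × E d => ⟪f (a • q.1 + b • q.2), h (c • q.1 + e • q.2)⟫)
      ((γ d).prod (γ d)) := by
  obtain ⟨A, hA0, hA⟩ := hf.growth
  obtain ⟨B, hB0, hB⟩ := hh.growth
  have h1 : Integrable (fun q : E d × E d => 1 + ‖q.1‖ ^ 2 + ‖q.2‖ ^ 2) ((γ d).prod (γ d)) :=
    ((integrable_const 1).add (γ_sq_integrable.comp_fst (γ d))).add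
      (γ_sq_integrable.comp_snd (γ d))
  set c0 := 1 + |a| + |b| + |c| + |e|
  refine (h1.const_mul (3 * (A * B * c0 ^ 2))).mono'
    ((hf.continuous.comp (by fun_prop)).inner (hh.continuous.comp (by fun_prop))).aestronglyMeasurable
    (ae_of_all _ fun q => ?_)
  have hc0 : 0 ≤ c0 := by positivity
  have hb : ∀ u v : ℝ, |u| ≤ c0 → |v| ≤ c0 →
      1 + ‖u • q.1 + v • q.2‖ ≤ c0 * (1 + ‖q.1‖ + ‖q.2‖) := fun u v hu hv => by
    have h := norm_add_le (u • q.1) (v • q.2)
    rw [norm_smul, norm_smul, norm_eq_abs, norm_eq_abs] at h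
    have : 1 ≤ c0 := by
      simp only [c0]; linarith [abs_nonneg a, abs_nonneg b, abs_nonneg c, abs_nonneg e]
    nlinarith [norm_nonneg q.1, norm_nonneg q.2]
  have h2 := abs_nonneg a
  have h3 := abs_nonneg b
  have h4 := abs_nonneg c
  have h5 := abs_nonneg e
  rw [norm_eq_abs]
  refine (abs_real_inner_le_norm _ _).trans ?_
  refine (mul_le_mul ((hA _).trans (mul_le_mul_of_nonneg_left (hb a b (by simp only [c0]; linarith)
    (by simp only [c0]; linarith)) hA0)) ((hB _).trans (mul_le_mul_of_nonneg_left (hb c e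
    (by simp only [c0]; linarith) (by simp only [c0]; linarith)) hB0)) (norm_nonneg _)
    (by positivity)).trans ?_
  have key : (1 + ‖q.1‖ + ‖q.2‖) ^ 2 ≤ 3 * (1 + ‖q.1‖ ^ 2 + ‖q.2‖ ^ 2) := by
    nlinarith [sq_nonneg (1 - ‖q.1‖), sq_nonneg (1 - ‖q.2‖), sq_nonneg (‖q.1‖ - ‖q.2‖)]
  have := mul_le_mul_of_nonneg_left key (show 0 ≤ A * B * c0 ^ 2 by positivity)
  linarith

theorem pairing_integrable {f h : E d → E d} (hf : LipF f) (hh : LipF h) :
    Integrable (fun x => ⟪f x, h x⟫) (γ d) := by
  obtain ⟨A, hA0, hA⟩ := hf.growth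
  obtain ⟨B, hB0, hB⟩ := hh.growth
  refine (((integrable_const (1 : ℝ)).add γ_sq_integrable).const_mul (2 * (A * B))).mono'
    (hf.continuous.inner hh.continuous).aestronglyMeasurable (ae_of_all _ fun x => ?_)
  rw [norm_eq_abs]
  refine (abs_real_inner_le_norm _ _).trans
    ((mul_le_mul (hA x) (hB x) (norm_nonneg _) (by positivity)).trans ?_)
  have key : (1 + ‖x‖) ^ 2 ≤ 2 * (1 + ‖x‖ ^ 2) := by nlinarith [sq_nonneg (1 - ‖x‖)]
  have := mul_le_mul_of_nonneg_left key (mul_nonneg hA0 hB0)
  simp only [Pi.add_apply]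
  linarith

theorem pairing_comm (f h : E d → E d) : pairing f h = pairing h f := by
  simp only [pairing, real_inner_comm]

theorem pairing_sub {f f' h : E d → E d} (hf : LipF f) (hf' : LipF f') (hh : LipF h) :
    pairing h (f - f') = pairing h f - pairing h f' := by
  rw [pairing, pairing, pairing,
    ← integral_sub (pairing_integrable hh hf) (pairing_integrable hh hf')]
  simp [inner_sub_right]

theorem pairing_P (_hβ : |β| ≤ 1) {f h : E d → E d} (hf : LipF f) (hh : LipF h) :
    pairing f (P β h) =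
      ∫ q : E d × E d, ⟪f q.1, h (β • q.1 + √(1 - β ^ 2) • q.2)⟫ ∂(γ d).prod (γ d) := by
  rw [integral_prod _ (by simpa using prod_integrable hf hh 1 0 β √(1 - β ^ 2))]
  refine integral_congr_ae (ae_of_all _ fun x => ?_)
  exact (integral_inner (hh.integrable_comb _ _) _).symm

theorem pairing_P_comm (hβ : |β| ≤ 1) {f h : E d → E d} (hf : LipF f) (hh : LipF h) :
    pairing f (P β h) = pairing (P β f) h := by
  rw [pairing_comm (P β f) h, pairing_P hβ hf hh, pairing_P hβ hh hf]
  set s := √(1 - β ^ 2)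
  have hs : s ^ 2 = 1 - β ^ 2 := sqrt_sq_aux hβ
  have hm := pair_map (d := d) hβ
  have hc : Continuous fun q : E d × E d => ⟪f q.1, h (β • q.1 + s • q.2)⟫ :=
    (hf.continuous.comp continuous_fst).inner (hh.continuous.comp (by fun_prop))
  conv_lhs => rw [← hm.map_eq, integral_map hm.measurable.aemeasurable hc.aestronglyMeasurable]
  refine integral_congr_ae (ae_of_all _ fun q => ?_)
  simp only [real_inner_comm _ (h _)]
  congr 2
  simp only [smul_add, smul_sub, smul_smul]
  match_scalars <;> first | linear_combination hs | linear_combination -hs | ring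

theorem pairing_P_le (hβ : |β| ≤ 1) {f : E d → E d} (hf : LipF f) :
    pairing f (P β f) ≤ pairing f f := by
  set s := √(1 - β ^ 2)
  have hi := pairing_integrable hf hf
  have hm := comb_map (d := d) (a := β) (b := s) (by rw [sqrt_sq_aux hβ]; ring)
  have i1 := hi.comp_fst (γ d)
  have i2 : Integrable (fun q : E d × E d => ⟪f (β • q.1 + s • q.2), f (β • q.1 + s • q.2)⟫)
      ((γ d).prod (γ d)) := prod_integrable hf hf β s β s
  rw [pairing_P hβ hf hf]
  calc ∫ q : E d × E d, ⟪f q.1, f (β • q.1 + s • q.2)⟫ ∂(γ d).prod (γ d)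
      ≤ ∫ q : E d × E d, 2⁻¹ * (⟪f q.1, f q.1⟫
          + ⟪f (β • q.1 + s • q.2), f (β • q.1 + s • q.2)⟫) ∂(γ d).prod (γ d) := by
        refine integral_mono (by simpa using prod_integrable hf hf 1 0 β s)
          ((i1.add i2).const_mul _) fun q => ?_
        have := @real_inner_self_nonneg (E d) _ _ (f q.1 - f (β • q.1 + s • q.2))
        simp only [inner_sub_left, inner_sub_right,
          real_inner_comm (f q.1) (f (β • q.1 + s • q.2))] at this ⊢
        linarith
    _ = pairing f f := by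
        rw [integral_const_mul, integral_add i1 i2, integral_fun_fst (fun x => ⟪f x, f x⟫)]
        rw [show ∫ q : E d × E d, ⟪f (β • q.1 + s • q.2), f (β • q.1 + s • q.2)⟫ ∂(γ d).prod (γ d)
          = pairing f f by
          rw [pairing]
          conv_rhs => rw [← hm.map_eq, integral_map hm.measurable.aemeasurable
            (hf.continuous.inner hf.continuous).aestronglyMeasurable]]
        simp [pairing]
        ring

theorem pairing_P_nonneg (hβ : 0 ≤ β) (hβ' : β ≤ 1) {f : E d → E d} (hf : LipF f) :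
    0 ≤ pairing f (P β f) := by
  have hb' : |β| ≤ 1 := by rwa [abs_of_nonneg hβ]
  set b := √β
  set c := √(1 - b ^ 2)
  set s := √(1 - β ^ 2)
  have hb2 : b ^ 2 = β := sq_sqrt hβ
  have hb1 : |b| ≤ 1 := by
    rw [abs_of_nonneg (sqrt_nonneg β)]; exact sqrt_le_one.2 hβ'
  have hc : c ^ 2 = 1 - β := by rw [sqrt_sq_aux hb1, hb2]
  have key : pairing f (P β f) = ∫ z, ‖P b f z‖ ^ 2 ∂γ d := by
    rw [pairing_P hb' hf hf]
    rcases eq_or_ne s 0 with hs | hs
    · have h0 : β = 1 := by
        have h1 := sqrt_sq_aux (β := β) hb'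
        rw [show √(1 - β ^ 2) = 0 from hs] at h1
        nlinarith
      have hb : b = 1 := by simp [b, h0]
      have hP : ∀ z, P b f z = f z := fun z => by simp [P, hb]
      simp only [h0, one_smul, hP, one_pow, sub_self, Real.sqrt_zero, zero_smul, add_zero, real_inner_self_eq_norm_sq]
      rw [integral_fun_fst (fun z => ‖f z‖ ^ 2)]
      simp
    have hcomb := comb_map (d := d) (a := b * c / s) (b := c / s) (by
      field_simp
      rw [sqrt_sq_aux hb', hb2, hc]; ring)
    let Ψ : (E d × E d) × E d → E d × E d := fun t =>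
      (b • t.1.1 + c • t.1.2, (b * c / s) • (c • t.1.1 - b • t.1.2) + (c / s) • t.2)
    have hΨ : MeasurePreserving Ψ (((γ d).prod (γ d)).prod (γ d)) ((γ d).prod (γ d)) :=
      ((MeasurePreserving.id (γ d)).prod hcomb).comp
        ((measurePreserving_prodAssoc (γ d) (γ d) (γ d)).comp
          ((pair_map hb1).prod (MeasurePreserving.id (γ d))))
    have hcont : Continuous fun q : E d × E d => ⟪f q.1, f (β • q.1 + s • q.2)⟫ :=
      (hf.continuous.comp continuous_fst).inner (hf.continuous.comp (by fun_prop))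
    have hint := hΨ.integrable_comp_of_integrable (g := fun q => ⟪f q.1, f (β • q.1 + s • q.2)⟫)
      (by simpa using prod_integrable hf hf 1 0 β s)
    conv_lhs => rw [← hΨ.map_eq, integral_map hΨ.measurable.aemeasurable hcont.aestronglyMeasurable]
    have e : ∀ t : (E d × E d) × E d, ⟪f (Ψ t).1, f (β • (Ψ t).1 + s • (Ψ t).2)⟫
        = ⟪f (b • t.1.1 + c • t.1.2), f (b • t.1.1 + c • t.2)⟫ := fun t => by
      congr 2
      simp only [Ψ, smul_add, smul_sub, smul_smul]
      match_scalars <;> field_simp <;> (try simp only [hb2, hc]) <;> ring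
    simp only [Function.comp_def, e] at hint ⊢
    rw [integral_prod _ hint, integral_prod _ hint.integral_prod_left]
    refine integral_congr_ae (ae_of_all _ fun z => ?_)
    have hi := hf.integrable_comb (b • z) c
    show ∫ u, ∫ v, ⟪f (b • z + c • u), f (b • z + c • v)⟫ ∂γ d ∂γ d = _
    simp only [integral_inner hi, real_inner_comm (∫ v, f (b • z + c • v) ∂γ d)]
    rw [real_inner_self_eq_norm_sq]
    rfl
  rw [key]
  exact integral_nonneg fun z => by positivity

theorem spectral {β : ℝ} (hβ : 0 ≤ β) (hβ' : β ≤ 1) {g : E d → E d} {K : ℝ}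
    (hg : ∀ x y, ‖g x - g y‖ ≤ K * ‖x - y‖) (S : Finset ℕ) (w : ℕ → ℝ) {ε : ℝ}
    (hε : ∀ y : ℝ, 0 ≤ y → y ≤ 1 → |∑ i ∈ S, w i * y ^ i| ≤ ε) :
    ∫ x, ‖∑ i ∈ S, w i • ((P β)^[i] g) x‖ ^ 2 ∂γ d ≤ ε ^ 2 * ∫ x, ‖g x‖ ^ 2 ∂γ d := by
  have hb : |β| ≤ 1 := by rwa [abs_of_nonneg hβ]
  have hg' : LipF g := ⟨max K 0, le_max_right _ _, fun x y =>
    (hg x y).trans (mul_le_mul_of_nonneg_right (le_max_left _ _) (norm_nonneg _))⟩
  have hPk : ∀ {f : E d → E d}, LipF f → ∀ k, LipF ((P β)^[k] f) := fun {f} hf k => by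
    induction k with
    | zero => exact hf
    | succ k ih => rw [Function.iterate_succ_apply']; exact ih.P hb
  let F : ℕ → E d → E d := fun l => (fun f => f - P β f)^[l] g
  have hF : ∀ l, LipF (F l) := fun l => by
    induction l with
    | zero => exact hg'
    | succ l ih =>
      simp only [F, Function.iterate_succ_apply']
      rw [sub_eq_add_neg, ← neg_one_smul ℝ (P β _)]
      exact ih.add ((ih.P hb).smul (-1))
  have hPsub : ∀ {f f' : E d → E d}, LipF f → LipF f' → ∀ k,
      (P β)^[k] (f - f') = (P β)^[k] f - (P β)^[k] f' := fun {f f'} hf hf' k => by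
    induction k with
    | zero => rfl
    | succ k ih =>
      simp only [Function.iterate_succ_apply', ih]
      funext x
      exact integral_sub ((hPk hf k).integrable_comb _ _) ((hPk hf' k).integrable_comb _ _)
  have hmove : ∀ i {f h : E d → E d}, LipF f → LipF h →
      pairing ((P β)^[i] f) h = pairing f ((P β)^[i] h) := fun i => by
    induction i with
    | zero => exact fun _ _ => rfl
    | succ i ih =>
      intro f h hf hh
      rw [Function.iterate_succ_apply', ← pairing_P_comm hb (hPk hf i) hh, ih hf (hh.P hb),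
        ← Function.iterate_succ_apply]
  let a : ℕ → ℝ := fun k => pairing g ((P β)^[k] g)
  have hD : ∀ l m k, pairing (F l) ((P β)^[k] (F m)) = diffs a k (l + m) := fun l => by
    induction l with
    | zero =>
      intro m
      induction m with
      | zero => exact fun k => rfl
      | succ m ih =>
        intro k
        show pairing g _ = _
        simp only [F, Function.iterate_succ_apply']
        rw [hPsub (hF m) ((hF m).P hb),
          pairing_sub (hPk (hF m) k) (hPk ((hF m).P hb) k) hg', ← Function.iterate_succ_apply]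
        simp only [zero_add] at ih
        rw [zero_add (m + 1), diffs]
        exact congrArg₂ (· - ·) (ih k) (ih (k + 1))
    | succ l ih =>
      intro m k
      simp only [F, Function.iterate_succ_apply']
      rw [pairing_comm, pairing_sub (hF l) ((hF l).P hb) (hPk (hF m) k), pairing_comm,
        pairing_P_comm hb (hPk (hF m) k) (hF l), pairing_comm (P β _), ← Function.iterate_succ_apply' (P β) k (F m)]
      rw [show l + 1 + m = (l + m) + 1 by omega, diffs]
      exact congrArg₂ (· - ·) (ih m k) (ih m (k + 1))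
  have hpos : ∀ k m, 0 ≤ diffs a k m := by
    have h00 : ∀ i l, 0 ≤ diffs a (2 * i) (2 * l) := fun i l => by
      rw [two_mul l, ← hD, two_mul i, Function.iterate_add_apply,
        ← hmove i (hF l) (hPk (hF l) i)]
      exact integral_nonneg fun x => real_inner_self_nonneg
    have h10 : ∀ i l, 0 ≤ diffs a (2 * i + 1) (2 * l) := fun i l => by
      rw [two_mul l, ← hD, show 2 * i + 1 = i + (i + 1) by omega, Function.iterate_add_apply,
        ← hmove i (hF l) (hPk (hF l) (i + 1)), Function.iterate_succ_apply']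
      exact pairing_P_nonneg hβ hβ' (hPk (hF l) i)
    have h01 : ∀ i l, 0 ≤ diffs a (2 * i) (2 * l + 1) := fun i l => by
      rw [diffs, sub_nonneg, two_mul l, ← hD, ← hD, two_mul i,
        show i + i + 1 = i + (i + 1) by omega, Function.iterate_add_apply (m := i) (n := i + 1),
        Function.iterate_add_apply (m := i) (n := i),
        ← hmove i (hF l) (hPk (hF l) (i + 1)), ← hmove i (hF l) (hPk (hF l) i),
        Function.iterate_succ_apply']
      exact pairing_P_le hb (hPk (hF l) i)
    intro k m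
    obtain ⟨i, rfl | rfl⟩ := Nat.even_or_odd' k <;> obtain ⟨l, rfl | rfl⟩ := Nat.even_or_odd' m
    · exact h00 i l
    · exact h01 i l
    · exact h10 i l
    · have h1 : diffs a (2 * i + 1) (2 * (l + 1))
          = diffs a (2 * i + 1) (2 * l + 1) - diffs a (2 * i + 2) (2 * l + 1) := rfl
      have h2 := h10 i (l + 1)
      have h3 := h01 (i + 1) l
      rw [show 2 * (i + 1) = 2 * i + 2 by omega] at h3
      linarith
  have hmain := sum_moment_le a hpos S w hε
  have e : ∫ x, ‖∑ i ∈ S, w i • ((P β)^[i] g) x‖ ^ 2 ∂γ d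
      = ∑ i ∈ S, ∑ j ∈ S, w i * w j * a (i + j) := by
    have hi : ∀ i j, Integrable (fun x => w i * w j * ⟪((P β)^[i] g) x, ((P β)^[j] g) x⟫) (γ d) :=
      fun i j => (pairing_integrable (hPk hg' i) (hPk hg' j)).const_mul _
    simp only [← real_inner_self_eq_norm_sq, sum_inner, inner_sum, real_inner_smul_left,
      real_inner_smul_right, ← mul_assoc]
    rw [integral_finsetSum]
    · refine Finset.sum_congr rfl fun i _ => ?_
      rw [integral_finsetSum]
      · refine Finset.sum_congr rfl fun j _ => ?_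
        simp only [a]
        rw [Function.iterate_add_apply, ← hmove i hg' (hPk hg' j), pairing, ← integral_const_mul]
        exact integral_congr_ae (ae_of_all _ fun x => congrArg (w i * w j * ·) (real_inner_comm _ _))
      · exact fun j _ => (hi i j).congr (ae_of_all _ fun x => congrArg (w i * w j * ·) (real_inner_comm _ _))
    · exact fun i _ => integrable_finsetSum _ fun j _ => (hi i j).congr (ae_of_all _ fun x => congrArg (w i * w j * ·) (real_inner_comm _ _))
  rw [e]
  simpa [a, pairing, real_inner_self_eq_norm_sq] using hmain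

end

end Vale.Agent.P347.Quarter
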