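import Vale.Agent.P347.Quarter.Chain

/-!
# P347, exponent 1/4: all rounds together
-/

namespace Vale.Agent.P347.Quarter

open MeasureTheory ProbabilityTheory Real WithLp Finset
open scoped RealInnerProductSpace

noncomputable section

variable {d n L : ℕ} {β h : ℝ} {g : E d → E d} {S : Finset ℕ} {c : ℕ → ℝ} {ε W : ℝ} {J₃ : ℕ}
  {f : E d → ℝ}

/-- The step size of round `j`: a geometric tail, then uniform steps. -/
def size (h : ℝ) (J₃ j : ℕ) : ℝ := if j < J₃ then h / 2 ^ (J₃ - j) else h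

/-- The algorithm, as iterated averaging operators. -/
def UA (h β : ℝ) (n L : ℕ) (S : Finset ℕ) (c : ℕ → ℝ) (J₃ : ℕ) (g : E d → E d) (f : E d → ℝ) :
    ℕ → E d → ℝ
  | 0 => G (h / 2 ^ (J₃ + 1)) (Nlast (h / 2 ^ (J₃ + 1)) g f)
  | j + 1 => G (size h J₃ j) (Aop (size h J₃ j) β n L S c g (UA h β n L S c J₃ g f j))

/-- The Euler chains, as iterated averaging operators. -/
def UE (h β : ℝ) (n J₃ : ℕ) (g : E d → E d) (f : E d → ℝ) : ℕ → E d → ℝ
  | 0 => G (h / 2 ^ (J₃ + 1)) (Nlast (h / 2 ^ (J₃ + 1)) g f)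
  | j + 1 => Q (size h J₃ j) (seed d n) (Phi (size h J₃ j) β g n) (UE h β n J₃ g f j)

theorem size_pos (hh : 0 < h) (j : ℕ) : 0 < size h J₃ j := by
  unfold size; split_ifs <;> positivity

theorem size_le (hh : 0 < h) (j : ℕ) : size h J₃ j ≤ h := by
  unfold size; split_ifs
  · exact div_le_self hh.le (one_le_pow₀ one_le_two)
  · exact le_rfl

theorem size_ge (hh : 0 < h) (j : ℕ) : h / 2 ^ (J₃ + 1) ≤ size h J₃ j := by
  unfold size; split_ifs
  · exact div_le_div_of_nonneg_left hh.le (by positivity) (pow_le_pow_right₀ one_le_two (by omega))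
  · exact div_le_self hh.le (one_le_pow₀ one_le_two)

theorem Test.mono {u : E d → ℝ} {du : E d → E d} {a b a' b' : ℝ} (hu : Test u du a b) (ha : a ≤ a')
    (hb : b ≤ b') (hb0 : 0 ≤ b) : Test u du a' b' :=
  ⟨hu.bdd, hu.grad, hu.smooth, fun x => (hu.le₁ x).trans ha,
    fun x => (hu.le₂ x).trans (pow_le_pow_left₀ hb0 hb 2)⟩

theorem Lip1.mono {u : E d → ℝ} {a a' : ℝ} (hu : Lip1 u a) (ha : a ≤ a') : Lip1 u a' :=
  ⟨hu.bdd, hu.smooth, fun x => (hu.lip x).trans ha⟩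

theorem Lip1.meas {u : E d → ℝ} {a : ℝ} (hu : Lip1 u a) : Measurable u :=
  hu.smooth.continuous.measurable

/-- One round of the Euler chains on a test function. -/
theorem test_Q (hg : Pot g) (hβ : 2 / 3 ≤ β) (hβ' : β < 1) {η : ℝ} (hη : 0 < η) (hη' : η ≤ 1 / 4)
    {u : E d → ℝ} {a : ℝ} (hu : Lip1 u a) :
    Lip1 (Q η (seed d n) (Phi η β g n) u) a ∧
    ∃ du, Test (Q η (seed d n) (Phi η β g n) u) du (1 / √η) (a / √η) := by
  have hf := phi_flow (n := n) hg hη hη' hβ hβ'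
  have hc : 1 / (1 + η) ≤ (1 : ℝ) := (div_le_one (by linarith)).2 (by linarith)
  have hR := (lip1_R hf hu).mono (mul_le_of_le_one_left hu.nonneg hc)
  obtain ⟨du, hdu⟩ := test_G hR hη
  exact ⟨hR.smoothing, du, hdu.mono (min_le_right _ _) le_rfl
    (div_nonneg hu.nonneg (sqrt_nonneg _))⟩

variable (hg : Pot g) (hh : 0 < h) (hh' : h ≤ 1 / 8) (hβ : 2 / 3 ≤ β) (hβ' : β < 1)
  (hN : Lip1 (Nlast (h / 2 ^ (J₃ + 1)) g f) (1 / √(h / 2 ^ (J₃ + 1))))

include hg hh hh' hβ hβ' hN in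
theorem UE_lip (j : ℕ) : Lip1 (UE h β n J₃ g f j) (1 / √(h / 2 ^ (J₃ + 1))) := by
  induction j with
  | zero => exact hN.smoothing
  | succ j ih => exact (test_Q hg hβ hβ' (size_pos hh j) (by linarith [size_le (J₃ := J₃) hh j]) ih).1

include hg hh hh' hβ hβ' hN in
theorem UE_tail (j : ℕ) (hj : j ≤ J₃) :
    ∃ du, Test (UE h β n J₃ g f j) du (1 / √(h / 2 ^ (J₃ + 1 - j))) (2 / (h / 2 ^ (J₃ + 1 - j))) := by
  induction j with
  | zero =>
    set η := h / 2 ^ (J₃ + 1)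
    have hη : 0 < η := by positivity
    obtain ⟨du, hdu⟩ := test_G hN hη
    refine ⟨du, hdu.mono (min_le_right _ _) ?_ (by positivity)⟩
    rw [div_div, mul_self_sqrt hη.le]
    exact (div_le_div_iff_of_pos_right hη).2 one_le_two
  | succ j ih =>
    obtain ⟨du, hdu⟩ := ih (by omega)
    have hs : size h J₃ j = h / 2 ^ (J₃ - j) := if_pos (by omega)
    obtain ⟨du', h'⟩ := (test_Q (n := n) hg hβ hβ' (size_pos (J₃ := J₃) hh j)
      (by linarith [size_le (J₃ := J₃) hh j]) hdu.lip1).2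
    rw [show J₃ + 1 - (j + 1) = J₃ - j by omega, ← hs]
    refine ⟨du', h'.mono le_rfl ?_ (by positivity)⟩
    have e : h / 2 ^ (J₃ + 1 - j) = size h J₃ j / 2 := by
      rw [hs, show J₃ + 1 - j = J₃ - j + 1 by omega, pow_succ, div_div]
    have := size_pos (J₃ := J₃) hh j
    rw [e, div_div, ← sqrt_mul (by positivity)]
    calc 1 / √(size h J₃ j / 2 * size h J₃ j)
        ≤ 1 / √((size h J₃ j / 2) ^ 2) :=
          one_div_le_one_div_of_le (by positivity) (sqrt_le_sqrt (by nlinarith))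
      _ = 2 / size h J₃ j := by rw [sqrt_sq (by positivity), one_div_div]

theorem UE_iterate (k : ℕ) :
    UE h β n J₃ g f (J₃ + k) = (Q h (seed d n) (Phi h β g n))^[k] (UE h β n J₃ g f J₃) := by
  induction k with
  | zero => rfl
  | succ k ih =>
    have hs : size h J₃ (J₃ + k) = h := if_neg (by omega)
    rw [Function.iterate_succ_apply', ← ih, ← Nat.add_assoc, UE, hs]

include hg hh hh' hβ hβ' hN in
theorem UE_top : Lip1 (UE h β n J₃ g f J₃) (2 / √h) ∧
    ∃ du, Test (UE h β n J₃ g f J₃) du (2 / √h) (4 / h) := by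
  obtain ⟨du, hdu⟩ := UE_tail (n := n) hg hh hh' hβ hβ' hN J₃ le_rfl
  rw [show J₃ + 1 - J₃ = 1 by omega, pow_one] at hdu
  have h1 : 1 / √(h / 2) ≤ 2 / √h := by
    rw [sqrt_div' _ (by norm_num), one_div_div]
    gcongr
    rw [sqrt_le_left] <;> norm_num
  have := hdu.mono h1 (le_of_eq (show 2 / (h / 2) = 4 / h by field_simp; norm_num)) (by positivity)
  exact ⟨this.lip1, du, this⟩

include hg hh hh' hβ hβ' hN in
theorem UE_uniform (k : ℕ) : ∃ du, Test (UE h β n J₃ g f (J₃ + (k + 1))) du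
    (1 / √(h * (k + 1 : ℕ))) (4 / (h * (k + 1 : ℕ)) + 8) := by
  obtain ⟨hl, -⟩ := UE_top (n := n) hg hh hh' hβ hβ' hN
  rw [UE_iterate]
  rcases Nat.eq_zero_or_pos k with rfl | hk
  · obtain ⟨du, hdu⟩ := (test_Q (n := n) hg hβ hβ' hh (by linarith) hl).2
    refine ⟨du, ?_⟩
    rw [Nat.zero_add, Function.iterate_one, Nat.cast_one, mul_one]
    refine hdu.mono le_rfl ?_ (by positivity)
    rw [div_div, mul_self_sqrt hh.le]
    exact ((div_le_div_iff_of_pos_right hh).2 (by norm_num)).trans (le_add_of_nonneg_right (by norm_num))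
  · obtain ⟨du, hdu⟩ := test_iterate (phi_flow (n := n) hg hh (by linarith) hβ hβ')
      ((div_le_one (by linarith)).2 (by linarith)) (by positivity) hh hl (k := k + 1) (by omega)
    refine ⟨du, hdu.mono le_rfl (le_of_eq ?_) (by positivity)⟩
    field_simp; ring

include hg hh hh' hβ hβ' hN in
theorem UE_decay (k : ℕ) :
    Lip1 (UE h β n J₃ g f (J₃ + k)) ((1 / (1 + h)) ^ k * (2 / √h)) := by
  rw [UE_iterate]
  exact lip1_iterate (phi_flow (n := n) hg hh (by linarith) hβ hβ')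
    ((div_le_one (by linarith)).2 (by linarith)) hh (UE_top (n := n) hg hh hh' hβ hβ' hN).1 k

theorem rate_le {η L₁ L₂ a b : ℝ} (hr : Rule β n L S c ε W) (hη : 0 < η) (hη' : η ≤ h)
    (h1 : 0 ≤ L₁) (h2 : 0 ≤ L₂) (ha : η * √η * L₁ ≤ a) (hb : η ^ 3 * L₂ ≤ b) :
    rate d n L β ε W η L₁ L₂ ≤ 6 * √d * (8 * h ^ 2 + ε) * a
      + (4 * √d * (W ^ 2 + 4) + 1500 * (L + 1) * (1 + n * (1 - β)) * (h ^ 2 * d)) * b := by
  have he := hr.ε0
  have := sub_nonneg.2 hr.β_lt.le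
  have h3 : η ^ 2 ≤ h ^ 2 := pow_le_pow_left₀ hη.le hη' 2
  refine add_le_add ?_ ?_
  · refine le_trans (le_of_eq (show 6 * √d * (η * √η) * L₁ * (8 * η ^ 2 + ε)
      = 6 * √d * (8 * η ^ 2 + ε) * (η * √η * L₁) by ring)) ?_
    exact mul_le_mul (mul_le_mul_of_nonneg_left (by linarith) (by positivity)) ha
      (by positivity) (by positivity)
  · rw [mul_comm]
    exact mul_le_mul (by gcongr) hb (by positivity) (by positivity)

/-- The step hypothesis at the base size. -/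
def Small (h β : ℝ) (n L : ℕ) (W : ℝ) : Prop :=
  h * (W ^ 2 + (L + 1) * (1 + n * (1 - β))) ≤ 1 / 5000

/-- The step operator is an averaging operator. -/
def Avg (h β : ℝ) (n L : ℕ) (S : Finset ℕ) (c : ℕ → ℝ) (g : E d → E d) : Prop :=
  ∀ η : ℝ, 0 < η → η ≤ h → ∀ u : E d → ℝ, Measurable u → (∀ x, |u x| ≤ 1) →
    Measurable (Aop η β n L S c g u) ∧ ∀ x, |Aop η β n L S c g u x| ≤ 1

variable (hr : Rule β n L S c ε W) (hA : Avg h β n L S c g)

include hh hA hN in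
theorem UA_ok (j : ℕ) :
    Measurable (UA h β n L S c J₃ g f j) ∧ ∀ x, |UA h β n L S c J₃ g f j x| ≤ 1 := by
  induction j with
  | zero => exact ⟨hN.smoothing.meas, hN.smoothing.bdd⟩
  | succ j ih =>
    obtain ⟨h1, h2⟩ := hA _ (size_pos hh j) (size_le hh j) _ ih.1 ih.2
    have := lip1_G h1 h2 (size_pos (J₃ := J₃) hh j)
    exact ⟨this.meas, this.bdd⟩

/-- Closeness of the algorithm to the Euler chains after `j` rounds. -/
def Close (h β : ℝ) (n L : ℕ) (S : Finset ℕ) (c : ℕ → ℝ) (J₃ : ℕ) (g : E d → E d) (f : E d → ℝ)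
    (j : ℕ) (e Φ : ℝ) : Prop :=
  ∀ y, |UA h β n L S c J₃ g f j y - UE h β n J₃ g f j y| ≤ e * (Φ + ‖y‖ ^ 2 / d)

include hg hh hh' hr hA hN in
theorem close_succ (hd : 1 ≤ d) (hs : Small h β n L W) {j : ℕ} {e Φ e' Φ' a b L₁ L₂ : ℝ}
    {du : E d → E d} (hU : Test (UE h β n J₃ g f j) du L₁ L₂) (h2 : 0 ≤ L₂) (he : 0 ≤ e) (hΦ : 1 ≤ Φ)
    (hc : Close h β n L S c J₃ g f j e Φ)
    (ha : size h J₃ j * √(size h J₃ j) * L₁ ≤ a) (hb : size h J₃ j ^ 3 * L₂ ≤ b)
    (he' : e + (6 * √d * (8 * h ^ 2 + ε) * a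
      + (4 * √d * (W ^ 2 + 4) + 1500 * (L + 1) * (1 + n * (1 - β)) * (h ^ 2 * d)) * b) ≤ e')
    (hΦ' : Φ + 5 * size h J₃ j ≤ Φ') : Close h β n L S c J₃ g f (j + 1) e' Φ' := by
  intro y
  have h0 := size_pos (J₃ := J₃) hh j
  have h1 := size_le (J₃ := J₃) hh j
  have hL₁ : 0 ≤ L₁ := (norm_nonneg _).trans (hU.le₁ 0)
  obtain ⟨hm, hbd⟩ := UA_ok hh hN hA j
  have hsm : size h J₃ j * (W ^ 2 + (L + 1) * (1 + n * (1 - β))) ≤ 1 / 5000 :=
    (mul_le_mul_of_nonneg_right h1 (by have := sub_nonneg.2 hr.β_lt.le; positivity)).trans hs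
  refine (round_close hg hd h0 (h1.trans hh') hr hsm hm hbd (hA _ h0 h1 _ hm hbd) hU h2 he hΦ
    hc y).trans ?_
  have := rate_nonneg hr (d := d) h0.le hL₁ h2
  refine mul_le_mul ((add_le_add le_rfl (rate_le hr h0 h1 hL₁ h2 ha hb)).trans he')
    (add_le_add hΦ' le_rfl) (by positivity) ?_
  linarith [rate_le (d := d) hr h0 h1 hL₁ h2 ha hb]

include hg hh hh' hr hA hN in
theorem close_tail (hd : 1 ≤ d) (hs : Small h β n L W) (j : ℕ) (hj : j ≤ J₃) :
    Close h β n L S c J₃ g f j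
      (6 * √d * (8 * h ^ 2 + ε) * (2 * h * j)
        + (4 * √d * (W ^ 2 + 4) + 1500 * (L + 1) * (1 + n * (1 - β)) * (h ^ 2 * d)) * (4 * h ^ 2 * j))
      (1 + 5 * h / 2 ^ (J₃ - j)) := by
  induction j with
  | zero => intro y; simp [UA, UE]
  | succ j ih =>
    obtain ⟨du, hU⟩ := UE_tail (n := n) hg hh hh' hr.β_ge hr.β_lt hN j (by omega)
    have hsz : size h J₃ j = h / 2 ^ (J₃ - j) := if_pos (by omega)
    have e : h / 2 ^ (J₃ + 1 - j) = size h J₃ j / 2 := by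
      rw [hsz, show J₃ + 1 - j = J₃ - j + 1 by omega, pow_succ, div_div]
    have h0 := size_pos (J₃ := J₃) hh j
    have h1 := size_le (J₃ := J₃) hh j
    have := sub_nonneg.2 hr.β_lt.le
    have := hr.ε0
    refine close_succ hg hh hh' hN hr hA hd hs hU (by positivity) (by positivity)
      (le_add_of_nonneg_right (by positivity)) (ih (by omega)) (a := 2 * h) (b := 4 * h ^ 2) ?_ ?_
      (le_of_eq (by push_cast; ring)) ?_
    · rw [e, sqrt_div h0.le, one_div_div, mul_assoc, mul_div_cancel₀ _ (sqrt_pos.2 h0).ne', mul_comm]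
      exact mul_le_mul ((sqrt_le_left (by norm_num)).2 (by norm_num)) h1 h0.le (by norm_num)
    · rw [e, show size h J₃ j ^ 3 * (2 / (size h J₃ j / 2)) = 4 * size h J₃ j ^ 2 by
        field_simp; ring]
      gcongr
    · rw [hsz, show J₃ - j = J₃ - (j + 1) + 1 by omega, pow_succ]
      exact le_of_eq (by field_simp; ring)

include hg hh hh' hr hA hN in
theorem close_uniform (hd : 1 ≤ d) (hs : Small h β n L W) (k : ℕ) :
    Close h β n L S c J₃ g f (J₃ + (k + 1))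
      (6 * √d * (8 * h ^ 2 + ε) * (h * (2 * J₃ + (2 + 2 * √k)))
        + (4 * √d * (W ^ 2 + 4) + 1500 * (L + 1) * (1 + n * (1 - β)) * (h ^ 2 * d))
          * (h ^ 2 * (4 * J₃ + (4 + 4 * harmonic k + 8 * h * k))))
      (1 + 5 * h * (k + 2)) := by
  have := sub_nonneg.2 hr.β_lt.le
  have := hr.ε0
  induction k with
  | zero =>
    obtain ⟨-, du, hU⟩ := UE_top (n := n) hg hh hh' hr.β_ge hr.β_lt hN
    have hsz : size h J₃ J₃ = h := if_neg (lt_irrefl _)
    refine close_succ hg hh hh' hN hr hA hd hs hU (by positivity) (by positivity)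
      (le_add_of_nonneg_right (by positivity)) (close_tail hg hh hh' hN hr hA hd hs J₃ le_rfl)
      (a := 2 * h) (b := 4 * h ^ 2) ?_ ?_ (le_of_eq (by simp; ring)) ?_
    · rw [hsz]; exact le_of_eq (by field_simp [(sqrt_pos.2 hh).ne'])
    · rw [hsz]; exact le_of_eq (by field_simp)
    · rw [hsz, Nat.sub_self, pow_zero, div_one, Nat.cast_zero]; linarith
  | succ k ih =>
    obtain ⟨du, hU⟩ := UE_uniform (n := n) hg hh hh' hr.β_ge hr.β_lt hN k
    have hsz : size h J₃ (J₃ + (k + 1)) = h := if_neg (by omega)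
    have hk : (0 : ℝ) < (k + 1 : ℕ) := by positivity
    have hH : (0 : ℝ) ≤ harmonic k := by
      rcases Nat.eq_zero_or_pos k with rfl | hk'
      · simp
      · exact_mod_cast (harmonic_pos hk'.ne').le
    refine close_succ (j := J₃ + (k + 1)) hg hh hh' hN hr hA hd hs hU (by positivity) (by positivity)
      (le_add_of_nonneg_right (by positivity)) ih
      (a := h * (1 / √(k + 1 : ℕ))) (b := h ^ 2 * (4 / (k + 1 : ℕ) + 8 * h)) ?_ ?_ ?_ ?_
    · rw [hsz, sqrt_mul hh.le]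
      exact le_of_eq (by field_simp [(sqrt_pos.2 hh).ne', (sqrt_pos.2 hk).ne'])
    · rw [hsz]; exact le_of_eq (by field_simp)
    · have hroot : 1 / √(k + 1 : ℕ) ≤ 2 * √(k + 1 : ℕ) - 2 * √k := by
        rw [div_le_iff₀ (sqrt_pos.2 hk)]
        have h1 := sq_sqrt hk.le
        have h2 := sq_sqrt (Nat.cast_nonneg k : (0 : ℝ) ≤ k)
        push_cast at h1 ⊢
        nlinarith [sq_nonneg (√((k : ℝ) + 1) - √k)]
      rw [harmonic_succ, Rat.cast_add, Rat.cast_inv, Rat.cast_natCast]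
      have hX : 0 ≤ 6 * √d * (8 * h ^ 2 + ε) * h := by positivity
      have := mul_le_mul_of_nonneg_left hroot hX
      rw [inv_eq_one_div]
      push_cast
      push_cast at this
      linear_combination this
    · rw [hsz]; push_cast; linarith

end

end Vale.Agent.P347.Quarter
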