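import Vale.Agent.P347.Quarter.Main
import Vale.Agent.P347.Quarter.AlgImpl
import Vale.Agent.P347.Quarter.Params
import Vale.Agent.P347.Quarter.Quad
import Vale.Agent.P347.Colour.Coord

/-!
# P347, exponent 1/4: the sampler
-/

namespace Vale.Agent.P347.Quarter

open MeasureTheory Real WithLp Finset
open Vale.Agent.P347.Colour (Pt Resp Impl)
noncomputable section
variable {d : ℕ}

variable {h β : ℝ} {n L J₃ : ℕ} {S : Finset ℕ} {c : ℕ → ℝ}

/-- The algorithm is a randomized program with a bounded expected number of queries. -/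
theorem rimpl_UA (hn : 1 ≤ n) (h0 : 0 ≤ β) (h1 : β < 1) (j : ℕ) :
    RImpl (j * ((S.card : ℝ) + 10 * (L + 1)) + 1)
      (fun (O : Pt d → Resp d) (f : E d → ℝ) => UA h β n L S c J₃ (gOf O) f j) := by
  induction j with
  | zero =>
    have := (RImpl.of_impl (impl_G (d := d) (h / 2 ^ (J₃ + 1)))).comp
      (RImpl.of_impl (impl_last (d := d) (h / 2 ^ (J₃ + 1))))
    refine RImpl.mono (A := fun O f => UA h β n L S c J₃ (gOf O) f 0) this ?_
    simp
  | succ j ih =>
    have := (RImpl.of_impl (impl_G (d := d) (size h J₃ j))).comp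
      ((rimpl_Aop (size h J₃ j) β n L S c hn h0 h1).comp ih)
    refine RImpl.mono (A := fun O f => UA h β n L S c J₃ (gOf O) f (j + 1)) this ?_
    push_cast; linarith

/-- The step is an averaging operator. -/
theorem avg_Aop (hn : 1 ≤ n) (h0 : 0 ≤ β) (h1 : β < 1) {O : Pt d → Resp d} (hO : Measurable O) :
    Avg h β n L S c (gOf O) := fun η _ _ u hu hu1 =>
  ((rimpl_Aop η β n L S c hn h0 h1).good hO).bdd u 1 hu hu1

/-- The sampler, for every positive margin of the exponent. -/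
theorem sampler {γ : ℝ} (hγ : 0 < γ) : ∃ C : ℝ, ∀ d : ℕ, 2 ≤ d →
    ∃ q : ℕ, (q : ℝ) ≤ C * (d : ℝ) ^ ((1 : ℝ) / 4 + γ) ∧
    ∃ (Ω : Type) (_ : MeasurableSpace Ω) (μ : Measure Ω), IsProbabilityMeasure μ ∧
    ∃ F : (Pt d → Resp d) → Ω → Pt d, Colour.Uses q Ω F ∧
      ∀ V : Pt d → ℝ, Colour.Cls (id : Fin d → Fin d) V → ∀ B : Set (Pt d), MeasurableSet B →
        |(μ.map (F (Colour.oracle V))).real B - (Colour.law V).real B| ≤ 1 / 10 := by
  obtain ⟨p, hp, hpar⟩ := parameters hγ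
  obtain ⟨C₀, hquad⟩ := quad_scalar p hp
  obtain ⟨C, hC⟩ := hpar (max C₀ 0) (le_max_right _ _)
  refine ⟨C, fun d hd => ?_⟩
  obtain ⟨M, J, L, N, J₃, h, β, hM, hnL, hLn, hN, hh, hh', hβ, hβ', hs, herr, hcost⟩ := hC d hd
  obtain ⟨S, w, hS, hcard, hw, hyq⟩ := hquad M J hM
  set n := p * M * 2 ^ J with hn'
  set Cq := max C₀ 0
  have hn : 1 ≤ n := Nat.one_le_iff_ne_zero.2 (by
    have : 0 < p * M * 2 ^ J := Nat.mul_pos (Nat.mul_pos hp hM) (by positivity)
    omega)
  have hβ0 : 0 ≤ β := by linarith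
  have hb1 : 0 ≤ 1 - β := by linarith
  set c : ℕ → ℝ := fun k => (1 - β) * β ^ k * w k with hc
  have hCle : C₀ * (n : ℝ) ≤ Cq * n := mul_le_mul_of_nonneg_right (le_max_left _ _) (Nat.cast_nonneg n)
  have hr : Rule β n L S c (epsQ Cq p M n β) (wQ Cq n β) := by
    have hCq : 0 ≤ Cq := le_max_right _ _
    refine ⟨hn, hnL, hLn, hβ, hβ', hS, by unfold epsQ; positivity, fun y hy hy1 => ?_, ?_⟩
    · have hby : β * y ≤ 1 := by nlinarith
      have key := hyq (β * y) (mul_nonneg hβ0 hy) hby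
      have e : ∑ k ∈ S, c k * y ^ (k + 1) - ∑ k ∈ range n, (1 - β) * β ^ k * y ^ (k + 1)
          = -((1 - β) * y * (∑ k ∈ range n, (β * y) ^ k - ∑ k ∈ S, w k * (β * y) ^ k)) := by
        rw [mul_sub, mul_sum, mul_sum, neg_sub]
        congr 1 <;> refine sum_congr rfl fun k _ => ?_ <;> simp only [hc, mul_pow, pow_succ] <;> ring
      rw [e, abs_neg, abs_mul, abs_mul, abs_of_nonneg hb1, abs_of_nonneg hy]
      refine (mul_le_mul (mul_le_of_le_one_right hb1 hy1) key (abs_nonneg _) hb1).trans ?_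
      rw [epsQ, ← mul_div_assoc, mul_assoc _ Cq]
      gcongr
    · have hk : ∀ k ∈ S, |c k| ≤ (1 - β) * |w k| := fun k _ => by
        rw [hc, abs_mul, abs_mul, abs_of_nonneg hb1, abs_pow, abs_of_nonneg hβ0]
        exact mul_le_mul_of_nonneg_right
          (mul_le_of_le_one_right hb1 (pow_le_one₀ hβ0 hβ'.le)) (abs_nonneg _)
      refine (sum_le_sum hk).trans ?_
      rw [← mul_sum, wQ, mul_assoc]
      exact mul_le_mul_of_nonneg_left (hw.trans hCle) hb1
  set e := totalCost p M J L N J₃ with he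
  have hrim : RImpl e
      (fun (O : Pt d → Resp d) (f : E d → ℝ) => UA h β n L S c J₃ (gOf O) f (J₃ + N)) := by
    refine (rimpl_UA hn hβ0 hβ' (J₃ + N)).mono ?_
    have hcard' : (S.card : ℝ) ≤ (J + 1) * (p * M) := by exact_mod_cast hcard
    have h1 := mul_le_mul_of_nonneg_left hcard' (Nat.cast_nonneg (α := ℝ) (J₃ + N))
    rw [he, totalCost]
    push_cast at h1 ⊢
    linarith [(Nat.cast_nonneg J₃ : (0 : ℝ) ≤ J₃), (Nat.cast_nonneg N : (0 : ℝ) ≤ N)]
  have he0 : 0 ≤ e := by rw [he, totalCost]; positivity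
  set q := ⌊40 * e⌋₊ + 1 with hq
  have hq0 : (40 * e : ℝ) < q := by rw [hq]; push_cast; exact Nat.lt_floor_add_one _
  obtain ⟨A', hA', htr⟩ := hrim.truncate (q := q) (Nat.succ_pos _)
  obtain ⟨Ω, mΩ, μ, hμ, F, hF, hlaw⟩ := Impl.algorithm hA' (0 : E d)
    (out := fun x : E d => ofLp x) (by fun_prop)
  refine ⟨q, ?_, Ω, mΩ, μ, hμ, F, hF, fun V hV B hB => ?_⟩
  · refine le_trans ?_ hcost
    rw [hq]; push_cast
    linarith [Nat.floor_le (show 0 ≤ 40 * e by positivity)]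
  have hO := hV.measurable_oracle
  set f : E d → ℝ := ((fun x : E d => ofLp x) ⁻¹' B).indicator fun _ => 1 with hf
  have hfm : Measurable f := measurable_const.indicator ((by fun_prop : Measurable _) hB)
  have hf1 : ∀ x, |f x| ≤ 1 := fun x => by
    by_cases hx : x ∈ (fun x : E d => ofLp x) ⁻¹' B <;> simp [hf, hx]
  have hint : ∫ x, f x ∂piE V = (Colour.law V).real B := by
    rw [piE, integral_map (by fun_prop) hfm.aestronglyMeasurable]
    change ∫ x, B.indicator (fun _ => (1 : ℝ)) x ∂Colour.law V = _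
    exact integral_indicator_one hB
  rw [hlaw _ hO B hB, ← hint]
  refine (abs_sub_le _ (UA h β n L S c J₃ (gOf (Colour.oracle V)) f (J₃ + N) 0) _).trans ?_
  have h1 := htr _ hO f hfm hf1 0
  have h2 : 2 * e / (q : ℝ) ≤ 1 / 20 := by
    rw [div_le_iff₀ (by linarith)]; linarith
  have h3 := (error_bound (J₃ := J₃) hV hd hN hh hh' hr hs (avg_Aop hn hβ0 hβ' hO) hfm hf1).trans herr
  linarith

end
end Vale.Agent.P347.Quarter
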