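import Vale.Agent.P347.Quarter.Path

/-!
# P347, exponent 1/4: the seeds as one standard Gaussian vector
-/

namespace Vale.Agent.P347.Quarter

open MeasureTheory ProbabilityTheory Real WithLp
open scoped RealInnerProductSpace

noncomputable section

variable {d n : ℕ}

/-- A product of standard Gaussians is the standard Gaussian of the product space. -/
theorem map_toLp_pi {ι : Type*} [Fintype ι] {F : Type*} [NormedAddCommGroup F]
    [InnerProductSpace ℝ F] [FiniteDimensional ℝ F] [MeasurableSpace F] [BorelSpace F] :
    (Measure.pi fun _ : ι => stdGaussian F).map (toLp 2)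
      = stdGaussian (PiLp 2 fun _ : ι => F) := by
  refine Measure.ext_of_charFun (funext fun t => ?_)
  rw [charFun_pi, charFun_stdGaussian]
  simp only [charFun_stdGaussian, ← Complex.exp_sum]
  congr 1
  have e : ‖t‖ ^ 2 = ∑ i, ‖t i‖ ^ 2 := PiLp.norm_sq_eq_of_L2 _ t
  have e' := congrArg (fun r : ℝ => (r : ℂ)) e
  push_cast at e'
  rw [e', ← Finset.sum_neg_distrib, Finset.sum_div]

/-- A pair of standard Gaussians is the standard Gaussian of the product space. -/
theorem map_toLp_prod {F G : Type*} [NormedAddCommGroup F]
    [InnerProductSpace ℝ F] [FiniteDimensional ℝ F] [MeasurableSpace F] [BorelSpace F]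
    [NormedAddCommGroup G] [InnerProductSpace ℝ G] [FiniteDimensional ℝ G] [MeasurableSpace G]
    [BorelSpace G] :
    ((stdGaussian F).prod (stdGaussian G)).map (toLp 2)
      = stdGaussian (WithLp 2 (F × G)) := by
  refine Measure.ext_of_charFun (funext fun t => ?_)
  rw [charFun_prod, charFun_stdGaussian, charFun_stdGaussian, charFun_stdGaussian,
    ← Complex.exp_add]
  congr 1
  have e' := congrArg (fun r : ℝ => (r : ℂ)) (WithLp.prod_norm_sq_eq_of_L2 t)
  push_cast at e'
  rw [e']
  simp only [WithLp.fst, WithLp.snd]
  ring

/-- The seeds, as vectors of one Euclidean space. -/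
theorem map_toLp_seed :
    (seed d n).map (fun s => toLp 2 (s.1, toLp 2 s.2))
      = stdGaussian (WithLp 2 (E d × PiLp 2 fun _ : Fin n => E d)) := by
  have : SFinite (Measure.pi fun _ : Fin n => γ d) := inferInstance
  rw [← map_toLp_prod, ← map_toLp_pi (ι := Fin n) (F := E d), seed]
  conv_rhs => rw [show stdGaussian (E d) = (γ d).map id from Measure.map_id.symm]
  rw [Measure.map_prod_map _ _ measurable_id (by fun_prop), Measure.map_map (by fun_prop)
    (by fun_prop)]
  simp only [Measure.map_id]
  rfl

/-- Integrals over the seeds as integrals over one Gaussian vector. -/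
theorem integral_seed {F : Type*} [NormedAddCommGroup F] [NormedSpace ℝ F]
    {v : Seed d n → F} (hv : StronglyMeasurable v) :
    ∫ s, v s ∂seed d n
      = ∫ x, v ((ofLp x).1, ofLp (ofLp x).2)
          ∂stdGaussian (WithLp 2 (E d × PiLp 2 fun _ : Fin n => E d)) := by
  rw [← map_toLp_seed, integral_map (by fun_prop)]
  exact (hv.comp_measurable (by fun_prop)).aestronglyMeasurable

end

end Vale.Agent.P347.Quarter
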