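import Vale.Agent.P347.Quarter.Gauss

/-!
# P347, exponent 1/4: derivative bounds along the outer chain

Averages over a random map, and Gaussian smoothing as a special case of them; the pointwise
gradient bound and the Hilbert–Schmidt bound of the Hessian for iterates of one round.
-/

namespace Vale.Agent.P347.Quarter

open MeasureTheory ProbabilityTheory Real Filter InnerProductSpace WithLp
open scoped RealInnerProductSpace Topology

noncomputable section

variable {d : ℕ} {Ω : Type} [MeasurableSpace Ω] {μ : Measure Ω} {Φ : E d → Ω → E d} {c e b L : ℝ}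

section linear

variable {F : Type*} [NormedAddCommGroup F] [NormedSpace ℝ F]

/-- A linear map, rebuilt from the images of the unit vectors. -/
def ofCols (v : Fin d → F) : E d →L[ℝ] F :=
  ∑ i, (innerSL ℝ (EuclideanSpace.single i (1 : ℝ))).smulRight (v i)

theorem ofCols_eq (A : E d →L[ℝ] F) :
    ofCols (fun i => A (EuclideanSpace.single i 1)) = A := by
  ext x
  conv_rhs => rw [← (EuclideanSpace.basisFun (Fin d) ℝ).sum_repr x, map_sum]
  simp [ofCols, EuclideanSpace.inner_single_left]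

theorem continuous_ofCols : Continuous (ofCols : (Fin d → F) → (E d →L[ℝ] F)) := by
  unfold ofCols
  refine continuous_finsetSum _ fun i _ => ?_
  exact (ContinuousLinearMap.smulRightL ℝ (E d) F (innerSL ℝ (EuclideanSpace.single i (1 : ℝ)))).continuous.comp
    (continuous_apply i)

theorem opNorm_sq_le_sum (A : E d →L[ℝ] F) :
    ‖A‖ ^ 2 ≤ ∑ i, ‖A (EuclideanSpace.single i 1)‖ ^ 2 := by
  have h : ‖A‖ ≤ √(∑ i, ‖A (EuclideanSpace.single i 1)‖ ^ 2) := by
    refine A.opNorm_le_bound (sqrt_nonneg _) fun x => ?_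
    conv_lhs => rw [← (EuclideanSpace.basisFun (Fin d) ℝ).sum_repr x, map_sum]
    refine (norm_sum_le _ _).trans ?_
    simp only [EuclideanSpace.basisFun_repr, EuclideanSpace.basisFun_apply, map_smul, norm_smul,
      norm_eq_abs]
    refine le_trans (le_of_eq (Finset.sum_congr rfl fun i _ => mul_comm _ _)) ?_
    refine (sum_mul_le_sqrt_mul_sqrt _ _ _).trans (le_of_eq ?_)
    rw [EuclideanSpace.norm_eq x]
    simp [sq_abs]
  have := pow_le_pow_left₀ (norm_nonneg A) h 2
  rwa [sq_sqrt (Finset.sum_nonneg fun i _ => sq_nonneg _)] at this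

end linear

theorem hs_nonneg (A : E d →L[ℝ] E d) : 0 ≤ hs A := Finset.sum_nonneg fun _ _ => sq_nonneg _

theorem hs_adjoint (A : E d →L[ℝ] E d) : hs (ContinuousLinearMap.adjoint A) = hs A := by
  simp only [hs, EuclideanSpace.norm_sq_eq, norm_eq_abs, sq_abs]
  rw [Finset.sum_comm]
  refine Finset.sum_congr rfl fun i _ => Finset.sum_congr rfl fun k _ => ?_
  congr 1
  have h := ContinuousLinearMap.adjoint_inner_left A (EuclideanSpace.single i (1 : ℝ))
    (EuclideanSpace.single k (1 : ℝ))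
  simpa [EuclideanSpace.inner_single_left, EuclideanSpace.inner_single_right] using h

theorem hs_comp_le (A J : E d →L[ℝ] E d) : hs (A ∘L J) ≤ ‖J‖ ^ 2 * hs A := by
  rw [← hs_adjoint (A ∘L J), ← hs_adjoint A, ContinuousLinearMap.adjoint_comp, hs, hs,
    Finset.mul_sum]
  refine Finset.sum_le_sum fun i _ => ?_
  rw [ContinuousLinearMap.comp_apply, ← mul_pow]
  refine pow_le_pow_left₀ (norm_nonneg _) ?_ 2
  exact (ContinuousLinearMap.le_opNorm _ _).trans_eq (by rw [LinearIsometryEquiv.norm_map])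

/-- The Hilbert–Schmidt norm as a norm of the columns. -/
theorem sqrt_hs_eq (A : E d →L[ℝ] E d) :
    √(hs A) = ‖(toLp 2 fun i => A (EuclideanSpace.single i 1) : PiLp 2 fun _ : Fin d => E d)‖ := by
  rw [PiLp.norm_eq_of_L2]; rfl

theorem sqrt_hs_add (A B : E d →L[ℝ] E d) : √(hs (A + B)) ≤ √(hs A) + √(hs B) := by
  simp only [sqrt_hs_eq]
  exact le_trans (le_of_eq (by rfl)) (norm_add_le _ _)

section average

variable {F : Type*} [NormedAddCommGroup F] [NormedSpace ℝ F]

/-- Averaging a field over a random map. -/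
def Av (μ : Measure Ω) (Φ : E d → Ω → E d) (v : E d → F) (z : E d) : F := ∫ ω, v (Φ z ω) ∂μ

/-- The shift whose average is Gaussian smoothing. -/
def shift (b : ℝ) (x w : E d) : E d := x + √b • w

theorem flow_shift : Flow (d := d) 1 0 (γ d) (shift b) where
  prob := inferInstance
  meas := by unfold shift; fun_prop
  smooth w := by unfold shift; fun_prop
  lip w z := by
    simp only [shift]
    rw [fderiv_add_const, fderiv_fun_id]
    exact ContinuousLinearMap.norm_id_le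
  near w z := by
    simp only [shift]
    rw [fderiv_add_const, fderiv_fun_id, sub_self, norm_zero]

theorem G_eq (v : E d → F) : G b v = Av (γ d) (shift b) v := rfl

theorem norm_Av_le (hΦ : Flow c e μ Φ) {v : E d → F} {B : ℝ} (hB : ∀ x, ‖v x‖ ≤ B) (z : E d) :
    ‖Av μ Φ v z‖ ≤ B := by
  have := hΦ.prob
  refine (norm_integral_le_of_norm_le_const (ae_of_all _ fun ω => hB _)).trans (le_of_eq ?_)
  simp

omit [NormedSpace ℝ F] in
theorem G_sq_le {v : E d → F} {B : ℝ} (hB : ∀ x, ‖v x‖ ≤ B) (x : E d) :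
    G b (fun y => ‖v y‖ ^ 2) x ≤ B ^ 2 :=
  (le_norm_self _).trans (norm_Av_le (v := fun y => ‖v y‖ ^ 2) (B := B ^ 2) flow_shift (fun y => by
    rw [norm_eq_abs, abs_of_nonneg (sq_nonneg _)]
    exact pow_le_pow_left₀ (norm_nonneg _) (hB y) 2) x)

theorem Flow.meas_apply (hΦ : Flow c e μ Φ) (z : E d) : Measurable fun ω => Φ z ω :=
  hΦ.meas.comp (measurable_const.prodMk measurable_id)

theorem Flow.meas_jac (hΦ : Flow c e μ Φ) (z : E d) :
    StronglyMeasurable fun ω => fderiv ℝ (fun y => Φ y ω) z := by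
  have hcol : ∀ a : E d, Measurable fun ω => fderiv ℝ (fun y => Φ y ω) z a := by
    intro a
    refine measurable_of_tendsto_metrizable
      (f := fun (n : ℕ) ω => ((n : ℝ) + 1) • (Φ (z + ((n : ℝ) + 1)⁻¹ • a) ω - Φ z ω))
      (fun n => ((hΦ.meas_apply _).sub (hΦ.meas_apply z)).const_smul ((n : ℝ) + 1)) ?_
    refine tendsto_pi_nhds.2 fun ω => ?_
    exact ((hΦ.smooth ω).differentiable one_ne_zero z).hasFDerivAt.lim a
      (c := fun n : ℕ => (n : ℝ) + 1) (tendsto_norm_atTop_atTop.comp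
        (tendsto_atTop_add_const_right _ _ tendsto_natCast_atTop_atTop))
  have h := continuous_ofCols.comp_stronglyMeasurable (measurable_pi_lambda
    (fun ω i => fderiv ℝ (fun y => Φ y ω) z (EuclideanSpace.single i (1 : ℝ)))
    fun i => hcol _).stronglyMeasurable
  simpa [ofCols_eq] using h

end average

section smooth

variable {F : Type*} [NormedAddCommGroup F] [InnerProductSpace ℝ F]

/-- A bounded differentiable field with bounded derivative. -/
structure Good (v : E d → F) : Prop where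
  smooth : ContDiff ℝ 1 v
  bdd : ∃ B : ℝ, ∀ x, ‖v x‖ ≤ B ∧ ‖fderiv ℝ v x‖ ≤ B

theorem integrable_bdd [IsProbabilityMeasure μ] {W : Type*} [NormedAddCommGroup W] {f : Ω → W}
    (hf : AEStronglyMeasurable f μ) (B : ℝ) (h : ∀ ω, ‖f ω‖ ≤ B) : Integrable f μ :=
  Integrable.of_bound hf B (ae_of_all _ h)

theorem norm_integral_sq_le [IsProbabilityMeasure μ] {f : Ω → F} (hf : AEStronglyMeasurable f μ)
    {B : ℝ} (hB : ∀ ω, ‖f ω‖ ≤ B) : ‖∫ ω, f ω ∂μ‖ ^ 2 ≤ ∫ ω, ‖f ω‖ ^ 2 ∂μ := by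
  have hn : Integrable (fun ω => ‖f ω‖) μ := (integrable_bdd hf B hB).norm
  have hn2 : Integrable (fun ω => ‖f ω‖ ^ 2) μ :=
    integrable_bdd (hf.norm.pow 2) (B ^ 2) fun ω => by
      simpa [abs_of_nonneg (sq_nonneg ‖f ω‖)] using pow_le_pow_left₀ (norm_nonneg _) (hB ω) 2
  set a := ∫ ω, ‖f ω‖ ∂μ with ha
  have h0 : 0 ≤ ∫ ω, (‖f ω‖ ^ 2 - 2 * a * ‖f ω‖ + a ^ 2) ∂μ :=
    integral_nonneg fun ω => by
      show 0 ≤ ‖f ω‖ ^ 2 - 2 * a * ‖f ω‖ + a ^ 2
      nlinarith [sq_nonneg (‖f ω‖ - a)]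
  have e : ∫ ω, (‖f ω‖ ^ 2 - 2 * a * ‖f ω‖ + a ^ 2) ∂μ =
      (∫ ω, ‖f ω‖ ^ 2 ∂μ) - 2 * a * a + ∫ _, a ^ 2 ∂μ := by
    rw [integral_add (f := fun ω => ‖f ω‖ ^ 2 - 2 * a * ‖f ω‖) (hn2.sub (hn.const_mul _))
      (integrable_const _), integral_sub hn2 (hn.const_mul _), integral_const_mul, ← ha]
  rw [e] at h0
  simp at h0
  have := pow_le_pow_left₀ (norm_nonneg _) (norm_integral_le_integral_norm (μ := μ) f) 2
  nlinarith

theorem norm_Av_sq_le (hΦ : Flow c e μ Φ) {v : E d → F} (hv : Continuous v) {B : ℝ}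
    (hB : ∀ x, ‖v x‖ ≤ B) (z : E d) : ‖Av μ Φ v z‖ ^ 2 ≤ Av μ Φ (fun y => ‖v y‖ ^ 2) z := by
  have := hΦ.prob
  exact norm_integral_sq_le
    (hv.comp_stronglyMeasurable (hΦ.meas_apply z).stronglyMeasurable).aestronglyMeasurable
    fun ω => hB _

theorem Flow.meas_deriv (hΦ : Flow c e μ Φ) {v : E d → F} (hv : ContDiff ℝ 1 v) (z : E d) :
    AEStronglyMeasurable (fun ω => fderiv ℝ v (Φ z ω) ∘L fderiv ℝ (fun y => Φ y ω) z) μ :=
  (isBoundedBilinearMap_comp.continuous.comp_stronglyMeasurable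
    (((hv.continuous_fderiv one_ne_zero).comp_stronglyMeasurable
      (hΦ.meas_apply z).stronglyMeasurable).prodMk (hΦ.meas_jac z))).aestronglyMeasurable

theorem deriv_comp_le (hΦ : Flow c e μ Φ) {v : E d → F} {B : ℝ} (hB : ∀ x, ‖fderiv ℝ v x‖ ≤ B)
    (z : E d) (ω : Ω) : ‖fderiv ℝ v (Φ z ω) ∘L fderiv ℝ (fun y => Φ y ω) z‖ ≤ B * c :=
  (ContinuousLinearMap.opNorm_comp_le _ _).trans
    (mul_le_mul (hB _) (hΦ.lip ω z) (norm_nonneg _) ((norm_nonneg _).trans (hB 0)))

/-- Differentiation of an average over a random map. -/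
theorem hasFDerivAt_Av (hΦ : Flow c e μ Φ) {v : E d → F} (hv : ContDiff ℝ 1 v) {B B' : ℝ}
    (hB : ∀ x, ‖v x‖ ≤ B) (hB' : ∀ x, ‖fderiv ℝ v x‖ ≤ B') (z : E d) :
    HasFDerivAt (Av μ Φ v)
      (∫ ω, fderiv ℝ v (Φ z ω) ∘L fderiv ℝ (fun y => Φ y ω) z ∂μ) z := by
  have := hΦ.prob
  exact hasFDerivAt_integral_of_dominated_of_fderiv_le (s := Set.univ) (bound := fun _ => B' * c)
    (F := fun y ω => v (Φ y ω))
    (F' := fun y ω => fderiv ℝ v (Φ y ω) ∘L fderiv ℝ (fun y => Φ y ω) y) Filter.univ_mem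
    (Eventually.of_forall fun y =>
      (hv.continuous.comp_stronglyMeasurable (hΦ.meas_apply y).stronglyMeasurable).aestronglyMeasurable)
    (integrable_bdd (hv.continuous.comp_stronglyMeasurable
      (hΦ.meas_apply z).stronglyMeasurable).aestronglyMeasurable B fun ω => hB _)
    (hΦ.meas_deriv hv z) (ae_of_all _ fun ω y _ => deriv_comp_le hΦ hB' y ω) (integrable_const _)
    (ae_of_all _ fun ω y _ => ((hv.differentiable one_ne_zero _).hasFDerivAt).comp y
      (((hΦ.smooth ω).differentiable one_ne_zero y).hasFDerivAt))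

theorem contDiff_Av (hΦ : Flow c e μ Φ) {v : E d → F} (hv : ContDiff ℝ 1 v) {B B' : ℝ}
    (hB : ∀ x, ‖v x‖ ≤ B) (hB' : ∀ x, ‖fderiv ℝ v x‖ ≤ B') : ContDiff ℝ 1 (Av μ Φ v) := by
  have := hΦ.prob
  refine contDiff_one_iff_fderiv.2
    ⟨fun z => (hasFDerivAt_Av hΦ hv hB hB' z).differentiableAt, ?_⟩
  rw [show fderiv ℝ (Av μ Φ v) = fun z => ∫ ω, fderiv ℝ v (Φ z ω) ∘L fderiv ℝ (fun y => Φ y ω) z ∂μ
    from funext fun z => (hasFDerivAt_Av hΦ hv hB hB' z).fderiv]
  refine continuous_of_dominated (fun z => hΦ.meas_deriv hv z)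
    (fun z => ae_of_all _ fun ω => deriv_comp_le hΦ hB' z ω) (integrable_const (B' * c))
    (ae_of_all _ fun ω => ?_)
  exact ((hv.continuous_fderiv one_ne_zero).comp (hΦ.smooth ω).continuous).clm_comp
    ((hΦ.smooth ω).continuous_fderiv one_ne_zero)

theorem fderiv_Av_apply (hΦ : Flow c e μ Φ) {v : E d → F} (hv : ContDiff ℝ 1 v) {B B' : ℝ}
    (hB : ∀ x, ‖v x‖ ≤ B) (hB' : ∀ x, ‖fderiv ℝ v x‖ ≤ B') (z a : E d) :
    fderiv ℝ (Av μ Φ v) z a =
      ∫ ω, fderiv ℝ v (Φ z ω) (fderiv ℝ (fun y => Φ y ω) z a) ∂μ := by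
  have := hΦ.prob
  rw [(hasFDerivAt_Av hΦ hv hB hB' z).fderiv, ContinuousLinearMap.integral_apply
    (integrable_bdd (hΦ.meas_deriv hv z) _ (deriv_comp_le hΦ hB' z))]
  rfl

theorem norm_fderiv_Av_le (hΦ : Flow c e μ Φ) {v : E d → F} (hv : ContDiff ℝ 1 v) {B B' : ℝ}
    (hB : ∀ x, ‖v x‖ ≤ B) (hB' : ∀ x, ‖fderiv ℝ v x‖ ≤ B') (z : E d) :
    ‖fderiv ℝ (Av μ Φ v) z‖ ≤ B' * c := by
  have := hΦ.prob
  rw [(hasFDerivAt_Av hΦ hv hB hB' z).fderiv]
  refine (norm_integral_le_of_norm_le_const (ae_of_all _ (deriv_comp_le hΦ hB' z))).trans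
    (le_of_eq ?_)
  simp

theorem Good.Av (hΦ : Flow c e μ Φ) {v : E d → F} (hv : Good v) : Good (Av μ Φ v) := by
  obtain ⟨B, hB⟩ := hv.bdd
  refine ⟨contDiff_Av hΦ hv.smooth (fun x => (hB x).1) (fun x => (hB x).2),
    max B (B * c), fun x => ⟨(norm_Av_le hΦ (fun x => (hB x).1) x).trans (le_max_left _ _), ?_⟩⟩
  exact (norm_fderiv_Av_le hΦ hv.smooth (fun x => (hB x).1) (fun x => (hB x).2) x).trans
    (le_max_right _ _)

theorem Good.add {v v' : E d → F} (hv : Good v) (hv' : Good v') : Good (v + v') := by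
  obtain ⟨B, hB⟩ := hv.bdd
  obtain ⟨B', hB'⟩ := hv'.bdd
  refine ⟨hv.smooth.add hv'.smooth, B + B', fun x => ⟨?_, ?_⟩⟩
  · exact (norm_add_le _ _).trans (add_le_add (hB x).1 (hB' x).1)
  · rw [fderiv_add (hv.smooth.differentiable one_ne_zero x)
      (hv'.smooth.differentiable one_ne_zero x)]
    exact (norm_add_le _ _).trans (add_le_add (hB x).2 (hB' x).2)

theorem Av_add (hΦ : Flow c e μ Φ) {v v' : E d → F} (hv : Good v) (hv' : Good v') :
    Quarter.Av μ Φ (v + v') = Quarter.Av μ Φ v + Quarter.Av μ Φ v' := by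
  have := hΦ.prob
  obtain ⟨B, hB⟩ := hv.bdd
  obtain ⟨B', hB'⟩ := hv'.bdd
  funext z
  exact integral_add
    (integrable_bdd (hv.smooth.continuous.comp_stronglyMeasurable
      (hΦ.meas_apply z).stronglyMeasurable).aestronglyMeasurable B fun ω => (hB _).1)
    (integrable_bdd (hv'.smooth.continuous.comp_stronglyMeasurable
      (hΦ.meas_apply z).stronglyMeasurable).aestronglyMeasurable B' fun ω => (hB' _).1)

variable [FiniteDimensional ℝ F] [MeasurableSpace F] [BorelSpace F]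

theorem norm_fderiv_G_sq (hb : 0 < b) {v : E d → F} (hv : Measurable v) {B : ℝ}
    (hB : ∀ x, ‖v x‖ ≤ B) (x : E d) : b * ‖fderiv ℝ (G b v) x‖ ^ 2 ≤ B ^ 2 := by
  have h1 := (G_contDiff hb hv hB).2.2 x
  have h2 := mul_le_mul_of_nonneg_left (opNorm_sq_le_sum (fderiv ℝ (G b v) x)) hb.le
  have h3 : G b (fun y => ‖v y‖ ^ 2) x ≤ B ^ 2 := G_sq_le hB x
  nlinarith [sq_nonneg ‖G b v x‖]

theorem good_G (hb : 0 < b) {v : E d → F} (hv : Measurable v) {B : ℝ} (hB : ∀ x, ‖v x‖ ≤ B) :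
    Good (G b v) := by
  refine ⟨(G_contDiff hb hv hB).1, max B (B / √b), fun x =>
    ⟨(norm_Av_le flow_shift hB x).trans (le_max_left _ _), le_max_of_le_right ?_⟩⟩
  rw [le_div_iff₀ (sqrt_pos.2 hb)]
  refine (sq_le_sq₀ (by positivity) ((norm_nonneg _).trans (hB 0))).1 ?_
  rw [mul_pow, sq_sqrt hb.le, mul_comm]
  exact norm_fderiv_G_sq hb hv hB x

end smooth

section gradients

/-- The gradient field. -/
def grad (u : E d → ℝ) (x : E d) : E d := (toDual ℝ (E d)).symm (fderiv ℝ u x)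

theorem norm_grad (u : E d → ℝ) (x : E d) : ‖grad u x‖ = ‖fderiv ℝ u x‖ :=
  LinearIsometryEquiv.norm_map _ _

theorem continuous_grad {u : E d → ℝ} (hu : ContDiff ℝ 1 u) : Continuous (grad u) :=
  (toDual ℝ (E d)).symm.continuous.comp (hu.continuous_fderiv one_ne_zero)

theorem Test.lip1 {u : E d → ℝ} {du : E d → E d} {L₁ L₂ : ℝ} (hu : Test u du L₁ L₂) :
    Lip1 u L₁ := by
  have hd : ∀ x, fderiv ℝ u x = toDual ℝ (E d) (du x) := fun x =>
    (hasGradientAt_iff_hasFDerivAt.1 (hu.grad x)).fderiv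
  refine ⟨hu.bdd, contDiff_one_iff_fderiv.2 ⟨fun x =>
    (hasGradientAt_iff_hasFDerivAt.1 (hu.grad x)).differentiableAt, ?_⟩, fun x => ?_⟩
  · rw [show fderiv ℝ u = fun x => toDual ℝ (E d) (du x) from funext hd]
    exact (toDual ℝ (E d)).continuous.comp hu.smooth.continuous
  · rw [hd, LinearIsometryEquiv.norm_map]
    exact hu.le₁ x

theorem Lip1.norm_le {u : E d → ℝ} (hu : Lip1 u L) (x : E d) : ‖u x‖ ≤ 1 := hu.bdd x

theorem Lip1.nonneg {u : E d → ℝ} (hu : Lip1 u L) : 0 ≤ L := (norm_nonneg _).trans (hu.lip 0)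

theorem lip1_R (hΦ : Flow c e μ Φ) {u : E d → ℝ} (hu : Lip1 u L) : Lip1 (R μ Φ u) (c * L) :=
  ⟨fun x => norm_Av_le hΦ hu.norm_le x, contDiff_Av hΦ hu.smooth hu.norm_le hu.lip, fun x =>
    (norm_fderiv_Av_le hΦ hu.smooth hu.norm_le hu.lip x).trans_eq (mul_comm _ _)⟩

theorem lip1_G {v : E d → ℝ} (hv : Measurable v) (h1 : ∀ x, |v x| ≤ 1) (hb : 0 < b) :
    Lip1 (G b v) (1 / √b) := by
  refine ⟨fun x => norm_Av_le (v := v) flow_shift (B := 1) h1 x, (G_contDiff hb hv (B := 1) h1).1,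
    fun x => ?_⟩
  rw [le_div_iff₀ (sqrt_pos.2 hb)]
  refine (sq_le_sq₀ (by positivity) zero_le_one).1 ?_
  rw [mul_pow, sq_sqrt hb.le, mul_comm]
  exact norm_fderiv_G_sq hb hv h1 x

theorem Lip1.smoothing {v : E d → ℝ} (hv : Lip1 v L) : Lip1 (G b v) L := by
  have := lip1_R (flow_shift (b := b)) hv
  rwa [one_mul] at this

theorem grad_Av (hΦ : Flow c e μ Φ) {u : E d → ℝ} (hu : Lip1 u L) (z : E d) :
    grad (R μ Φ u) z = ∫ ω, (toDual ℝ (E d)).symm
      (fderiv ℝ u (Φ z ω) ∘L fderiv ℝ (fun y => Φ y ω) z) ∂μ := by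
  have := hΦ.prob
  rw [grad, show R μ Φ u = Av μ Φ u from rfl,
    (hasFDerivAt_Av hΦ hu.smooth hu.norm_le hu.lip z).fderiv]
  exact ((toDual ℝ (E d)).symm.toContinuousLinearEquiv.toContinuousLinearMap.integral_comp_comm
    (integrable_bdd (hΦ.meas_deriv hu.smooth z) _ (deriv_comp_le hΦ hu.lip z))).symm

theorem grad_G {v : E d → ℝ} (hv : Lip1 v L) : grad (G b v) = G b (grad v) := by
  funext x
  rw [G_eq, G_eq, show Av (γ d) (shift b) v = R (γ d) (shift b) v from rfl, grad_Av flow_shift hv]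
  refine integral_congr_ae (ae_of_all _ fun w => ?_)
  simp [grad, shift, fderiv_add_const, fderiv_fun_id, ContinuousLinearMap.comp_id]

theorem test_G {v : E d → ℝ} (hv : Lip1 v L) (hb : 0 < b) :
    ∃ du, Test (G b v) du (min L (1 / √b)) (L / √b) := by
  have hc := continuous_grad hv.smooth
  have hB : ∀ x, ‖grad v x‖ ≤ L := fun x => (norm_grad v x).trans_le (hv.lip x)
  refine ⟨grad (G b v), fun x => norm_Av_le flow_shift (B := 1) hv.norm_le x, fun x => ?_, ?_,
    fun x => ?_, fun x => ?_⟩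
  · rw [hasGradientAt_iff_hasFDerivAt, grad, LinearIsometryEquiv.apply_symm_apply]
    exact (hv.smoothing.smooth.differentiable one_ne_zero x).hasFDerivAt
  · rw [grad_G hv]; exact (G_contDiff hb hc.measurable hB).1
  · rw [norm_grad]
    exact le_min (hv.smoothing.lip x) ((lip1_G hv.smooth.continuous.measurable hv.bdd hb).lip x)
  · rw [grad_G hv, div_pow, sq_sqrt hb.le, le_div_iff₀ hb, mul_comm]
    have h1 := (G_contDiff hb hc.measurable hB).2.2 x
    have h3 : G b (fun y => ‖grad v y‖ ^ 2) x ≤ L ^ 2 := G_sq_le hB x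
    simp only [hs]
    nlinarith [sq_nonneg ‖G b (grad v) x‖]

theorem lip1_iterate (hΦ : Flow c e μ Φ) (hc : c ≤ 1) (hb : 0 < b) {u : E d → ℝ} (hu : Lip1 u L)
    (k : ℕ) : Lip1 ((Q b μ Φ)^[k] u) (c ^ k * L) := by
  induction k with
  | zero => simpa using hu
  | succ k ih =>
    rw [Function.iterate_succ_apply', pow_succ', mul_assoc]
    exact (lip1_R hΦ ih).smoothing

/-- Pointwise gradient bound along the chain. -/
theorem grad_iterate (hΦ : Flow c e μ Φ) (hc : c ≤ 1) (hb : 0 < b) {u : E d → ℝ} (hu : Lip1 u L)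
    (k : ℕ) (x : E d) :
    b * k * ‖fderiv ℝ ((Q b μ Φ)^[k] u) x‖ ^ 2 + ((Q b μ Φ)^[k] u) x ^ 2 ≤ 1 := by
  have := hΦ.prob
  induction k generalizing x with
  | zero =>
    simp only [Nat.cast_zero, mul_zero, zero_mul, zero_add, Function.iterate_zero, id_eq]
    exact (sq_le_one_iff_abs_le_one _).2 (hu.bdd x)
  | succ k ih =>
    rw [Function.iterate_succ_apply']
    set v := (Q b μ Φ)^[k] u
    have hv : Lip1 v (c ^ k * L) := lip1_iterate hΦ hc hb hu k
    have hw : Lip1 (R μ Φ v) (c * (c ^ k * L)) := lip1_R hΦ hv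
    set M := c * (c ^ k * L)
    have h1 := (G_contDiff hb hw.smooth.continuous.measurable hw.norm_le).2.2 x
    have h2 := mul_le_mul_of_nonneg_left (opNorm_sq_le_sum (fderiv ℝ (G b (R μ Φ v)) x)) hb.le
    have hint1 : Integrable (fun w => ‖fderiv ℝ (R μ Φ v) (shift b x w)‖ ^ 2) (γ d) :=
      integrable_bdd ((((hw.smooth.continuous_fderiv one_ne_zero).comp
        (by unfold shift; fun_prop : Continuous fun w => shift b x w)).norm.pow 2).aestronglyMeasurable)
        (M ^ 2) fun w => by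
          rw [norm_eq_abs, abs_of_nonneg (sq_nonneg _)]
          exact pow_le_pow_left₀ (norm_nonneg _) (hw.lip _) 2
    have hint2 : Integrable (fun w => ‖R μ Φ v (shift b x w)‖ ^ 2) (γ d) :=
      integrable_bdd (((hw.smooth.continuous.comp
        (by unfold shift; fun_prop : Continuous fun w => shift b x w)).norm.pow 2).aestronglyMeasurable)
        1 fun w => by
          rw [norm_eq_abs, abs_of_nonneg (sq_nonneg _)]
          exact pow_le_one₀ (norm_nonneg _) (hw.norm_le _)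
    have h3 : ‖fderiv ℝ (G b (R μ Φ v)) x‖ ^ 2
        ≤ ∫ w, ‖fderiv ℝ (R μ Φ v) (shift b x w)‖ ^ 2 ∂γ d := by
      rw [show fderiv ℝ (G b (R μ Φ v)) x = _ from
        (hasFDerivAt_Av flow_shift hw.smooth hw.norm_le hw.lip x).fderiv]
      have e1 : ∀ w, fderiv ℝ (R μ Φ v) (shift b x w) ∘L fderiv ℝ (fun y => shift b y w) x
          = fderiv ℝ (R μ Φ v) (shift b x w) := fun w => by
        simp [shift, fderiv_add_const, fderiv_fun_id, ContinuousLinearMap.comp_id]
      simp only [e1]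
      have e2 := norm_Av_sq_le (F := E d) (flow_shift (b := b)) (continuous_grad hw.smooth)
        (fun y => (norm_grad _ y).trans_le (hw.lip y)) x
      have e3 : ‖∫ w, fderiv ℝ (R μ Φ v) (shift b x w) ∂γ d‖ =
          ‖Av (γ d) (shift b) (grad (R μ Φ v)) x‖ := by
        rw [Av]
        simp only [grad]
        rw [← LinearIsometryEquiv.norm_map (toDual ℝ (E d)).symm]
        congr 1
        exact ((toDual ℝ (E d)).symm.toContinuousLinearEquiv.toContinuousLinearMap.integral_comp_comm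
          (integrable_bdd (((hw.smooth.continuous_fderiv one_ne_zero).comp
            (by unfold shift; fun_prop : Continuous fun w => shift b x w))).aestronglyMeasurable _
            fun w => hw.lip _)).symm
      rw [e3]
      simpa only [Av, norm_grad] using e2
    have key : ∀ y, b * k * ‖fderiv ℝ (R μ Φ v) y‖ ^ 2 + ‖R μ Φ v y‖ ^ 2 ≤ 1 := by
      intro y
      have m1 : AEStronglyMeasurable (fun ω => ‖fderiv ℝ v (Φ y ω)‖) μ :=
        ((hv.smooth.continuous_fderiv one_ne_zero).norm.comp_stronglyMeasurable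
          (hΦ.meas_apply y).stronglyMeasurable).aestronglyMeasurable
      have i1 : Integrable (fun ω => ‖fderiv ℝ v (Φ y ω)‖ ^ 2) μ :=
        integrable_bdd (m1.pow 2) ((c ^ k * L) ^ 2) fun ω => by
          rw [norm_eq_abs, abs_of_nonneg (sq_nonneg _)]
          exact pow_le_pow_left₀ (norm_nonneg _) (hv.lip _) 2
      have i2 : Integrable (fun ω => ‖v (Φ y ω)‖ ^ 2) μ :=
        integrable_bdd ((hv.smooth.continuous.norm.pow 2).comp_stronglyMeasurable
          (hΦ.meas_apply y).stronglyMeasurable).aestronglyMeasurable 1 fun ω => by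
          rw [norm_eq_abs, abs_of_nonneg (sq_nonneg _)]
          exact pow_le_one₀ (norm_nonneg _) (hv.norm_le _)
      have a1 : ‖fderiv ℝ (R μ Φ v) y‖ ^ 2 ≤ ∫ ω, ‖fderiv ℝ v (Φ y ω)‖ ^ 2 ∂μ := by
        rw [← norm_grad, grad_Av hΦ hv y]
        refine (norm_integral_sq_le (((toDual ℝ (E d)).symm.continuous.comp_aestronglyMeasurable
          (hΦ.meas_deriv hv.smooth y))) (B := (c ^ k * L) * c) fun ω => ?_).trans
          (integral_mono_of_nonneg (ae_of_all _ fun ω => sq_nonneg _) i1 (ae_of_all _ fun ω => ?_))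
        · rw [LinearIsometryEquiv.norm_map]; exact deriv_comp_le hΦ hv.lip y ω
        · simp only [LinearIsometryEquiv.norm_map]
          refine pow_le_pow_left₀ (norm_nonneg _)
            ((ContinuousLinearMap.opNorm_comp_le _ _).trans ?_) 2
          exact mul_le_of_le_one_right (norm_nonneg _) ((hΦ.lip ω y).trans hc)
      have a2 : ‖R μ Φ v y‖ ^ 2 ≤ ∫ ω, ‖v (Φ y ω)‖ ^ 2 ∂μ :=
        norm_Av_sq_le hΦ hv.smooth.continuous hv.norm_le y
      calc _ ≤ ∫ ω, (b * k * ‖fderiv ℝ v (Φ y ω)‖ ^ 2 + ‖v (Φ y ω)‖ ^ 2) ∂μ := by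
            rw [integral_add (i1.const_mul _) i2, integral_const_mul]
            gcongr
        _ ≤ ∫ _, (1 : ℝ) ∂μ := integral_mono ((i1.const_mul _).add i2) (integrable_const _)
            fun ω => by simpa [norm_eq_abs, sq_abs] using ih (Φ y ω)
        _ = 1 := by simp
    have h4 : b * k * (∫ w, ‖fderiv ℝ (R μ Φ v) (shift b x w)‖ ^ 2 ∂γ d)
        + G b (fun y => ‖R μ Φ v y‖ ^ 2) x ≤ 1 :=
      calc _ = ∫ w, (b * k * ‖fderiv ℝ (R μ Φ v) (shift b x w)‖ ^ 2
            + ‖R μ Φ v (shift b x w)‖ ^ 2) ∂γ d := by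
            rw [integral_add (hint1.const_mul _) hint2, integral_const_mul]; rfl
        _ ≤ ∫ _, (1 : ℝ) ∂γ d := integral_mono ((hint1.const_mul _).add hint2) (integrable_const _)
            fun w => key _
        _ = 1 := by simp
    have h5 := mul_le_mul_of_nonneg_left h3 (by positivity : 0 ≤ b * (k : ℝ))
    rw [show Q b μ Φ v = G b (R μ Φ v) from rfl]
    rw [norm_eq_abs, sq_abs] at h1
    push_cast
    nlinarith

/-- One round, as it acts on gradient fields. -/
def T (b : ℝ) (μ : Measure Ω) (Φ : E d → Ω → E d) (v : E d → E d) : E d → E d :=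
  G b (Av μ Φ v)

theorem Good.T (hΦ : Flow c e μ Φ) {v : E d → E d} (hv : Good v) :
    Good (T b μ Φ v) :=
  (hv.Av hΦ).Av flow_shift

theorem Good.iter (hΦ : Flow c e μ Φ) {v : E d → E d} (hv : Good v) :
    ∀ i, Good ((Quarter.T b μ Φ)^[i] v)
  | 0 => hv
  | i + 1 => by rw [Function.iterate_succ_apply']; exact (Good.iter hΦ hv i).T hΦ

theorem iter_add (hΦ : Flow c e μ Φ) {v v' : E d → E d} (hv : Good v) (hv' : Good v') :
    ∀ i, (T b μ Φ)^[i] (v + v') = (T b μ Φ)^[i] v + (T b μ Φ)^[i] v'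
  | 0 => rfl
  | i + 1 => by
    simp only [Function.iterate_succ_apply', iter_add hΦ hv hv' i]
    simp only [T, G_eq, Av_add hΦ (hv.iter hΦ i) (hv'.iter hΦ i)]
    exact Av_add flow_shift ((hv.iter hΦ i).Av hΦ) ((hv'.iter hΦ i).Av hΦ)

theorem hs_fderiv_Av_le (hΦ : Flow c e μ Φ) (hc : c ≤ 1) {v : E d → E d} (hv : Good v) (z : E d) :
    hs (fderiv ℝ (Av μ Φ v) z) ≤ Av μ Φ (fun y => hs (fderiv ℝ v y)) z ∧
      Integrable (fun ω => hs (fderiv ℝ v (Φ z ω))) μ := by
  have := hΦ.prob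
  obtain ⟨B, hB⟩ := hv.bdd
  have hint : Integrable (fun ω => hs (fderiv ℝ v (Φ z ω))) μ :=
    integrable_finsetSum _ fun i _ => integrable_bdd
      ((((hv.smooth.continuous_fderiv one_ne_zero).clm_apply continuous_const).norm.pow
        2).comp_stronglyMeasurable (hΦ.meas_apply z).stronglyMeasurable).aestronglyMeasurable
      (B ^ 2) fun ω => by
        rw [norm_eq_abs, abs_of_nonneg (sq_nonneg _)]
        exact pow_le_pow_left₀ (norm_nonneg _)
          (((fderiv ℝ v _).le_opNorm _).trans (by simpa using (hB _).2)) 2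
  refine ⟨?_, hint⟩
  have hi : ∀ i : Fin d, Integrable (fun ω => ‖fderiv ℝ v (Φ z ω)
      (fderiv ℝ (fun y => Φ y ω) z (EuclideanSpace.single i 1))‖ ^ 2) μ := fun i => by
    refine integrable_bdd (((hΦ.meas_deriv hv.smooth z).apply_continuousLinearMap _).norm.pow 2)
      ((B * c) ^ 2) fun ω => ?_
    rw [norm_eq_abs, abs_of_nonneg (sq_nonneg _)]
    exact pow_le_pow_left₀ (norm_nonneg _) (((fderiv ℝ v (Φ z ω) ∘L
      fderiv ℝ (fun y => Φ y ω) z).le_opNorm _).trans
      (by simpa using deriv_comp_le hΦ (fun x => (hB x).2) z ω)) 2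
  calc hs (fderiv ℝ (Av μ Φ v) z)
      ≤ ∑ i, ∫ ω, ‖fderiv ℝ v (Φ z ω)
          (fderiv ℝ (fun y => Φ y ω) z (EuclideanSpace.single i 1))‖ ^ 2 ∂μ := by
        refine Finset.sum_le_sum fun i _ => ?_
        rw [fderiv_Av_apply hΦ hv.smooth (fun x => (hB x).1) (fun x => (hB x).2)]
        refine norm_integral_sq_le ((hΦ.meas_deriv hv.smooth z).apply_continuousLinearMap _)
          (B := B * c) fun ω => ?_
        exact ((fderiv ℝ v (Φ z ω) ∘L fderiv ℝ (fun y => Φ y ω) z).le_opNorm _).trans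
          (by simpa using deriv_comp_le hΦ (fun x => (hB x).2) z ω)
    _ = ∫ ω, hs (fderiv ℝ v (Φ z ω) ∘L fderiv ℝ (fun y => Φ y ω) z) ∂μ :=
        (integral_finsetSum _ fun i _ => hi i).symm
    _ ≤ _ := integral_mono_of_nonneg (ae_of_all _ fun ω => hs_nonneg _) hint
        (ae_of_all _ fun ω => (hs_comp_le _ _).trans (mul_le_of_le_one_left (hs_nonneg _)
          (pow_le_one₀ (norm_nonneg _) ((hΦ.lip ω z).trans hc))))

/-- The Hessian bound for smoothing followed by rounds. -/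
theorem hs_iter_G (hΦ : Flow c e μ Φ) (hc : c ≤ 1) (hb : 0 < b) {v : E d → E d}
    (hv : Measurable v) {B : ℝ} (hB : ∀ x, ‖v x‖ ≤ B) (i : ℕ) (x : E d) :
    b * (i + 1) * hs (fderiv ℝ ((T b μ Φ)^[i] (G b v)) x)
      + ‖(T b μ Φ)^[i] (G b v) x‖ ^ 2 ≤ B ^ 2 := by
  have := hΦ.prob
  induction i generalizing x with
  | zero =>
    have h1 := (G_contDiff hb hv hB).2.2 x
    have h3 : G b (fun y => ‖v y‖ ^ 2) x ≤ B ^ 2 := G_sq_le hB x
    simp only [Nat.cast_zero, zero_add, mul_one, Function.iterate_zero, id_eq, hs]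
    linarith
  | succ i ih =>
    rw [Function.iterate_succ_apply']
    set w := (T b μ Φ)^[i] (G b v)
    have hw : Good w := (good_G hb hv hB).iter hΦ i
    have ha : Good (Av μ Φ w) := hw.Av hΦ
    obtain ⟨C, hC⟩ := hw.bdd
    obtain ⟨C', hC'⟩ := ha.bdd
    have h1 := (G_contDiff hb ha.smooth.continuous.measurable fun y => (hC' y).1).2.2 x
    have h2 : hs (fderiv ℝ (G b (Av μ Φ w)) x)
        ≤ G b (fun y => hs (fderiv ℝ (Av μ Φ w) y)) x :=
      (hs_fderiv_Av_le flow_shift le_rfl ha x).1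
    have i1 : Integrable (fun z => hs (fderiv ℝ (Av μ Φ w) (shift b x z))) (γ d) :=
      (hs_fderiv_Av_le flow_shift le_rfl ha x).2
    have i2 : Integrable (fun z => ‖Av μ Φ w (shift b x z)‖ ^ 2) (γ d) :=
      integrable_bdd (((ha.smooth.continuous.comp
        (by unfold shift; fun_prop : Continuous fun z => shift b x z)).norm.pow 2).aestronglyMeasurable)
        (C' ^ 2) fun z => by
          rw [norm_eq_abs, abs_of_nonneg (sq_nonneg _)]
          exact pow_le_pow_left₀ (norm_nonneg _) (hC' _).1 2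
    have key : ∀ y, b * (i + 1) * hs (fderiv ℝ (Av μ Φ w) y) + ‖Av μ Φ w y‖ ^ 2 ≤ B ^ 2 := by
      intro y
      obtain ⟨a1, j1⟩ := hs_fderiv_Av_le hΦ hc hw y
      have j2 : Integrable (fun ω => ‖w (Φ y ω)‖ ^ 2) μ :=
        integrable_bdd ((hw.smooth.continuous.norm.pow 2).comp_stronglyMeasurable
          (hΦ.meas_apply y).stronglyMeasurable).aestronglyMeasurable (C ^ 2) fun ω => by
          rw [norm_eq_abs, abs_of_nonneg (sq_nonneg _)]
          exact pow_le_pow_left₀ (norm_nonneg _) (hC _).1 2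
      have a2 := norm_Av_sq_le hΦ hw.smooth.continuous (fun z => (hC z).1) y
      calc _ ≤ ∫ ω, (b * (i + 1) * hs (fderiv ℝ w (Φ y ω)) + ‖w (Φ y ω)‖ ^ 2) ∂μ := by
            rw [integral_add (j1.const_mul _) j2, integral_const_mul]
            exact add_le_add (mul_le_mul_of_nonneg_left a1 (by positivity)) a2
        _ ≤ ∫ _, B ^ 2 ∂μ := integral_mono ((j1.const_mul _).add j2) (integrable_const _)
            fun ω => ih (Φ y ω)
        _ = B ^ 2 := by simp
    have h4 : b * (i + 1) * G b (fun y => hs (fderiv ℝ (Av μ Φ w) y)) x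
        + G b (fun y => ‖Av μ Φ w y‖ ^ 2) x ≤ B ^ 2 :=
      calc _ = ∫ z, (b * (i + 1) * hs (fderiv ℝ (Av μ Φ w) (shift b x z))
            + ‖Av μ Φ w (shift b x z)‖ ^ 2) ∂γ d := by
            rw [integral_add (i1.const_mul _) i2, integral_const_mul]; rfl
        _ ≤ ∫ _, B ^ 2 ∂γ d := integral_mono ((i1.const_mul _).add i2) (integrable_const _)
            fun z => key _
        _ = B ^ 2 := by simp
    have h5 := mul_le_mul_of_nonneg_left h2 (by positivity : 0 ≤ b * ((i : ℝ) + 1))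
    simp only [T, hs] at h1 h4 h5 ⊢
    push_cast
    nlinarith

theorem sqrt_hs_iter_G (hΦ : Flow c e μ Φ) (hc : c ≤ 1) (hb : 0 < b) {v : E d → E d}
    (hv : Measurable v) {B : ℝ} (hB : ∀ x, ‖v x‖ ≤ B) (i : ℕ) (x : E d) :
    √(hs (fderiv ℝ ((T b μ Φ)^[i] (G b v)) x)) ≤ B / √(b * (i + 1)) := by
  have hB0 : 0 ≤ B := (norm_nonneg _).trans (hB 0)
  rw [← sqrt_sq hB0, ← sqrt_div (sq_nonneg B)]
  refine sqrt_le_sqrt ?_
  rw [le_div_iff₀ (by positivity), mul_comm]
  nlinarith [hs_iter_G hΦ hc hb hv hB i x, sq_nonneg ‖(T b μ Φ)^[i] (G b v) x‖]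

theorem sum_inv_sqrt_le (n : ℕ) : ∑ l ∈ Finset.range n, 1 / √((l : ℝ) + 1) ≤ 2 * √n := by
  induction n with
  | zero => simp
  | succ n ih =>
    rw [Finset.sum_range_succ]
    have h : 1 / √((n : ℝ) + 1) ≤ 2 * √((n : ℝ) + 1) - 2 * √(n : ℝ) := by
      rw [div_le_iff₀ (by positivity)]
      nlinarith [sq_sqrt (show (0 : ℝ) ≤ n + 1 by positivity), sq_sqrt (Nat.cast_nonneg (α := ℝ) n),
        sq_nonneg (√((n : ℝ) + 1) - √(n : ℝ))]
    push_cast
    linarith

theorem test_iterate (hΦ : Flow c e μ Φ) (hc : c ≤ 1) (he : 0 ≤ e) (hb : 0 < b) {u : E d → ℝ}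
    (hu : Lip1 u L) {k : ℕ} (hk : 2 ≤ k) :
    ∃ du, Test ((Q b μ Φ)^[k] u) du (1 / √(b * k)) (4 / (b * k) + 4 * e / b) := by
  have := hΦ.prob
  set S : ℕ → E d → ℝ := fun j => (Q b μ Φ)^[j] u with hSdef
  have hS : ∀ j, Lip1 (S j) (c ^ j * L) := fun j => lip1_iterate hΦ hc hb hu j
  set m := k / 2 with hm
  have hm1 : 1 ≤ m := by omega
  set B := 1 / √(b * m) with hBdef
  have hB0 : 0 ≤ B := by positivity
  have hgrad : ∀ j, 1 ≤ j → ∀ x, ‖fderiv ℝ (S j) x‖ ≤ 1 / √(b * j) := by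
    intro j hj x
    have h := grad_iterate hΦ hc hb hu j x
    have hj0 : (0 : ℝ) < j := by exact_mod_cast hj
    rw [le_div_iff₀ (sqrt_pos.2 (by positivity))]
    refine (sq_le_sq₀ (by positivity) zero_le_one).1 ?_
    rw [mul_pow, sq_sqrt (by positivity), one_pow, mul_comm]
    linarith [sq_nonneg ((Q b μ Φ)^[j] u x)]
  have hgm : ∀ j, m ≤ j → ∀ x, ‖fderiv ℝ (S j) x‖ ≤ B := fun j hj x =>
    (hgrad j (hm1.trans hj) x).trans (by rw [hBdef]; gcongr)
  have hSucc : ∀ j, S (j + 1) = G b (R μ Φ (S j)) := fun j => Function.iterate_succ_apply' _ _ _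
  have hgG : ∀ j, grad (S (j + 1)) = G b (grad (R μ Φ (S j))) := fun j => by
    rw [hSucc, grad_G (lip1_R hΦ (hS j))]
  have hRm : ∀ j, Measurable (grad (R μ Φ (S j))) := fun j =>
    (continuous_grad (lip1_R hΦ (hS j)).smooth).measurable
  have hRb : ∀ j, m ≤ j → ∀ x, ‖grad (R μ Φ (S j)) x‖ ≤ B := fun j hj x => by
    rw [norm_grad]
    refine (norm_fderiv_Av_le hΦ (hS j).smooth (hS j).norm_le (hgm j hj) x).trans ?_
    exact mul_le_of_le_one_right hB0 hc
  have hgood : ∀ j, m ≤ j → Good (grad (S (j + 1))) := fun j hj => by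
    rw [hgG]; exact good_G hb (hRm j) (hRb j hj)
  -- the deviation of one round from its action on fields
  set r : ℕ → E d → E d := fun j z => grad (R μ Φ (S j)) z - Av μ Φ (grad (S j)) z with hr
  have hrb : ∀ j, m ≤ j → ∀ z, ‖r (j + 1) z‖ ≤ B * e := by
    intro j hj z
    simp only [hr]
    rw [grad_Av hΦ (hS (j + 1)) z, Av, ← integral_sub
      (integrable_bdd (((toDual ℝ (E d)).symm.continuous.comp_aestronglyMeasurable
          (hΦ.meas_deriv (hS (j + 1)).smooth z))) (B * c) fun ω => by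
            rw [LinearIsometryEquiv.norm_map]
            exact deriv_comp_le hΦ (hgm _ (by omega)) z ω)
      (integrable_bdd ((continuous_grad (hS (j + 1)).smooth).comp_stronglyMeasurable
        (hΦ.meas_apply z).stronglyMeasurable).aestronglyMeasurable B fun ω => by
          rw [norm_grad]; exact hgm _ (by omega) _)]
    refine (norm_integral_le_of_norm_le_const (ae_of_all _ fun ω => ?_)).trans_eq
      (show B * e * μ.real Set.univ = B * e by simp)
    rw [grad, ← map_sub, LinearIsometryEquiv.norm_map]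
    conv_lhs => arg 1; arg 2; rw [← ContinuousLinearMap.comp_id (fderiv ℝ (S (j + 1)) (Φ z ω))]
    rw [← ContinuousLinearMap.comp_sub]
    exact (ContinuousLinearMap.opNorm_comp_le _ _).trans
      (mul_le_mul (hgm _ (by omega) _) (hΦ.near ω z) (norm_nonneg _) hB0)
  have hrec : ∀ j, m ≤ j → grad (S (j + 2)) =
      T b μ Φ (grad (S (j + 1))) + G b (r (j + 1)) := by
    intro j hj
    have hg1 : Good (Av μ Φ (grad (S (j + 1)))) := (hgood j hj).Av hΦ
    obtain ⟨C, hC⟩ := hg1.bdd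
    rw [hgG (j + 1)]
    funext x
    simp only [Pi.add_apply, T, G_eq, Av]
    have hcs : Continuous fun w => shift b x w := by unfold shift; fun_prop
    refine Eq.trans ?_ (integral_add (f := fun w => Av μ Φ (grad (S (j + 1))) (shift b x w))
      (g := fun w => r (j + 1) (shift b x w))
      (integrable_bdd (hg1.smooth.continuous.comp hcs).aestronglyMeasurable C
      fun w => (hC _).1) (integrable_bdd (((continuous_grad (lip1_R hΦ (hS (j + 1))).smooth).sub
        hg1.smooth.continuous).comp hcs).aestronglyMeasurable (B * e) fun w => hrb j hj _))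
    simp [hr, Av]
  have main : ∀ j i : ℕ, ∀ x,
      √(hs (fderiv ℝ ((T b μ Φ)^[i] (grad (S (m + j + 1)))) x)) ≤
        B / √(b * ((i : ℝ) + j + 1)) +
          B * e * ∑ l ∈ Finset.range j, 1 / √(b * ((i : ℝ) + l + 1)) := by
    intro j
    induction j with
    | zero =>
      intro i x
      rw [hgG]
      simpa using sqrt_hs_iter_G hΦ hc hb (hRm m) (hRb m le_rfl) i x
    | succ j ih =>
      intro i x
      rw [show m + (j + 1) + 1 = (m + j) + 2 by omega, hrec (m + j) (by omega)]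
      have hrm : Measurable (r (m + j + 1)) :=
        ((continuous_grad (lip1_R hΦ (hS _)).smooth).sub
          ((hgood (m + j) (by omega)).Av hΦ).smooth.continuous).measurable
      have g1 : Good (T b μ Φ (grad (S (m + j + 1)))) := (hgood _ (by omega)).T hΦ
      have g2 : Good (G b (r (m + j + 1))) := good_G hb hrm (hrb _ (by omega))
      rw [iter_add hΦ g1 g2, fderiv_add ((g1.iter hΦ i).smooth.differentiable one_ne_zero x)
        ((g2.iter hΦ i).smooth.differentiable one_ne_zero x), ← Function.iterate_succ_apply]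
      refine (sqrt_hs_add _ _).trans ((add_le_add (ih (i + 1) x)
        (sqrt_hs_iter_G hΦ hc hb hrm (hrb _ (by omega)) i x)).trans (le_of_eq ?_))
      rw [Finset.sum_range_succ', mul_add]
      push_cast
      simp only [add_zero]
      ring_nf
  obtain ⟨j, hj⟩ : ∃ j, k = m + j + 1 := ⟨k - m - 1, by omega⟩
  have hH : ∀ x, √(hs (fderiv ℝ (grad (S k)) x)) ≤ 4 / (b * k) + 4 * e / b := by
    intro x
    have h := main j 0 x
    simp only [Function.iterate_zero, id_eq, Nat.cast_zero, zero_add] at h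
    rw [← hj] at h
    refine h.trans ?_
    have hsb : 0 < √b := sqrt_pos.2 hb
    have hk0 : (0 : ℝ) < k := by exact_mod_cast (by omega : 0 < k)
    have hm3 : (k : ℝ) ≤ 3 * m := by exact_mod_cast (by omega : k ≤ 3 * m)
    have hj2 : (k : ℝ) ≤ 2 * ((j : ℝ) + 1) := by exact_mod_cast (by omega : k ≤ 2 * (j + 1))
    have hjk : (j : ℝ) ≤ k := by exact_mod_cast (by omega : j ≤ k)
    have hm0 : (0 : ℝ) < m := by exact_mod_cast hm1
    refine add_le_add ?_ ?_
    · rw [hBdef, div_div, ← sqrt_mul (by positivity), div_le_div_iff₀ (by positivity) (by positivity),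
        one_mul]
      have h6 : (b * k / 4) ^ 2 ≤ b * m * (b * ((j : ℝ) + 1)) := by
        have := mul_le_mul hm3 hj2 hk0.le (by positivity)
        nlinarith [mul_le_mul_of_nonneg_left this (sq_nonneg b)]
      have := sqrt_le_sqrt h6
      rw [sqrt_sq (by positivity)] at this
      linarith
    · have hsum : ∑ l ∈ Finset.range j, 1 / √(b * ((l : ℝ) + 1)) ≤ 2 * √(3 * m) / √b := by
        simp only [sqrt_mul hb.le, ← div_div, div_right_comm _ (√b), ← Finset.sum_div]
        gcongr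
        exact (sum_inv_sqrt_le j).trans (by gcongr; linarith)
      refine (mul_le_mul_of_nonneg_left hsum (by positivity)).trans ?_
      rw [hBdef, sqrt_mul hb.le, sqrt_mul (by norm_num : (0 : ℝ) ≤ 3)]
      have h3 : √(3 : ℝ) ≤ 2 := by rw [sqrt_le_iff]; norm_num
      calc 1 / (√b * √m) * e * (2 * (√3 * √m) / √b) = 2 * √3 * e / (√b * √b) := by
            field_simp
        _ ≤ 4 * e / b := by rw [mul_self_sqrt hb.le]; gcongr; linarith
  refine ⟨grad (S k), (hS k).bdd, fun x => ?_, ?_, fun x => ?_, fun x => ?_⟩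
  · rw [hasGradientAt_iff_hasFDerivAt, grad, LinearIsometryEquiv.apply_symm_apply]
    exact ((hS k).smooth.differentiable one_ne_zero x).hasFDerivAt
  · rw [hj]; exact (hgood _ (by omega)).smooth
  · rw [norm_grad]; exact hgrad k (by omega) x
  · have := pow_le_pow_left₀ (sqrt_nonneg _) (hH x) 2
    rwa [sq_sqrt (hs_nonneg _)] at this

end gradients

end

end Vale.Agent.P347.Quarter
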