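import Vale.Agent.P347.Quarter.Corr
import Vale.Agent.P347.Quarter.Gauss
import Vale.Agent.P347.Quarter.Quad

/-!
# P347, exponent 1/4: the error of one step in standard units
-/

namespace Vale.Agent.P347.Quarter

open MeasureTheory ProbabilityTheory Real WithLp Finset
open scoped RealInnerProductSpace

noncomputable section

variable {d n L : ℕ} {β : ℝ} {f : E d → E d} {K M : ℝ}

/-- The quadrature of the first order drift. -/
def Qa (β : ℝ) (f : E d → E d) (S : Finset ℕ) (c : ℕ → ℝ) (s : Seed d n) : E d :=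
  ∑ k ∈ S, c k • f (ou β s (k + 1))

/-- A path recorded on `Fin`, continued by zero. -/
def ext0 (p : Fin (n + 1) → E d) (j : ℕ) : E d := if h : j ≤ n then p ⟨j, by omega⟩ else 0

theorem acc_congr {v v' : ℕ → E d} {k : ℕ} (h : ∀ j < k, v j = v' j) : acc β v k = acc β v' k :=
  sum_congr rfl fun j hj => by rw [h j (mem_range.1 hj)]

theorem D2_congr {p q : ℕ → E d} {k : ℕ} (h : ∀ j < k, p j = q j) :
    D2 β f p k = D2 β f q k := by
  refine acc_congr fun j hj => ?_
  rw [D1, D1, h j hj, acc_congr (v' := fun i => f (q i)) fun i hi => by rw [h i (hi.trans hj)]]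

@[fun_prop]
theorem measurable_ext0 (j : ℕ) : Measurable fun p : Fin (n + 1) → E d => ext0 p j := by
  unfold ext0; split_ifs <;> fun_prop

theorem measurable_D2 (hf : Continuous f) {α : Type*} [MeasurableSpace α] {p : α → ℕ → E d}
    (hp : ∀ j, Measurable fun a => p a j) (k : ℕ) : Measurable fun a => D2 β f (p a) k := by
  have hfm := hf.measurable
  unfold D2 acc
  refine Finset.measurable_sum _ fun j _ => ?_
  have h1 : Measurable fun a => D1 β f (p a) j := by
    unfold D1 acc
    exact Finset.measurable_sum _ fun i _ =>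
      (show Measurable fun a => f (p a i) from hfm.comp (hp i)).const_smul
        ((1 - β) * β ^ (j - 1 - i))
  exact (show Measurable fun a => f (p a j - D1 β f (p a) j) from
    hfm.comp ((hp j).sub h1)).const_smul ((1 - β) * β ^ (k - 1 - j))

/-- Read backwards, the path gives the same law. -/
theorem integral_reverse (hf : Fld f K M) (hβ : |β| ≤ 1) {u : E d → ℝ} (hu : Continuous u) :
    ∫ s, u (ou β s n - D2 β f (ou β s) n) ∂seed d n
      = ∫ s, u (s.1 - D2 β f (qb β s) n) ∂seed d n := by
  set Ψ : (Fin (n + 1) → E d) → ℝ := fun p => u (p (Fin.last n) - D2 β f (ext0 p) n)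
  have hΨ : Measurable Ψ := hu.measurable.comp
    ((measurable_pi_apply _).sub (measurable_D2 hf.cont (fun j => measurable_ext0 j) n))
  have hrev : Measurable fun s : Seed d n => fun i : Fin (n + 1) => path β s i.rev := by fun_prop
  have h := congrArg (fun μ => ∫ p, Ψ p ∂μ) (map_reverse (d := d) hβ n)
  rw [integral_map hrev.aemeasurable hΨ.aestronglyMeasurable,
    integral_map measurable_path.aemeasurable hΨ.aestronglyMeasurable] at h
  refine (Eq.trans ?_ h.symm).trans ?_
  · refine integral_congr_ae (ae_of_all _ fun s => ?_)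
    simp only [Ψ]
    rw [D2_congr (p := ext0 (path β s)) (q := ou β s) fun j hj => by simp [ext0, path, hj.le]]
    simp [path]
  · refine integral_congr_ae (ae_of_all _ fun s => ?_)
    simp only [Ψ]
    rw [D2_congr (q := qb β s) fun j hj => by simp [ext0, path, qb, hj.le]]
    simp [path, ou]

/-- One step: the randomised second order scheme against the Euler chain, in standard units. -/
theorem scaled_step (hf : Fld f K M) (h0 : 0 ≤ β) (h1 : β < 1) (hn : 1 ≤ n) (hnL : n ≤ 2 ^ L)
    (hLn : 2 ^ L ≤ 2 * n) {u : E d → ℝ} {du : E d → E d} {L₁ L₂ : ℝ} (hu : Test u du L₁ L₂)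
    (hL₂ : 0 ≤ L₂) (S : Finset ℕ) (hS : S ⊆ range n) (c : ℕ → ℝ) {ε : ℝ} (hε0 : 0 ≤ ε)
    (hε : ∀ y : ℝ, 0 ≤ y → y ≤ 1 →
      |∑ k ∈ S, c k * y ^ (k + 1) - ∑ k ∈ range n, (1 - β) * β ^ k * y ^ (k + 1)| ≤ ε) :
    |∑ i : Fin n × Fin (L + 1), prob β n L i * (∫ x, ∫ w, ∫ w', u (x - Qa β f S c ((x, w) : Seed d n)
          - Zc β f n L ((x, w') : Seed d n) i)
          ∂(Measure.pi fun _ => γ d) ∂(Measure.pi fun _ => γ d) ∂γ d)
        - ∫ s, u (ou β s n - drift β f (ou β s) n) ∂seed d n|
      ≤ L₁ * (2 * K ^ 2 * M + ε * M) + L₂ * (√d * K ^ 2 * ((∑ k ∈ S, |c k|) ^ 2 + 4)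
          + (L + 1) * (2 * K ^ 2 * M ^ 2 + 72 * K ^ 4 * (d * (n * (1 - β))))) := by
  have hb : |β| ≤ 1 := by rw [abs_of_nonneg h0]; exact h1.le
  have hK := hf.K0
  have hL₁ : 0 ≤ L₁ := (norm_nonneg _).trans (hu.le₁ 0)
  set ν := Measure.pi fun _ : Fin n => γ d
  have hud : Differentiable ℝ u := fun x => (hu.grad x).differentiableAt
  have hucont : Continuous u := hud.continuous
  have hlip : ∀ a b, |u a - u b| ≤ L₁ * ‖a - b‖ := fun a b => by
    rw [← norm_eq_abs]
    refine convex_univ.norm_image_sub_le_of_norm_fderiv_le (fun x _ => hud x) (fun x _ => ?_)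
      (Set.mem_univ b) (Set.mem_univ a)
    rw [((hu.grad x).hasFDerivAt).fderiv, LinearIsometryEquiv.norm_map]
    exact hu.le₁ x
  -- bounded integrands
  have bint : ∀ {α : Type} [MeasurableSpace α] {μ : Measure α} [IsProbabilityMeasure μ]
      {X : α → E d}, AEStronglyMeasurable X μ → Integrable (fun a => u (X a)) μ := fun hX =>
    (integrable_const (1 : ℝ)).mono' (hucont.comp_aestronglyMeasurable hX)
      (ae_of_all _ fun a => by rw [norm_eq_abs]; exact hu.bdd _)
  have hP : ∀ j ≤ n, MemLp (fun s : Seed d n => ou β s j) 2 (seed d n) := fun j hj => memLp_ou hb hj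
  -- A: Picard
  set R₀ := ∫ s, u (ou β s n - drift β f (ou β s) n) ∂seed d n
  set A := ∫ s, u (s.1 - D2 β f (qb β s) n) ∂seed d n
  have hA : |A - R₀| ≤ L₁ * (2 * K ^ 2 * M) := by
    simp only [A, R₀]
    rw [← integral_reverse hf hb hucont]
    have h1' : MemLp (fun s => drift β f (ou β s) n) 2 (seed d n) :=
      memLp_drift hf n fun j hj => hP j hj.le
    have h2' : MemLp (fun s => D2 β f (ou β s) n) 2 (seed d n) :=
      memLp_D2 hf fun j hj => hP j hj.le
    have hi1 : Integrable (fun s => u (ou β s n - D2 β f (ou β s) n)) (seed d n) :=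
      bint ((hP n le_rfl).sub h2').1
    have hi2 : Integrable (fun s => u (ou β s n - drift β f (ou β s) n)) (seed d n) :=
      bint ((hP n le_rfl).sub h1').1
    rw [← integral_sub hi1 hi2]
    refine abs_integral_le_integral_abs.trans ((integral_mono (hi1.sub hi2).abs
      (((h1'.sub h2').integrable one_le_two).norm.const_mul L₁) fun s => ?_).trans ?_)
    · refine (hlip _ _).trans (le_of_eq ?_)
      simp only [Pi.sub_apply]
      rw [sub_sub_sub_cancel_left]
    · rw [integral_const_mul]
      exact mul_le_mul_of_nonneg_left (drift_D2 hf h0 h1.le) hL₁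
  -- fibrewise means
  have hQb : ∀ x j, MemLp (fun w => qb β ((x, w) : Seed d n) j) 2 ν := fun x j =>
    memLp_ou_from hb x (Nat.sub_le n j)
  set m₁ : E d → E d := fun x => ∫ w, D1 β f (qb β ((x, w) : Seed d n)) n ∂ν
  set mZ : E d → E d := fun x => ∫ w, (D2 β f (qb β ((x, w) : Seed d n)) n
    - D1 β f (qb β ((x, w) : Seed d n)) n) ∂ν
  set mQ : E d → E d := fun x => ∫ w, Qa β f S c ((x, w) : Seed d n) ∂ν
  have hQa : ∀ x, MemLp (fun w => Qa β f S c ((x, w) : Seed d n)) 2 ν := fun x =>
    memLp_finsetSum _ fun k hk => (memLp_comp_lip hf.cont hf.lip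
      (memLp_ou_from hb x (by have := mem_range.1 (hS hk); omega))).const_smul (c k)
  have hQs : MemLp (fun s : Seed d n => Qa β f S c s) 2 (seed d n) :=
    memLp_finsetSum _ fun k hk => (memLp_comp_lip hf.cont hf.lip
      (hP (k + 1) (by have := mem_range.1 (hS hk); omega))).const_smul (c k)
  have hD1i : ∀ x, Integrable (fun w => D1 β f (qb β ((x, w) : Seed d n)) n) ν := fun x =>
    (memLp_D1 hf fun j _ => hQb x j).integrable one_le_two
  have hD2i : ∀ x, Integrable (fun w => D2 β f (qb β ((x, w) : Seed d n)) n) ν := fun x =>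
    (memLp_D2 hf fun j _ => hQb x j).integrable one_le_two
  have hm : ∀ x, ∫ w, D2 β f (qb β ((x, w) : Seed d n)) n ∂ν = m₁ x + mZ x := fun x => by
    simp only [m₁, mZ]; rw [integral_sub (hD2i x) (hD1i x)]; abel
  -- B: second order drift against its mean
  have hB : ∀ x, |∫ w, u (x - D2 β f (qb β ((x, w) : Seed d n)) n) ∂ν - u (x - (m₁ x + mZ x))|
      ≤ L₂ * √d * (2 * K) ^ 2 := by
    intro x
    have hδ : ContDiff ℝ 1 fun y : Noise d n => -D2 β f (qb β ((x, ofLp y) : Seed d n)) n :=
      (contDiff_D2qb hf x n).neg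
    have h := cov_bound hu hL₂ hδ (K := 2 * K) (fderiv_le_of_lip (by positivity) fun a b => by
      rw [neg_sub_neg, norm_sub_rev a b]; exact norm_D2qb_sub hf h0 h1.le x b a n) x
    rw [← integral_noise (v := fun y : Noise d n => u (x + -D2 β f (qb β ((x, ofLp y) : Seed d n)) n))
      (hucont.comp (continuous_const.add hδ.continuous)),
      ← integral_noise (v := fun y : Noise d n => -D2 β f (qb β ((x, ofLp y) : Seed d n)) n)
        hδ.continuous] at h
    simp only [← sub_eq_add_neg, integral_neg] at h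
    rwa [hm x] at h
  -- C: the algorithm against the same means
  set T : E d → (Fin n → E d) → Fin n × Fin (L + 1) → E d := fun x w i =>
    Zc β f n L ((x, w) : Seed d n) i
  have hT : ∀ x i, MemLp (fun w => T x w i) 2 ν := fun x i =>
    (memLp_delta hf (fun j _ => hQb x j) i.2).const_smul (tw β n / lw L i.2)
  have hTs : ∀ i, MemLp (fun s : Seed d n => Zc β f n L s i) 2 (seed d n) := fun i =>
    (memLp_delta hf (fun j _ => memLp_qb hb j) i.2).const_smul (tw β n / lw L i.2)
  have hsumT : ∀ x, ∑ i, prob β n L i • ∫ w, T x w i ∂ν = mZ x := by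
    intro x
    simp only [← integral_smul, mZ]
    refine (integral_finsetSum _ fun i _ =>
      ((hT x i).integrable one_le_two).smul (prob β n L i)).symm.trans ?_
    exact integral_congr_ae (ae_of_all _ fun w => sum_prob_Zc h0 h1 hn hnL _)
  set V : E d → ℝ := fun x => ∑ i, prob β n L i * ∫ w', ‖T x w' i‖ ^ 2 ∂ν
  have hC : ∀ x, |∑ i, prob β n L i * (∫ w, ∫ w', u (x - Qa β f S c ((x, w) : Seed d n)
      - T x w' i) ∂ν ∂ν) - u (x - (mQ x + mZ x))|
      ≤ L₂ / 2 * V x + L₂ * √d * (K * ∑ k ∈ S, |c k|) ^ 2 := by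
    intro x
    have hδ : ContDiff ℝ 1 fun y : Noise d n => -Qa β f S c ((x, ofLp y) : Seed d n) :=
      (ContDiff.sum fun k _ => (hf.smooth.comp (contDiff_ou x _)).const_smul (c k)).neg
    have h2 := cov_bound hu hL₂ hδ (K := K * ∑ k ∈ S, |c k|)
      (fderiv_le_of_lip (mul_nonneg hK (sum_nonneg fun _ _ => abs_nonneg _)) fun a b => by
        rw [neg_sub_neg, norm_sub_rev a b, Qa, Qa, ← sum_sub_distrib, mul_sum, sum_mul]
        refine (norm_sum_le _ _).trans (sum_le_sum fun k _ => ?_)
        rw [← smul_sub, norm_smul, norm_eq_abs, mul_right_comm, mul_comm (K * _)]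
        exact mul_le_mul_of_nonneg_left ((hf.lip _ _).trans
          (mul_le_mul_of_nonneg_left (norm_ou_sub hb x b a _) hK)) (abs_nonneg _)) (x - mZ x)
    rw [← integral_noise (v := fun y : Noise d n =>
        u (x - mZ x + -Qa β f S c ((x, ofLp y) : Seed d n)))
        (hucont.comp (continuous_const.add hδ.continuous)),
      ← integral_noise (v := fun y : Noise d n => -Qa β f S c ((x, ofLp y) : Seed d n))
        hδ.continuous] at h2
    simp only [← sub_eq_add_neg, integral_neg] at h2
    rw [show x - mZ x - mQ x = x - (mQ x + mZ x) by abel] at h2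
    -- Taylor in the independent correction
    have h1' : ∀ w, |∑ i, prob β n L i * (∫ w', u (x - Qa β f S c ((x, w) : Seed d n) - T x w' i) ∂ν)
        - u (x - mZ x - Qa β f S c ((x, w) : Seed d n))| ≤ L₂ / 2 * V x := by
      intro w
      set o := x - mZ x - Qa β f S c ((x, w) : Seed d n)
      set g := du o
      have hi : ∀ i, Integrable (fun w' => u (x - Qa β f S c ((x, w) : Seed d n) - T x w' i)) ν :=
        fun i => bint (aestronglyMeasurable_const.sub (hT x i).1)
      have hz : ∀ i, Integrable (fun w' => mZ x - T x w' i) ν := fun i =>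
        (integrable_const _).sub ((hT x i).integrable one_le_two)
      have hzero : ∑ i, prob β n L i * (∫ w', ⟪g, mZ x - T x w' i⟫ ∂ν) = 0 := by
        have e : ∀ i, ∫ w', ⟪g, mZ x - T x w' i⟫ ∂ν = ⟪g, mZ x - ∫ w', T x w' i ∂ν⟫ := fun i => by
          rw [integral_inner (hz i),
            integral_sub (integrable_const _) ((hT x i).integrable one_le_two), integral_const,
            probReal_univ, one_smul]
        simp only [e, ← real_inner_smul_right, ← inner_sum, smul_sub, sum_sub_distrib, ← sum_smul,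
          sum_prob h0 h1 hn, one_smul, hsumT x, sub_self, inner_zero_right]
      have hsq : ∀ i, Integrable (fun w' => ‖mZ x - T x w' i‖ ^ 2) ν := fun i =>
        ((memLp_const (mZ x)).sub (hT x i)).integrable_norm_pow two_ne_zero
      have hvar : ∑ i, prob β n L i * (∫ w', ‖mZ x - T x w' i‖ ^ 2 ∂ν) = V x - ‖mZ x‖ ^ 2 := by
        have e : ∀ i, ∫ w', ‖mZ x - T x w' i‖ ^ 2 ∂ν
            = ‖mZ x‖ ^ 2 - 2 * ⟪mZ x, ∫ w', T x w' i ∂ν⟫ + ∫ w', ‖T x w' i‖ ^ 2 ∂ν := fun i => by
          simp only [norm_sub_sq_real]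
          have hj : Integrable (fun w' => ⟪mZ x, T x w' i⟫) ν :=
            ((hT x i).integrable one_le_two).const_inner _
          have hk : Integrable (fun w' => ‖mZ x‖ ^ 2 - 2 * ⟪mZ x, T x w' i⟫) ν :=
            (integrable_const _).sub (hj.const_mul 2)
          rw [integral_add hk
            ((hT x i).integrable_norm_pow two_ne_zero), integral_sub (integrable_const _)
            (hj.const_mul 2), integral_const_mul, integral_inner ((hT x i).integrable one_le_two),
            integral_const, probReal_univ, one_smul]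
        have e2 : ∑ i, prob β n L i * (2 * ⟪mZ x, ∫ w', T x w' i ∂ν⟫) = 2 * ‖mZ x‖ ^ 2 := by
          have e3 : ∑ i, prob β n L i * ⟪mZ x, ∫ w', T x w' i ∂ν⟫ = ‖mZ x‖ ^ 2 := by
            simp only [← real_inner_smul_right, ← inner_sum, hsumT x, real_inner_self_eq_norm_sq]
          rw [← e3, mul_sum]
          exact sum_congr rfl fun i _ => by ring
        simp only [e, mul_add, mul_sub, sum_add_distrib, sum_sub_distrib, e2]
        rw [← sum_mul, sum_prob h0 h1 hn, one_mul]
        ring
      have key : ∀ i, |(∫ w', u (x - Qa β f S c ((x, w) : Seed d n) - T x w' i) ∂ν) - u o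
          - ∫ w', ⟪g, mZ x - T x w' i⟫ ∂ν| ≤ L₂ / 2 * ∫ w', ‖mZ x - T x w' i‖ ^ 2 ∂ν := by
        intro i
        have hj : Integrable (fun w' => ⟪g, mZ x - T x w' i⟫) ν := (hz i).const_inner _
        have hk : Integrable (fun w' => u (x - Qa β f S c ((x, w) : Seed d n) - T x w' i) - u o) ν :=
          (hi i).sub (integrable_const _)
        rw [show (∫ w', u (x - Qa β f S c ((x, w) : Seed d n) - T x w' i) ∂ν) - u o
            = ∫ w', (u (x - Qa β f S c ((x, w) : Seed d n) - T x w' i) - u o) ∂ν by
          rw [integral_sub (hi i) (integrable_const _), integral_const, probReal_univ, one_smul],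
          ← integral_sub hk hj, ← integral_const_mul]
        refine abs_integral_le_integral_abs.trans (integral_mono (hk.sub hj).abs
          ((hsq i).const_mul _) fun w' => ?_)
        have := taylor hu hL₂ o (mZ x - T x w' i)
        rwa [show o + (mZ x - T x w' i) = x - Qa β f S c ((x, w) : Seed d n) - T x w' i by
          simp only [o]; abel] at this
      have e : ∑ i, prob β n L i * (∫ w', u (x - Qa β f S c ((x, w) : Seed d n) - T x w' i) ∂ν) - u o
          = ∑ i, prob β n L i * ((∫ w', u (x - Qa β f S c ((x, w) : Seed d n) - T x w' i) ∂ν) - u o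
            - ∫ w', ⟪g, mZ x - T x w' i⟫ ∂ν) := by
        simp only [mul_sub, sum_sub_distrib, ← sum_mul, sum_prob h0 h1 hn, one_mul, hzero, sub_zero]
      rw [e]
      refine (abs_sum_le_sum_abs _ _).trans ((sum_le_sum fun i _ => (?_ : _ ≤ prob β n L i *
        (L₂ / 2 * ∫ w', ‖mZ x - T x w' i‖ ^ 2 ∂ν))).trans ?_)
      · rw [abs_mul, abs_of_nonneg (prob_nonneg h0 h1 i)]
        exact mul_le_mul_of_nonneg_left (key i) (prob_nonneg h0 h1 i)
      · simp only [mul_left_comm _ (L₂ / 2), ← mul_sum, hvar]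
        exact mul_le_mul_of_nonneg_left (sub_le_self _ (sq_nonneg _)) (by positivity)
    have hii : ∀ i, Integrable (fun w => ∫ w', u (x - Qa β f S c ((x, w) : Seed d n) - T x w' i) ∂ν) ν := by
      intro i
      have hX : AEStronglyMeasurable (fun p : (Fin n → E d) × (Fin n → E d) =>
          x - Qa β f S c ((x, p.1) : Seed d n) - T x p.2 i) (ν.prod ν) :=
        (aestronglyMeasurable_const.sub ((hQa x).1.comp_fst)).sub ((hT x i).1.comp_snd)
      exact (bint hX).integral_prod_left
    have hj : Integrable (fun w => u (x - mZ x - Qa β f S c ((x, w) : Seed d n))) ν :=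
      bint (aestronglyMeasurable_const.sub (hQa x).1)
    have hs : Integrable (fun w => ∑ i, prob β n L i *
        ∫ w', u (x - Qa β f S c ((x, w) : Seed d n) - T x w' i) ∂ν) ν :=
      integrable_finsetSum _ fun i _ => (hii i).const_mul _
    refine (abs_sub_le _ (∫ w, u (x - mZ x - Qa β f S c ((x, w) : Seed d n)) ∂ν) _).trans
      (add_le_add ?_ h2)
    rw [show ∑ i, prob β n L i *
          ∫ w, ∫ w', u (x - Qa β f S c ((x, w) : Seed d n) - T x w' i) ∂ν ∂ν
        = ∫ w, ∑ i, prob β n L i *
          ∫ w', u (x - Qa β f S c ((x, w) : Seed d n) - T x w' i) ∂ν ∂ν by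
        rw [integral_finsetSum _ fun i _ => (hii i).const_mul _]
        simp only [integral_const_mul],
      ← integral_sub hs hj, ← norm_eq_abs]
    exact (norm_integral_le_of_norm_le_const (ae_of_all _ fun w => by
      rw [norm_eq_abs]; exact h1' w)).trans (by simp)
  -- D: quadrature
  set B₁ : E d → ℝ := fun x => ‖mQ x - m₁ x‖
  have hquad : MemLp (fun x => mQ x - m₁ x) 2 (γ d) ∧ ∫ x, B₁ x ∂γ d ≤ ε * M := by
    let cc : ℕ → ℝ := fun i => (if i - 1 ∈ S then c (i - 1) else 0) - (1 - β) * β ^ (i - 1)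
    set S' := (range n).image Nat.succ
    have hsum : ∀ (G : ℕ → E d), ∑ i ∈ S', cc i • G i
        = ∑ k ∈ S, c k • G (k + 1) - ∑ k ∈ range n, ((1 - β) * β ^ k) • G (k + 1) := by
      intro G
      rw [sum_image fun a _ b _ h => Nat.succ_injective h]
      simp only [cc, Nat.succ_eq_add_one, Nat.add_sub_cancel, sub_smul, sum_sub_distrib, ite_smul,
        zero_smul]
      rw [← sum_filter, filter_mem_eq_inter, inter_eq_right.2 hS]
    have hpoly : ∀ y : ℝ, 0 ≤ y → y ≤ 1 → |∑ i ∈ S', cc i * y ^ i| ≤ ε := by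
      intro y hy hy'
      rw [sum_image fun a _ b _ h => Nat.succ_injective h]
      simp only [cc, Nat.succ_eq_add_one, Nat.add_sub_cancel]
      rw [sum_congr rfl fun k _ => sub_mul (ite (k ∈ S) (c k) 0) _ _, sum_sub_distrib]
      simp only [ite_mul, zero_mul]
      rw [← sum_filter, filter_mem_eq_inter, inter_eq_right.2 hS]
      exact hε y hy hy'
    have hrepr : ∀ x, mQ x - m₁ x = ∑ i ∈ S', cc i • ((P β)^[i] f) x := by
      intro x
      rw [hsum fun i => ((P β)^[i] f) x]
      congr 1
      · simp only [mQ, Qa]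
        rw [integral_finsetSum]
        · refine sum_congr rfl fun k hk => ?_
          rw [integral_smul, integral_ou_from hb hf.cont hf.lip (k + 1) n
            (by have := mem_range.1 (hS hk); omega)]
        · exact fun k hk => ((memLp_comp_lip hf.cont hf.lip (memLp_ou_from hb x
            (by have := mem_range.1 (hS hk); omega))).integrable one_le_two).smul (c k)
      · simp only [m₁, D1, acc]
        rw [integral_finsetSum]
        · conv_lhs => rw [← sum_range_reflect]
          refine sum_congr rfl fun k hk => ?_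
          have hk' := mem_range.1 hk
          rw [integral_smul, show n - 1 - (n - 1 - k) = k by omega]
          congr 1
          rw [← integral_ou_from hb hf.cont hf.lip (k + 1) n (by omega)]
          simp only [qb, show n - (n - 1 - k) = k + 1 by omega]
          rfl
        · exact fun k _ => ((memLp_comp_lip hf.cont hf.lip (hQb x k)).integrable one_le_two).smul
            ((1 - β) * β ^ (n - 1 - k))
    have hmem : MemLp (fun x => mQ x - m₁ x) 2 (γ d) := by
      simp only [funext hrepr]
      refine memLp_finsetSum _ fun i hi => MemLp.const_smul (f := fun x => ((P β)^[i] f) x) ?_ (cc i)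
      obtain ⟨k, hk, rfl⟩ := mem_image.1 hi
      have hk' : k + 1 ≤ n := by have := mem_range.1 hk; omega
      have hg : MemLp (fun s : Seed d n => f (ou β s (k + 1))) 2 (seed d n) :=
        memLp_comp_lip hf.cont hf.lip (hP _ hk')
      have hi1 := (hg.integrable one_le_two).integral_prod_left
      have hi2 := (hg.integrable_norm_pow two_ne_zero).integral_prod_left
      simp only [integral_ou_from hb hf.cont hf.lip (k + 1) n hk'] at hi1
      refine (memLp_two_iff_integrable_sq_norm hi1.1).2 (hi2.mono' (hi1.1.norm.pow 2)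
        (ae_of_all _ fun x => ?_))
      rw [norm_eq_abs, abs_of_nonneg (by positivity),
        ← integral_ou_from hb hf.cont hf.lip (k + 1) n hk']
      have hX := memLp_comp_lip hf.cont hf.lip (memLp_ou_from (n := n) hb x hk')
      have hnn : 0 ≤ ∫ w, ‖f (ou β ((x, w) : Seed d n) (k + 1))‖ ^ 2 ∂ν :=
        integral_nonneg fun w => sq_nonneg _
      refine (pow_le_pow_left₀ (norm_nonneg _) ((norm_integral_le_integral_norm _).trans
        (integral_norm_le hX (sqrt_nonneg _) (le_of_eq (sq_sqrt hnn).symm))) 2).trans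
        (le_of_eq (sq_sqrt hnn))
    refine ⟨hmem, integral_norm_le hmem (mul_nonneg hε0 hf.M0) ?_⟩
    simp only [hrepr]
    exact (spectral h0 h1.le hf.lip S' cc hpoly).trans
      ((mul_le_mul_of_nonneg_left hf.size (sq_nonneg ε)).trans_eq (mul_pow _ _ _).symm)
  -- assembly
  have hiA : Integrable (fun s : Seed d n => u (s.1 - D2 β f (qb β s) n)) (seed d n) :=
    bint ((hP 0 (Nat.zero_le n)).sub (memLp_D2 hf fun j _ => memLp_qb hb j)).1
  have hAeq : A = ∫ x, ∫ w, u (x - D2 β f (qb β ((x, w) : Seed d n)) n) ∂ν ∂γ d := integral_seed_fibre hiA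
  have hiD : Integrable (fun x => ∫ w, u (x - D2 β f (qb β ((x, w) : Seed d n)) n) ∂ν) (γ d) :=
    hiA.integral_prod_left
  have hiI : ∀ i, Integrable (fun x => ∫ w, ∫ w', u (x - Qa β f S c ((x, w) : Seed d n) - T x w' i)
      ∂ν ∂ν) (γ d) := by
    intro i
    have hX : AEStronglyMeasurable (fun p : Seed d n × (Fin n → E d) =>
        p.1.1 - Qa β f S c p.1 - Zc β f n L ((p.1.1, p.2) : Seed d n) i) ((seed d n).prod ν) := by
      refine ((hP 0 (Nat.zero_le n)).1.comp_fst.sub hQs.1.comp_fst).sub ?_
      have hq : MeasurePreserving (fun p : Seed d n × (Fin n → E d) => ((p.1.1, p.2) : Seed d n))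
          ((seed d n).prod ν) (seed d n) := measurePreserving_fst.prod (MeasurePreserving.id ν)
      exact (hTs i).1.comp_measurePreserving hq
    exact (bint hX).integral_prod_left.integral_prod_left
  have hiV : Integrable V (γ d) := integrable_finsetSum _ fun i _ =>
    (((hTs i).integrable_norm_pow two_ne_zero).integral_prod_left).const_mul _
  have hV : ∫ x, V x ∂γ d
      ≤ 2 * (L + 1) * (2 * K ^ 2 * M ^ 2 + 72 * K ^ 4 * (d * (n * (1 - β)))) := by
    refine le_trans (le_of_eq ?_) (sum_prob_sq hf h0 h1 hn hLn)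
    simp only [V]
    rw [integral_finsetSum _ fun i _ =>
      (((hTs i).integrable_norm_pow two_ne_zero).integral_prod_left).const_mul _]
    exact sum_congr rfl fun i _ => by
      rw [integral_const_mul, integral_seed_fibre ((hTs i).integrable_norm_pow two_ne_zero)]
  have hiX : Integrable (fun x => ∑ i, prob β n L i *
      ∫ w, ∫ w', u (x - Qa β f S c ((x, w) : Seed d n) - T x w' i) ∂ν ∂ν) (γ d) :=
    integrable_finsetSum _ fun i _ => (hiI i).const_mul _
  have hiB : Integrable B₁ (γ d) := (hquad.1.integrable one_le_two).norm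
  have hfinal : |∫ x, ∑ i, prob β n L i *
      (∫ w, ∫ w', u (x - Qa β f S c ((x, w) : Seed d n) - T x w' i) ∂ν ∂ν) ∂γ d - A|
      ≤ L₂ / 2 * ∫ x, V x ∂γ d + L₂ * √d * (K * ∑ k ∈ S, |c k|) ^ 2
        + L₁ * ∫ x, B₁ x ∂γ d + L₂ * √d * (2 * K) ^ 2 := by
    rw [hAeq, ← integral_sub hiX hiD]
    refine abs_integral_le_integral_abs.trans ((integral_mono (hiX.sub hiD).abs
      ((((hiV.const_mul (L₂ / 2)).add (integrable_const (L₂ * √d * (K * ∑ k ∈ S, |c k|) ^ 2))).add
        (hiB.const_mul L₁)).add (integrable_const (L₂ * √d * (2 * K) ^ 2))) fun x => ?_).trans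
        (le_of_eq ?_))
    · simp only [Pi.add_apply, Pi.sub_apply]
      refine (abs_sub_le _ (u (x - (mQ x + mZ x))) _).trans ?_
      refine (add_le_add (hC x) ((abs_sub_le _ (u (x - (m₁ x + mZ x))) _).trans
        (add_le_add ((hlip _ _).trans (mul_le_mul_of_nonneg_left (le_of_eq (?_ : _ = B₁ x)) hL₁))
          ((abs_sub_comm _ _).trans_le (hB x))))).trans (le_of_eq ?_)
      · simp only [B₁]; rw [show mQ x - m₁ x = -(x - (mQ x + mZ x) - (x - (m₁ x + mZ x))) by abel, norm_neg]
      · ring
    · simp only [Pi.add_apply]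
      have j1 : Integrable (fun x => L₂ / 2 * V x + L₂ * √d * (K * ∑ k ∈ S, |c k|) ^ 2) (γ d) :=
        (hiV.const_mul _).add (integrable_const _)
      have j2 : Integrable (fun x => L₂ / 2 * V x + L₂ * √d * (K * ∑ k ∈ S, |c k|) ^ 2 + L₁ * B₁ x)
          (γ d) := j1.add (hiB.const_mul L₁)
      rw [integral_add j2 (integrable_const _), integral_add j1 (hiB.const_mul L₁),
        integral_add (hiV.const_mul _) (integrable_const _)]
      simp [integral_const_mul]
  rw [show ∫ x, ∑ i, prob β n L i *
        (∫ w, ∫ w', u (x - Qa β f S c ((x, w) : Seed d n) - T x w' i) ∂ν ∂ν) ∂γ d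
      = ∑ i, prob β n L i *
        ∫ x, ∫ w, ∫ w', u (x - Qa β f S c ((x, w) : Seed d n) - T x w' i) ∂ν ∂ν ∂γ d by
      rw [integral_finsetSum _ fun i _ => (hiI i).const_mul _]
      simp only [integral_const_mul]] at hfinal
  refine (abs_sub_le _ A _).trans ((add_le_add hfinal hA).trans ?_)
  nlinarith [mul_le_mul_of_nonneg_left hquad.2 hL₁, mul_le_mul_of_nonneg_left hV hL₂]

end

end Vale.Agent.P347.Quarter
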