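import Vale.Agent.P347.Quarter.Alg
import Vale.Agent.P347.Quarter.Smooth

/-!
# P347, exponent 1/4: one step at a point of the outer chain
-/

namespace Vale.Agent.P347.Quarter

open MeasureTheory ProbabilityTheory Real WithLp Finset
open scoped RealInnerProductSpace

noncomputable section

variable {d n L : ℕ} {h β : ℝ} {g : E d → E d}

theorem Pot.lip2 (hg : Pot g) (x y : E d) : ‖g x - g y‖ ≤ 2 * ‖x - y‖ :=
  convex_univ.norm_image_sub_le_of_norm_fderiv_le
    (fun z _ => (hg.smooth.differentiable one_ne_zero) z) (fun z _ => Tgt.pot_norm hg z)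
    (Set.mem_univ y) (Set.mem_univ x)

theorem inner_self_le (hg : Pot g) (z : E d) : ‖z‖ ^ 2 ≤ ⟪z, g z⟫ := by
  have h1 : ∀ t : ℝ, HasDerivAt (fun t : ℝ => ⟪z, g (t • z)⟫ - t * ‖z‖ ^ 2)
      (⟪z, fderiv ℝ g (t • z) z⟫ - ‖z‖ ^ 2) t := fun t => by
    have h2 := ((hg.smooth.differentiable one_ne_zero) (t • z)).hasFDerivAt.comp_hasDerivAt t
      ((hasDerivAt_id t).smul_const z)
    simp only [one_smul] at h2
    have h3 : HasDerivAt (fun t : ℝ => ⟪z, g (t • z)⟫) ⟪z, fderiv ℝ g (t • z) z⟫ t := by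
      simpa [Function.comp_def] using (innerSL ℝ z).hasFDerivAt.comp_hasDerivAt t h2
    have h4 : HasDerivAt (fun t : ℝ => t * ‖z‖ ^ 2) (‖z‖ ^ 2) t := by
      simpa using (hasDerivAt_id' t).mul_const (‖z‖ ^ 2)
    exact h3.sub h4
  have hm := monotone_of_deriv_nonneg (fun t => (h1 t).differentiableAt) fun t => by
    rw [(h1 t).deriv, sub_nonneg, real_inner_comm]; exact hg.lower _ _
  have := hm (zero_le_one (α := ℝ))
  simp only [zero_smul, one_smul, hg.zero, inner_zero_right, zero_mul, one_mul, sub_zero,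
    sub_nonneg] at this
  exact this

/-- The mean square size of the field at `z`. -/
def fieldSize (d : ℕ) (h : ℝ) (z : E d) : ℝ := √(8 * h ^ 2 * d + 32 * h ^ 3 * ‖z‖ ^ 2)

theorem fld_fz (hg : Pot g) (hh : 0 < h) (hh' : h ≤ 1 / 4) (z : E d) :
    Fld (fz h g z) (2 * h) (fieldSize d h z) := by
  have hgc := hg.smooth
  have hsmooth : ContDiff ℝ 1 (fz h g z) :=
    ((hgc.comp (contDiff_const.add (contDiff_id.const_smul √h))).sub contDiff_const).const_smul √h
  refine ⟨hsmooth, by positivity, by linarith, fun x y => ?_, sqrt_nonneg _, ?_⟩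
  · simp only [fz, ← smul_sub, sub_sub_sub_cancel_right, norm_smul, norm_eq_abs,
      abs_of_nonneg (sqrt_nonneg h)]
    refine (mul_le_mul_of_nonneg_left (hg.lip2 _ _) (sqrt_nonneg h)).trans (le_of_eq ?_)
    rw [add_sub_add_left_eq_sub, ← smul_sub, norm_smul, norm_eq_abs, abs_of_nonneg (sqrt_nonneg h)]
    linear_combination (2 * ‖x - y‖) * mul_self_sqrt hh.le
  · rw [fieldSize, sq_sqrt (by positivity)]
    have hb : ∀ y, ‖fz h g z y‖ ^ 2 ≤ 32 * h ^ 3 * ‖z‖ ^ 2 + 8 * h ^ 2 * ‖y‖ ^ 2 := by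
      intro y
      have h1 : ‖fz h g z y‖ ≤ √h * (2 * (2 * h * ‖z‖ + √h * ‖y‖)) := by
        simp only [fz, norm_smul, norm_eq_abs, abs_of_nonneg (sqrt_nonneg h)]
        refine mul_le_mul_of_nonneg_left ((hg.lip2 _ _).trans ?_) (sqrt_nonneg h)
        refine mul_le_mul_of_nonneg_left ?_ zero_le_two
        rw [show z - h • g z + √h • y - z = √h • y - h • g z by abel]
        refine (norm_sub_le _ _).trans ?_
        rw [norm_smul, norm_smul, norm_eq_abs, norm_eq_abs, abs_of_nonneg (sqrt_nonneg h),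
          abs_of_pos hh]
        nlinarith [mul_le_mul_of_nonneg_left (Tgt.pot_lin hg z) hh.le]
      refine (pow_le_pow_left₀ (norm_nonneg _) h1 2).trans ?_
      have e : (√h * (2 * (2 * h * ‖z‖ + √h * ‖y‖))) ^ 2
          = h * 4 * (2 * h * ‖z‖ + √h * ‖y‖) ^ 2 := by rw [mul_pow, sq_sqrt hh.le]; ring
      rw [e]
      have e2 : (2 * h * ‖z‖ + √h * ‖y‖) ^ 2 ≤ 2 * (4 * h ^ 2 * ‖z‖ ^ 2 + h * ‖y‖ ^ 2) := by
        nlinarith [sq_nonneg (2 * h * ‖z‖ - √h * ‖y‖), sq_sqrt hh.le]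
      nlinarith [mul_le_mul_of_nonneg_left e2 (show 0 ≤ h * 4 by positivity)]
    refine (integral_mono_of_nonneg (ae_of_all _ fun y => by positivity)
      ((integrable_const _).add (γ_sq_integrable.const_mul _)) (ae_of_all _ hb)).trans (le_of_eq ?_)
    simp only [Pi.add_apply]
    rw [integral_add (integrable_const _) (γ_sq_integrable.const_mul _), integral_const,
      probReal_univ, one_smul, integral_const_mul, γ_norm_sq]
    ring

theorem fieldSize_le (hd : 1 ≤ d) (hh : 0 ≤ h) (hh' : h ≤ 1) (z : E d) :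
    fieldSize d h z ≤ 6 * h * √d * (1 + ‖z‖ ^ 2 / d) := by
  have hd' : (0 : ℝ) < d := by exact_mod_cast hd
  refine (sqrt_le_left (by positivity)).2 ?_
  set t := ‖z‖ ^ 2 / d
  have ht : 0 ≤ t := by positivity
  have e : ‖z‖ ^ 2 = t * d := by simp only [t]; field_simp
  rw [e, mul_pow, mul_pow, mul_pow, sq_sqrt hd'.le]
  nlinarith [mul_nonneg (mul_nonneg (pow_nonneg hh 2) hd'.le) ht,
    mul_le_mul_of_nonneg_left hh' (mul_nonneg (mul_nonneg (pow_nonneg hh 2) hd'.le) ht),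
    mul_nonneg (mul_nonneg (pow_nonneg hh 2) hd'.le) (mul_nonneg ht ht),
    mul_nonneg (pow_nonneg hh 2) hd'.le]

/-- The Euler chain in standard units. -/
theorem chain_scaled (hh : 0 ≤ h) (z : E d) (s : Seed d n) : ∀ k,
    chain h β g z s k
      = z - h • g z + √h • (ou β s k - drift β (fz h g z) (ou β s) k)
  | 0 => by simp [chain, drift, ou]
  | k + 1 => by
    rw [chain, chain_scaled hh z s k, drift, ou]
    set o := ou β s k
    set r := drift β (fz h g z) (ou β s) k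
    simp only [fz]
    have e : √h * √h = h := mul_self_sqrt hh
    match_scalars <;> (first | ring1 | linear_combination (1 - β) * e | linear_combination -(1 - β) * e)

theorem Test.scale {u : E d → ℝ} {du : E d → E d} {L₁ L₂ : ℝ} (hu : Test u du L₁ L₂) (hh : 0 ≤ h)
    (c : E d) : Test (fun y => u (c + √h • y)) (fun y => √h • du (c + √h • y)) (√h * L₁) (h * L₂) := by
  have haff : ContDiff ℝ 1 fun y : E d => c + √h • y :=
    contDiff_const.add (contDiff_id.const_smul √h)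
  have hD : ∀ y : E d, HasFDerivAt (fun y : E d => c + √h • y)
      (√h • ContinuousLinearMap.id ℝ (E d)) y := fun y =>
    ((hasFDerivAt_id y).const_smul √h).const_add c
  refine ⟨fun y => hu.bdd _, fun y => ?_, (hu.smooth.comp haff).const_smul √h, fun y => ?_,
    fun y => ?_⟩
  · rw [hasGradientAt_iff_hasFDerivAt]
    refine ((hu.grad _).hasFDerivAt.comp y (hD y)).congr_fderiv ?_
    ext v; simp
  · rw [norm_smul, norm_eq_abs, abs_of_nonneg (sqrt_nonneg h)]
    exact mul_le_mul_of_nonneg_left (hu.le₁ _) (sqrt_nonneg h)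
  · have h2 := (((hu.smooth.differentiable one_ne_zero) _).hasFDerivAt.comp y (hD y)).const_smul √h
    rw [show fderiv ℝ (fun y => √h • du (c + √h • y)) y = _ from h2.fderiv]
    simp only [hs, smul_apply, ContinuousLinearMap.comp_apply, ContinuousLinearMap.id_apply,
      map_smul, norm_smul, norm_eq_abs, abs_of_nonneg (sqrt_nonneg h), ← mul_assoc, mul_pow,
      mul_self_sqrt hh, ← mul_sum]
    exact mul_le_mul_of_nonneg_left (hu.le₂ _) (sq_nonneg h)

/-- One step of the algorithm is close to one backward step of the exact chain. -/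
theorem step_close (hg : Pot g) (hd : 1 ≤ d) (hh : 0 < h) (hh' : h ≤ 1 / 4) (h0 : 0 ≤ β)
    (h1 : β < 1) (hn : 1 ≤ n) (hnL : n ≤ 2 ^ L) (hLn : 2 ^ L ≤ 2 * n) (S : Finset ℕ)
    (hS : S ⊆ range n) (c : ℕ → ℝ) {ε W T : ℝ} (hε0 : 0 ≤ ε)
    (hε : ∀ y : ℝ, 0 ≤ y → y ≤ 1 →
      |∑ k ∈ S, c k * y ^ (k + 1) - ∑ k ∈ range n, (1 - β) * β ^ k * y ^ (k + 1)| ≤ ε)
    (hW : ∑ k ∈ S, |c k| ≤ W) (hT : (n : ℝ) * (1 - β) ≤ T) {u : E d → ℝ} {du : E d → E d}
    {L₁ L₂ : ℝ} (hu : Test u du L₁ L₂) (hL₂ : 0 ≤ L₂) (z : E d) :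
    |Aop h β n L S c g u z - R (seed d n) (Phi h β g n) u z|
      ≤ (6 * √d * (h * √h) * L₁ * (8 * h ^ 2 + ε)
          + h ^ 3 * L₂ * (4 * √d * (W ^ 2 + 4) + 1500 * (L + 1) * (1 + T) * (h ^ 2 * d)))
        * (1 + ‖z‖ ^ 2 / d) := by
  have hf := fld_fz hg hh hh' z
  have hut := hu.scale hh.le (z - h • g z)
  have hL₁ : 0 ≤ L₁ := (norm_nonneg _).trans (hu.le₁ 0)
  have key := scaled_step hf h0 h1 hn hnL hLn hut (by positivity) S hS c hε0 hε
  have e : R (seed d n) (Phi h β g n) u z = ∫ s, u (z - h • g z + √h •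
      (ou β s n - drift β (fz h g z) (ou β s) n)) ∂seed d n := by
    simp only [R, Phi, chain_scaled hh.le]
  rw [e]
  refine le_trans key ?_
  set M := fieldSize d h z
  have hM := fieldSize_le hd hh.le (by linarith) z
  set Θ := 1 + ‖z‖ ^ 2 / (d : ℝ)
  have hΘ : 1 ≤ Θ := by simp only [Θ]; linarith [show 0 ≤ ‖z‖ ^ 2 / (d : ℝ) by positivity]
  have hd' : (0 : ℝ) < d := by exact_mod_cast hd
  have hM0 : 0 ≤ M := sqrt_nonneg _
  have hM2 : M ^ 2 ≤ 32 * h ^ 2 * d * Θ := by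
    simp only [M, fieldSize, Θ]
    rw [sq_sqrt (by positivity), mul_add, mul_one, mul_assoc _ (d : ℝ), mul_div_cancel₀ _ hd'.ne']
    nlinarith [mul_nonneg (sq_nonneg h) hd'.le,
      mul_le_mul_of_nonneg_right (show h ≤ 1 by linarith)
        (mul_nonneg (sq_nonneg h) (sq_nonneg ‖z‖))]
  have hW' : (∑ k ∈ S, |c k|) ^ 2 ≤ W ^ 2 :=
    pow_le_pow_left₀ (sum_nonneg fun _ _ => abs_nonneg _) hW 2
  have hT0 : 0 ≤ T := le_trans (by have := sub_nonneg.2 h1.le; positivity) hT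
  have t1 : √h * L₁ * (2 * (2 * h) ^ 2 * M + ε * M)
      ≤ 6 * √d * (h * √h) * L₁ * (8 * h ^ 2 + ε) * Θ := by
    have := mul_le_mul_of_nonneg_left hM
      (show 0 ≤ √h * L₁ * (8 * h ^ 2 + ε) by positivity)
    linarith
  have t2 : √d * (2 * h) ^ 2 * ((∑ k ∈ S, |c k|) ^ 2 + 4)
      + (L + 1) * (2 * (2 * h) ^ 2 * M ^ 2 + 72 * (2 * h) ^ 4 * (d * (n * (1 - β))))
      ≤ h ^ 2 * (4 * √d * (W ^ 2 + 4) + 1500 * (L + 1) * (1 + T) * (h ^ 2 * d)) * Θ := by
    have a1 := mul_le_mul_of_nonneg_left (add_le_add hW' (le_refl (4 : ℝ)))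
      (show 0 ≤ √d * (2 * h) ^ 2 by positivity)
    have a2 := mul_le_mul_of_nonneg_left hM2 (show 0 ≤ ((L : ℝ) + 1) * (8 * h ^ 2) by positivity)
    have a3 := mul_le_mul_of_nonneg_left hT
      (show 0 ≤ ((L : ℝ) + 1) * (1152 * h ^ 4 * d) by positivity)
    nlinarith [mul_le_mul_of_nonneg_left hΘ
      (show 0 ≤ h ^ 2 * (4 * √d * (W ^ 2 + 4)) by positivity),
      mul_le_mul_of_nonneg_left hΘ (show 0 ≤ ((L : ℝ) + 1) * (1500 * h ^ 4 * d) * T by positivity),
      show 0 ≤ ((L : ℝ) + 1) * h ^ 4 * d * Θ by positivity,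
      show 0 ≤ ((L : ℝ) + 1) * h ^ 4 * d * T by positivity]
  have t3 := mul_le_mul_of_nonneg_left t2 (mul_nonneg hh.le hL₂)
  linarith

theorem integral_aff {α : Type*} [MeasurableSpace α] {μ : Measure α} [IsProbabilityMeasure μ]
    {f : α → ℝ} (hf : Integrable f μ) (a b : ℝ) :
    ∫ x, (a + 4 * (b + f x)) ∂μ = a + 4 * (b + ∫ x, f x ∂μ) := by
  have h1 : Integrable (fun x => b + f x) μ := (integrable_const b).add hf
  rw [integral_add (integrable_const a) (h1.const_mul 4), integral_const_mul,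
    integral_add (integrable_const b) hf, integral_const, integral_const, probReal_univ, one_smul,
    one_smul]

/-- The algorithm does not move far. -/
theorem step_moment (hg : Pot g) (hd : 1 ≤ d) (hh : 0 < h) (hh' : h ≤ 1 / 8) (h0 : 0 ≤ β)
    (h1 : β < 1) (hn : 1 ≤ n) (hLn : 2 ^ L ≤ 2 * n) (S : Finset ℕ)
    (hS : S ⊆ range n) (c : ℕ → ℝ) {W T : ℝ} (hW : ∑ k ∈ S, |c k| ≤ W)
    (hT : (n : ℝ) * (1 - β) ≤ T) (hsmall : h * (W ^ 2 + (L + 1) * (1 + T)) ≤ 1 / 5000) (z : E d) :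
    ∑ i : Fin n × Fin (L + 1), prob β n L i *
      ∫ x, ∫ w, ∫ w', ‖z - h • g z + √h • (x - Qa β (fz h g z) S c ((x, w) : Seed d n)
        - Zc β (fz h g z) n L ((x, w') : Seed d n) i)‖ ^ 2
        ∂(Measure.pi fun _ => γ d) ∂(Measure.pi fun _ => γ d) ∂γ d
      ≤ ‖z‖ ^ 2 + 4 * h * d := by
  have hf := fld_fz hg hh (by linarith) z
  set f := fz h g z
  set M := fieldSize d h z
  set ν := Measure.pi fun _ : Fin n => γ d
  have hb : |β| ≤ 1 := by rw [abs_of_nonneg h0]; exact h1.le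
  have hQs : MemLp (fun s : Seed d n => Qa β f S c s) 2 (seed d n) :=
    memLp_finsetSum _ fun k hk => (memLp_comp_lip hf.cont hf.lip
      (memLp_ou hb (k := k + 1) (by have := mem_range.1 (hS hk); omega))).const_smul (c k)
  have hTs : ∀ i : Fin n × Fin (L + 1), MemLp (fun s : Seed d n => Zc β f n L s i) 2 (seed d n) :=
    fun i => (memLp_delta hf (fun j _ => memLp_qb hb j) i.2).const_smul (tw β n / lw L i.2)
  set a := z - h • g z
  have hpt : ∀ (x : E d) (w w' : Fin n → E d) i,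
      ‖a + √h • (x - Qa β f S c ((x, w) : Seed d n) - Zc β f n L ((x, w') : Seed d n) i)‖ ^ 2
        ≤ (1 + h) * ‖a + √h • x‖ ^ 2 + 4 * (‖Qa β f S c ((x, w) : Seed d n)‖ ^ 2
          + ‖Zc β f n L ((x, w') : Seed d n) i‖ ^ 2) := by
    intro x w w' i
    set A := a + √h • x
    set B := Qa β f S c ((x, w) : Seed d n)
    set C := Zc β f n L ((x, w') : Seed d n) i
    rw [show a + √h • (x - B - C) = A - √h • (B + C) by simp only [A]; module, norm_sub_sq_real,
      norm_smul, norm_eq_abs, abs_of_nonneg (sqrt_nonneg h), mul_pow, sq_sqrt hh.le,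
      real_inner_smul_right]
    have h2 := abs_real_inner_le_norm A (B + C)
    have h3 : ‖B + C‖ ^ 2 ≤ 2 * (‖B‖ ^ 2 + ‖C‖ ^ 2) :=
      (pow_le_pow_left₀ (norm_nonneg _) (norm_add_le B C) 2).trans (by
        nlinarith [sq_nonneg (‖B‖ - ‖C‖)])
    have h4 : -(2 * (√h * ⟪A, B + C⟫)) ≤ h * ‖A‖ ^ 2 + ‖B + C‖ ^ 2 := by
      have h5 : |√h * ⟪A, B + C⟫| ≤ √h * ‖A‖ * ‖B + C‖ := by
        rw [abs_mul, abs_of_nonneg (sqrt_nonneg h), mul_assoc]
        exact mul_le_mul_of_nonneg_left h2 (sqrt_nonneg h)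
      nlinarith [neg_abs_le (√h * ⟪A, B + C⟫), sq_nonneg (√h * ‖A‖ - ‖B + C‖), sq_sqrt hh.le]
    nlinarith [mul_le_mul_of_nonneg_right (show h ≤ 1 by linarith) (sq_nonneg ‖B + C‖)]
  have hA : Integrable (fun x : E d => ‖a + √h • x‖ ^ 2) (γ d) :=
    ((memLp_const a).add ((IsGaussian.memLp_two_id (μ := γ d)).const_smul √h)).integrable_norm_pow
      two_ne_zero
  have hA2 : ∫ x, ‖a + √h • x‖ ^ 2 ∂γ d = ‖a‖ ^ 2 + h * d := by
    simp only [norm_add_sq_real, norm_smul, norm_eq_abs, mul_pow, sq_abs, sq_sqrt hh.le,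
      real_inner_smul_right]
    have hj : Integrable (fun x : E d => 2 * (√h * ⟪a, x⟫)) (γ d) :=
      ((IsGaussian.integrable_id.const_inner a).const_mul √h).const_mul 2
    have hk : Integrable (fun x : E d => ‖a‖ ^ 2 + 2 * (√h * ⟪a, x⟫)) (γ d) :=
      (integrable_const _).add hj
    rw [integral_add hk (γ_sq_integrable.const_mul h), integral_add (integrable_const _) hj,
      integral_const_mul, integral_const_mul, γ_inner_zero, integral_const, probReal_univ, one_smul,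
      integral_const_mul, γ_norm_sq]
    ring
  have hQi := hQs.integrable_norm_pow (p := 2) two_ne_zero
  have hone : ∀ i, ∫ x, ∫ w, ∫ w', ‖a + √h • (x - Qa β f S c ((x, w) : Seed d n)
        - Zc β f n L ((x, w') : Seed d n) i)‖ ^ 2 ∂ν ∂ν ∂γ d
      ≤ (1 + h) * (‖a‖ ^ 2 + h * d) + 4 * (∫ s, ‖Qa β f S c s‖ ^ 2 ∂seed d n
          + ∫ s, ‖Zc β f n L s i‖ ^ 2 ∂seed d n) := by
    intro i
    have hZi := (hTs i).integrable_norm_pow (p := 2) two_ne_zero
    rw [integral_seed_fibre hQi, integral_seed_fibre hZi, ← hA2]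
    have i1 : Integrable (fun x => ∫ w, ‖Qa β f S c ((x, w) : Seed d n)‖ ^ 2 ∂ν) (γ d) :=
      hQi.integral_prod_left
    have i2 : Integrable (fun x => ∫ w, ‖Zc β f n L ((x, w) : Seed d n) i‖ ^ 2 ∂ν) (γ d) :=
      hZi.integral_prod_left
    have i3 : Integrable (fun x => (1 + h) * ‖a + √h • x‖ ^ 2 + 4 *
        (∫ w, ‖Qa β f S c ((x, w) : Seed d n)‖ ^ 2 ∂ν
          + ∫ w, ‖Zc β f n L ((x, w) : Seed d n) i‖ ^ 2 ∂ν)) (γ d) :=
      (hA.const_mul _).add ((i1.add i2).const_mul 4)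
    refine le_trans (integral_mono_of_nonneg
      (ae_of_all _ fun x => integral_nonneg fun w => integral_nonneg fun w' => sq_nonneg _) i3
      ?_) (le_of_eq ?_)
    · filter_upwards [hQi.prod_right_ae, hZi.prod_right_ae] with x hx hx'
      set B := ∫ w', ‖Zc β f n L ((x, w') : Seed d n) i‖ ^ 2 ∂ν
      have j : Integrable (fun w => (1 + h) * ‖a + √h • x‖ ^ 2
          + 4 * (‖Qa β f S c ((x, w) : Seed d n)‖ ^ 2 + B)) ν :=
        (integrable_const _).add ((hx.add (integrable_const _)).const_mul 4)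
      refine (integral_mono_of_nonneg (ae_of_all _ fun w => integral_nonneg fun w' => sq_nonneg _) j
        (ae_of_all _ fun w => ?_)).trans (le_of_eq ?_)
      · refine (integral_mono_of_nonneg (ae_of_all _ fun w' => sq_nonneg _)
          ((integrable_const _).add (((integrable_const _).add hx').const_mul 4))
          (ae_of_all _ fun w' => hpt x w w' i)).trans (le_of_eq ?_)
        exact integral_aff hx' _ _
      · simp only [add_comm (‖Qa β f S c _‖ ^ 2) B]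
        rw [integral_aff hx]; ring
    · have i4 : Integrable (fun x => ∫ w, ‖Qa β f S c ((x, w) : Seed d n)‖ ^ 2 ∂ν
          + ∫ w, ‖Zc β f n L ((x, w) : Seed d n) i‖ ^ 2 ∂ν) (γ d) := i1.add i2
      rw [integral_add (hA.const_mul _) (i4.const_mul 4), integral_const_mul, integral_const_mul,
        integral_add i1 i2]
  refine (sum_le_sum fun i _ => mul_le_mul_of_nonneg_left (hone i) (prob_nonneg h0 h1 i)).trans ?_
  simp only [mul_add, sum_add_distrib, ← sum_mul, sum_prob h0 h1 hn, one_mul]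
  rw [show ∑ i : Fin n × Fin (L + 1), prob β n L i * (4 * ∫ s, ‖Zc β f n L s i‖ ^ 2 ∂seed d n)
    = 4 * ∑ i, prob β n L i * ∫ s, ‖Zc β f n L s i‖ ^ 2 ∂seed d n by
    rw [mul_sum]; exact sum_congr rfl fun i _ => by ring]
  have hZ := sum_prob_sq hf h0 h1 hn hLn
  have hQ : ∫ s, ‖Qa β f S c s‖ ^ 2 ∂seed d n ≤ W ^ 2 * M ^ 2 := by
    have hfi : ∀ k ∈ S, Integrable (fun s : Seed d n => ‖f (ou β s (k + 1))‖ ^ 2) (seed d n) :=
      fun k hk => (memLp_comp_lip hf.cont hf.lip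
        (memLp_ou hb (by have := mem_range.1 (hS hk); omega))).integrable_norm_pow two_ne_zero
    have hW0 : 0 ≤ W := (sum_nonneg fun _ _ => abs_nonneg _).trans hW
    refine (integral_mono hQi (integrable_finsetSum S fun k hk =>
      ((hfi k hk).const_mul |c k|).const_mul W) fun s => ?_).trans ?_
    · have h1' : ‖Qa β f S c s‖ ≤ ∑ k ∈ S, |c k| * ‖f (ou β s (k + 1))‖ :=
        (norm_sum_le _ _).trans_eq (sum_congr rfl fun k _ => by rw [norm_smul, norm_eq_abs])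
      refine (pow_le_pow_left₀ (norm_nonneg _) h1' 2).trans ?_
      have hCS := sum_mul_sq_le_sq_mul_sq S (fun k => √|c k|)
        (fun k => √|c k| * ‖f (ou β s (k + 1))‖)
      simp only [← mul_assoc, mul_self_sqrt (abs_nonneg _), mul_pow, sq_sqrt (abs_nonneg _)] at hCS
      refine hCS.trans ((mul_le_mul_of_nonneg_right hW
        (sum_nonneg fun k _ => by positivity)).trans_eq ?_)
      rw [mul_sum]
    · rw [integral_finsetSum S fun k hk => ((hfi k hk).const_mul |c k|).const_mul W]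
      simp only [integral_const_mul]
      rw [← mul_sum, pow_two W, mul_assoc]
      refine mul_le_mul_of_nonneg_left ((sum_le_sum fun k hk => mul_le_mul_of_nonneg_left
        (hf.size_ou hb (by have := mem_range.1 (hS hk); omega)) (abs_nonneg _)).trans ?_) hW0
      rw [← sum_mul]; exact mul_le_mul_of_nonneg_right hW (sq_nonneg _)
  have hM2 : M ^ 2 = 8 * h ^ 2 * d + 32 * h ^ 3 * ‖z‖ ^ 2 := sq_sqrt (by positivity)
  have ha : ‖a‖ ^ 2 ≤ (1 - 2 * h + 4 * h ^ 2) * ‖z‖ ^ 2 := by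
    have h6 : ‖z‖ ^ 2 ≤ ⟪z, g z⟫ := inner_self_le hg z
    simp only [a, norm_sub_sq_real, real_inner_smul_right, norm_smul, mul_pow, norm_eq_abs, sq_abs]
    nlinarith [pow_le_pow_left₀ (norm_nonneg _) (Tgt.pot_lin hg z) 2,
      mul_le_mul_of_nonneg_left h6 hh.le]
  have hd' : (1 : ℝ) ≤ d := by exact_mod_cast hd
  have hT0 : 0 ≤ T := le_trans (by have := sub_nonneg.2 h1.le; positivity) hT
  have hz := sq_nonneg ‖z‖
  set S' := W ^ 2 + ((L : ℝ) + 1) * (1 + T)
  have hS0 : 0 ≤ S' := by positivity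
  have hh2 : h ^ 2 ≤ 1 / 64 := by nlinarith
  have hM0 : 0 ≤ M ^ 2 := sq_nonneg M
  set EZ := ∑ i, prob β n L i * ∫ s, ‖Zc β f n L s i‖ ^ 2 ∂seed d n
  set EQ := ∫ s, ‖Qa β f S c s‖ ^ 2 ∂seed d n
  have b0 : EZ ≤ 2 * ((L : ℝ) + 1) * (8 * h ^ 2 * M ^ 2 + 1152 * h ^ 4 * (d * T)) := by
    refine hZ.trans ?_
    have := mul_le_mul_of_nonneg_left hT
      (show 0 ≤ 2 * ((L : ℝ) + 1) * (1152 * h ^ 4 * d) by positivity)
    linarith
  have b1 : 4 * EQ + 4 * EZ ≤ S' * (5 * M ^ 2 + 9216 * h ^ 4 * d) := by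
    have := mul_le_mul_of_nonneg_left hh2 (show 0 ≤ 64 * ((L : ℝ) + 1) * M ^ 2 by positivity)
    have := mul_nonneg (show 0 ≤ (L : ℝ) + 1 by positivity) (mul_nonneg hT0 hM0)
    have : 0 ≤ ((L : ℝ) + 1) * h ^ 4 * d := by positivity
    have : 0 ≤ W ^ 2 * h ^ 4 * d := by positivity
    have : 0 ≤ W ^ 2 * M ^ 2 := by positivity
    have : 0 ≤ ((L : ℝ) + 1) * M ^ 2 := by positivity
    simp only [S']
    linarith
  have b2 : S' * (5 * M ^ 2 + 9216 * h ^ 4 * d)
      ≤ 184 / 5000 * (h * d) + 160 / 5000 * (h ^ 2 * ‖z‖ ^ 2) := by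
    have e : 5 * M ^ 2 + 9216 * h ^ 4 * d ≤ h * (184 * (h * d) + 160 * (h ^ 2 * ‖z‖ ^ 2)) := by
      rw [hM2]
      have := mul_le_mul_of_nonneg_left hh2 (show 0 ≤ 9216 * h ^ 2 * (d : ℝ) by positivity)
      linarith
    refine (mul_le_mul_of_nonneg_left e hS0).trans ?_
    rw [← mul_assoc, mul_comm S' h]
    refine (mul_le_mul_of_nonneg_right hsmall (by positivity)).trans (le_of_eq (by ring))
  have b3 : (1 + h) * ‖a‖ ^ 2 ≤ (1 - h + 3 * h ^ 2) * ‖z‖ ^ 2 := by
    refine (mul_le_mul_of_nonneg_left ha (by linarith)).trans ?_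
    have := mul_le_mul_of_nonneg_left hh' (show 0 ≤ 4 * h ^ 2 * ‖z‖ ^ 2 by positivity)
    linarith [show 0 ≤ h ^ 2 * ‖z‖ ^ 2 by positivity]
  have := mul_le_mul_of_nonneg_left hh' (show 0 ≤ h * ‖z‖ ^ 2 by positivity)
  have := mul_le_mul_of_nonneg_left hh' (show 0 ≤ h * (d : ℝ) by positivity)
  have : 0 ≤ h * ‖z‖ ^ 2 := by positivity
  have : 0 ≤ h * (d : ℝ) := by positivity
  linarith

end

end Vale.Agent.P347.Quarter
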